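import Vale.Agent.P280.H939.E3b
import Mathlib.RingTheory.Localization.FractionRing

/-!
# P280 (B1), E3c: the parametrisation of the source component exists
-/

namespace Vale.Agent.P280.H939

open DirectSum Vale.Agent.P280.T Vale.Agent.P280.H127

variable {M : Type} [AddCommGroup M] [DecidableEq M]
variable {R : Type} [CommRing R] [Algebra ℂ R] {𝒜 : ℕ × M → Submodule ℂ R} [GradedAlgebra 𝒜]
variable {l L : M →+ ℤ} {μ : M} {p : R →ₐ[ℂ] ℂ} {f : R} {n : ℕ} {u : Fin n → R} {χ : Fin n → M}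

/-- algebra homomorphisms with values in a subalgebra given by an injective map -/
theorem exists_lift_range {A B E : Type*} [CommRing A] [CommRing B] [CommRing E] [Algebra ℂ A]
    [Algebra ℂ B] [Algebra ℂ E] (incl : A →ₐ[ℂ] E) (hinj : Function.Injective incl)
    (θ : B →ₐ[ℂ] E) (hr : ∀ h, ∃ a, incl a = θ h) : ∃ φ : B →ₐ[ℂ] A, ∀ h, incl (φ h) = θ h := by
  choose φ hφ using hr
  have hadd : ∀ x y, φ (x + y) = φ x + φ y := fun x y =>
    hinj (by rw [hφ, map_add, map_add, hφ, hφ])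
  have hsmul : ∀ (c : ℂ) x, φ (c • x) = c • φ x := fun c x =>
    hinj (by rw [hφ, map_smul, map_smul, hφ])
  have hmul : ∀ x y, φ (x * y) = φ x * φ y := fun x y =>
    hinj (by rw [hφ, map_mul, map_mul, hφ, hφ])
  have hone : φ 1 = 1 := hinj (by rw [hφ, map_one, map_one])
  exact ⟨AlgHom.ofLinearMap { toFun := φ, map_add' := hadd, map_smul' := hsmul } hone hmul, hφ⟩

theorem CData.exists_line (hX : IsTorusManifold 𝒜) (C : CData 𝒜 L μ p f u χ)
    (i0 : {i : Fin n // 0 < L (χ i)}) (h0 : l (χ i0) = 0)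
    (hpos : ∀ i : {i : Fin n // 0 < L (χ i)}, i ≠ i0 → 0 < l (χ i)) :
    ∃ (f1 : R) (k : ℕ) (φ : R →ₐ[ℂ] MvPolynomial (Fin 2) ℂ), LData 𝒜 l μ (χ i0) f f1 k φ := by
  classical
  have hdom := C.dom
  let K := FractionRing R
  have hK : Function.Injective (algebraMap R K) := IsFractionRing.injective R K
  have hF : algebraMap R K f ≠ 0 := fun h => C.f_ne (hK (by rw [h, map_zero]))
  have hPinj := C.inj hK hF
  obtain ⟨J, hJ⟩ := C.exists_jj hK hF
  have hJinj : ∀ x, J x = 0 → x = 0 := fun x hx => hK (by rw [← hJ, hx, map_zero, map_zero])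
  set ω := χ i0 with hω
  have hLω : 0 < L ω := i0.2
  have hJh : ∀ (d : ℕ) (m : M), ∀ h ∈ 𝒜 (d, m),
      ∃ P : MvPolynomial {i : Fin n // 0 < L (χ i)} ℂ,
      MvPolynomial.IsWeightedHomogeneous (fun i : {i : Fin n // 0 < L (χ i)} => χ i) P
        (m - d • μ) ∧ J h = MvPolynomial.X none ^ d * MvPolynomial.rename some P := by
    intro d m h hh
    obtain ⟨P, hP, hP'⟩ := C.exists_hom hF hh
    exact ⟨P, hP, hPinj (by rw [hJ, hP'])⟩
  -- low elements
  have hlow : ∀ (d : ℕ) (m : M), l (m - d • μ) = 0 → ∀ h ∈ 𝒜 (d, m), h ≠ 0 →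
      ∃ (c : ℂ) (j : ℕ), c ≠ 0 ∧ m = d • μ + j • ω ∧
        J h = MvPolynomial.X none ^ d * (MvPolynomial.C c * MvPolynomial.X (some i0) ^ j) := by
    intro d m hm h hh hne
    obtain ⟨P, hP, hJP⟩ := hJh d m h hh
    obtain ⟨c, j, hPc, hj⟩ := low_poly (L := L)
      (χ := fun i : {i : Fin n // 0 < L (χ i)} => χ i) i0 h0 hpos hLω hP hm
    have hc : c ≠ 0 := by
      rintro rfl
      apply hne
      apply hJinj
      rw [hJP, hPc, map_zero, zero_mul, map_zero, mul_zero]
    refine ⟨c, j, hc, ?_, ?_⟩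
    · have := hj hc
      change j • ω = m - d • μ at this
      rw [this]
      abel
    · rw [hJP, hPc, map_mul, map_pow, MvPolynomial.rename_C, MvPolynomial.rename_X]
  -- nonnegativity
  have hnonneg : ∀ (d : ℕ) (m : M), ∀ h ∈ 𝒜 (d, m), h ≠ 0 → 0 ≤ l (m - d • μ) := by
    intro d m h hh hne
    obtain ⟨P, hP, hJP⟩ := hJh d m h hh
    have hP0 : P ≠ 0 := by
      rintro rfl
      apply hne
      apply hJinj
      rw [hJP, map_zero, mul_zero]
    obtain ⟨e, he⟩ := MvPolynomial.support_nonempty.2 hP0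
    exact (single_poly (χ := fun i : {i : Fin n // 0 < L (χ i)} => χ i) i0 h0 hpos hP he).1
  -- the degree of the line
  let J1 : Set ℕ := {j : ℕ | ∃ h ∈ 𝒜 (1, μ + j • ω), h ≠ 0}
  have hJ1 : J1.Nonempty := ⟨0, f, by rw [zero_smul, add_zero]; exact C.hf, C.f_ne⟩
  have hJ1b : BddAbove J1 := by
    obtain ⟨b, hb⟩ := ((finite_weights hX).image L).bddAbove
    refine ⟨(b - L μ).toNat, ?_⟩
    rintro j ⟨h, hh, hne⟩
    have h1 := hb ⟨μ + j • ω, ⟨h, hh, hne⟩, rfl⟩
    rw [map_add, map_nsmul, nsmul_eq_mul] at h1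
    have h2 : (j : ℤ) ≤ (j : ℤ) * L ω := by nlinarith
    omega
  set k := sSup J1 with hk
  have hkmem : k ∈ J1 := Nat.sSup_mem hJ1 hJ1b
  have hkle : ∀ j ∈ J1, j ≤ k := fun j hj => le_csSup hJ1b hj
  -- the map
  let A := MvPolynomial (Fin 2) ℂ
  let E := FractionRing A
  let incl : A →ₐ[ℂ] E := IsScalarTower.toAlgHom ℂ A E
  have hincl : Function.Injective incl := IsFractionRing.injective A E
  set s : E := incl (MvPolynomial.X 0) with hs
  set t : E := incl (MvPolynomial.X 1) with ht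
  have hs0 : s ≠ 0 := by
    intro h
    exact MvPolynomial.X_ne_zero (R := ℂ) (0 : Fin 2) (hincl (by rw [map_zero]; exact h))
  have hst : ∀ j : ℕ, s ^ j * (t / s) ^ j = t ^ j := by
    intro j
    rw [← mul_pow, mul_comm s, div_mul_cancel₀ t hs0]
  let Θ : MvPolynomial (Option {i : Fin n // 0 < L (χ i)}) ℂ →ₐ[ℂ] E :=
    MvPolynomial.aeval (fun o => o.elim (s ^ k) (fun i => if i = i0 then t / s else 0))
  have hΘn : Θ (MvPolynomial.X none) = s ^ k := MvPolynomial.aeval_X _ _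
  have hΘs : Θ (MvPolynomial.X (some i0)) = t / s := by
    have h1 : Θ (MvPolynomial.X (some i0)) = if i0 = i0 then t / s else 0 :=
      MvPolynomial.aeval_X _ _
    rw [h1, if_pos rfl]
  have hΘr : ∀ P, Θ (MvPolynomial.rename some P) =
      MvPolynomial.aeval (fun i => if i = i0 then t / s else 0) P := by
    intro P
    change MvPolynomial.aeval _ (MvPolynomial.rename some P) = _
    rw [MvPolynomial.aeval_rename]
    rfl
  have hΘlow : ∀ (d : ℕ) (c : ℂ) (j : ℕ),
      Θ (MvPolynomial.X none ^ d * (MvPolynomial.C c * MvPolynomial.X (some i0) ^ j)) =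
        (s ^ k) ^ d * (algebraMap ℂ E c * (t / s) ^ j) := by
    intro d c j
    rw [map_mul, map_pow, hΘn, map_mul, map_pow, hΘs]
    congr 2
    exact MvPolynomial.aeval_C _ _
  have hΘ0 : ∀ (d : ℕ) (m : M), l (m - d • μ) ≠ 0 → ∀ h ∈ 𝒜 (d, m), Θ (J h) = 0 := by
    intro d m hm h hh
    obtain ⟨P, hP, hJP⟩ := hJh d m h hh
    rw [hJP, map_mul, hΘr, pos_poly i0 h0 hpos hP hm, mul_zero]
  have hrange : ∀ h, ∃ a, incl a = (Θ.comp J) h := by
    intro h
    have hh : h ∈ Algebra.adjoin ℂ {h : R | ∃ m : M, h ∈ 𝒜 (1, m)} := by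
      rw [hX.gen]; trivial
    induction hh using Algebra.adjoin_induction with
    | mem h hh =>
      obtain ⟨m, hh⟩ := hh
      by_cases hne : h = 0
      · exact ⟨0, by rw [hne, map_zero, map_zero]⟩
      by_cases hm : l (m - 1 • μ) = 0
      · obtain ⟨c, j, hc, hmj, hJc⟩ := hlow 1 m hm h hh hne
        have hj : j ≤ k := by
          refine hkle j ⟨h, ?_, hne⟩
          rw [hmj, one_smul] at hh
          exact hh
        refine ⟨MvPolynomial.C c * (MvPolynomial.X 0 ^ (k - j) * MvPolynomial.X 1 ^ j), ?_⟩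
        change _ = Θ (J h)
        rw [hJc, hΘlow, map_mul, map_mul, map_pow, map_pow, ← hs, ← ht, pow_one]
        have h1 : incl (MvPolynomial.C c) = algebraMap ℂ E c := AlgHom.commutes incl c
        rw [h1]
        have h2 : s ^ k = s ^ (k - j) * s ^ j := by rw [← pow_add, Nat.sub_add_cancel hj]
        rw [h2, ← hst j]
        ring
      · exact ⟨0, by
          rw [map_zero]
          exact (hΘ0 1 m hm h hh).symm⟩
    | algebraMap c =>
      exact ⟨algebraMap ℂ A c, by rw [AlgHom.commutes, AlgHom.commutes]⟩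
    | add x y _ _ hx hy =>
      obtain ⟨a, ha⟩ := hx
      obtain ⟨b, hb⟩ := hy
      exact ⟨a + b, by rw [map_add, map_add, ha, hb]⟩
    | mul x y _ _ hx hy =>
      obtain ⟨a, ha⟩ := hx
      obtain ⟨b, hb⟩ := hy
      exact ⟨a * b, by rw [map_mul, map_mul, ha, hb]⟩
  obtain ⟨φ, hφ⟩ := exists_lift_range incl hincl (Θ.comp J) hrange
  have hφ' : ∀ h, incl (φ h) = Θ (J h) := hφ
  -- strong form of `low`
  have hlow' : ∀ (d : ℕ) (m : M), l (m - d • μ) = 0 → ∀ h ∈ 𝒜 (d, m), h ≠ 0 →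
      ∃ (c : ℂ) (i j : ℕ), c ≠ 0 ∧ i + j = d * k ∧ m = d • μ + j • ω ∧
        φ h = MvPolynomial.C c * (MvPolynomial.X 0 ^ i * MvPolynomial.X 1 ^ j) ∧
        J h = MvPolynomial.X none ^ d * (MvPolynomial.C c * MvPolynomial.X (some i0) ^ j) := by
    intro d m hm h hh hne
    obtain ⟨c, j, hc, hmj, hJc⟩ := hlow d m hm h hh hne
    have h1 : MvPolynomial.X 0 ^ j * φ h =
        MvPolynomial.C c * (MvPolynomial.X 0 ^ (d * k) * MvPolynomial.X 1 ^ j) := by
      apply hincl
      have h2 : incl (MvPolynomial.C c) = algebraMap ℂ E c := AlgHom.commutes incl c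
      rw [map_mul, map_pow, hφ', hJc, hΘlow, map_mul, map_mul, map_pow, map_pow, h2, ← hs, ← ht,
        mul_comm d k, pow_mul, ← hst j]
      ring
    have hjk : j ≤ d * k := by
      by_contra hlt
      push Not at hlt
      have h2 : MvPolynomial.X (0 : Fin 2) ^ (j - d * k) * φ h =
          MvPolynomial.C c * MvPolynomial.X 1 ^ j := by
        have h3 : (MvPolynomial.X (0 : Fin 2) : MvPolynomial (Fin 2) ℂ) ^ (d * k) ≠ 0 :=
          pow_ne_zero _ (MvPolynomial.X_ne_zero 0)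
        apply mul_left_cancel₀ h3
        rw [← mul_assoc, ← pow_add, Nat.add_sub_cancel' hlt.le, h1]
        ring
      have h3 := congrArg (MvPolynomial.eval (![0, 1] : Fin 2 → ℂ)) h2
      rw [map_mul, map_pow, MvPolynomial.eval_X, map_mul, map_pow, MvPolynomial.eval_X,
        MvPolynomial.eval_C] at h3
      have h4 : (![0, 1] : Fin 2 → ℂ) 0 = 0 := rfl
      have h5 : (![0, 1] : Fin 2 → ℂ) 1 = 1 := rfl
      rw [h4, h5, zero_pow (by omega), zero_mul, one_pow, mul_one] at h3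
      exact hc h3.symm
    refine ⟨c, d * k - j, j, hc, Nat.sub_add_cancel hjk, hmj, ?_, hJc⟩
    have h3 : (MvPolynomial.X (0 : Fin 2) : MvPolynomial (Fin 2) ℂ) ^ j ≠ 0 :=
      pow_ne_zero _ (MvPolynomial.X_ne_zero 0)
    apply mul_left_cancel₀ h3
    rw [h1]
    have h4 : (MvPolynomial.X (0 : Fin 2) : MvPolynomial (Fin 2) ℂ) ^ (d * k) =
        MvPolynomial.X 0 ^ j * MvPolynomial.X 0 ^ (d * k - j) := by
      rw [← pow_add, Nat.add_sub_cancel' hjk]
    rw [h4]
    ring
  have hjuniq : ∀ j j' : ℕ, j • ω = j' • ω → j = j' := by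
    intro j j' h
    have h7 := congrArg L h
    rw [map_nsmul, map_nsmul, nsmul_eq_mul, nsmul_eq_mul] at h7
    exact_mod_cast mul_right_cancel₀ hLω.ne' h7
  -- the element at infinity
  obtain ⟨f1', hf1', hf1ne⟩ := hkmem
  obtain ⟨c1, i1, j1, hc1, hij1, hm1, hφ1, -⟩ := hlow' 1 (μ + k • ω) (by
    rw [one_smul, add_sub_cancel_left, map_nsmul, h0, smul_zero]) f1' hf1' hf1ne
  have hj1 : j1 = k := by
    rw [one_smul] at hm1
    exact (hjuniq _ _ (add_left_cancel hm1)).symm
  have hi1 : i1 = 0 := by omega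
  -- the element with a simple zero
  have huf : u i0 ∈ coarse 𝒜 (rw' μ) ω := C.gens.hom i0
  obtain ⟨N, b, hb, hb1, -⟩ := clear_deh C.hf hF huf
  have hJb : J b = MvPolynomial.X none ^ N * MvPolynomial.X (some i0) := by
    apply hPinj
    rw [hJ, map_mul, map_pow, PsiM_none, PsiM_some, hb1]
  have hbne : b ≠ 0 := by
    rintro rfl
    rw [map_zero] at hJb
    exact (mul_ne_zero (pow_ne_zero _ (MvPolynomial.X_ne_zero _)) (MvPolynomial.X_ne_zero _))
      hJb.symm
  obtain ⟨c2, i2, j2, hc2, hij2, hm2, hφ2, -⟩ := hlow' N (N • μ + ω) (by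
    rw [add_sub_cancel_left, h0]) b hb hbne
  have hj2 : j2 = 1 := by
    have := add_left_cancel hm2
    refine (hjuniq 1 j2 ?_).symm
    rw [one_smul]
    exact this
  subst hj2
  have hkpos : 0 < k := by
    rcases Nat.eq_zero_or_pos k with h | h
    · rw [h, mul_zero] at hij2
      omega
    · exact h
  refine ⟨c1⁻¹ • f1', k, φ, hkpos, h0, ⟨N, i2, c2⁻¹ • b, Submodule.smul_mem _ _ hb, hij2, ?_⟩,
    Submodule.smul_mem _ _ hf1', ?_, ?_, ?_, ?_, hnonneg, ?_⟩
  · rw [map_smul, hφ2, ← MvPolynomial.smul_eq_C_mul, smul_smul, inv_mul_cancel₀ hc2, one_smul,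
      pow_one]
  · have hJf : J f = MvPolynomial.X none := by
      apply hPinj
      rw [hJ, PsiM_none]
    apply hincl
    rw [hφ', hJf, hΘn, map_pow]
  · rw [map_smul, hφ1, ← MvPolynomial.smul_eq_C_mul, smul_smul, inv_mul_cancel₀ hc1, one_smul,
      hi1, hj1, pow_zero, one_mul]
  · intro d m hm h hh
    apply hincl
    rw [hφ', hΘ0 d m hm h hh, map_zero]
  · intro d m hm h hh hne
    obtain ⟨c, i, j, hc, hij, hmj, hφc, -⟩ := hlow' d m hm h hh hne
    exact ⟨c, i, j, hc, hij, hmj, hφc⟩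
  · intro d x hx hφx
    let G : Polynomial ℂ →ₐ[ℂ] MvPolynomial (Option {i : Fin n // 0 < L (χ i)}) ℂ :=
      Polynomial.aeval (MvPolynomial.X (some i0))
    have hJx : J x = MvPolynomial.X none ^ d * G (evs (φ x)) := by
      refine H587.co_induction (l := l) (d := d) (k := d • l μ)
        (P := fun x => J x = MvPolynomial.X none ^ d * G (evs (φ x))) ?_ ?_ ?_ hx
      · rw [map_zero, map_zero, map_zero, map_zero, mul_zero]
      · intro a b ha hb
        rw [map_add, ha, hb, map_add, map_add, map_add, mul_add]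
      · intro m hm h hh
        by_cases hne : h = 0
        · rw [hne, map_zero, map_zero, map_zero, map_zero, mul_zero]
        obtain ⟨c, i, j, hc, hij, hmj, hφc, hJc⟩ := hlow' d m (by
          rw [map_sub, map_nsmul, hm, sub_self]) h hh hne
        have h1 : evs (MvPolynomial.C c) = Polynomial.C c := AlgHom.commutes evs c
        have h2 : G (Polynomial.C c) = MvPolynomial.C c := AlgHom.commutes G c
        have h3 : G Polynomial.X = MvPolynomial.X (some i0) := Polynomial.aeval_X _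
        have h4 : evs (MvPolynomial.X 0 ^ i * MvPolynomial.X 1 ^ j) = Polynomial.X ^ j := by
          rw [map_mul, map_pow, map_pow, evs_zero, evs_one, one_pow, one_mul]
        have h5 : evs (φ h) = Polynomial.C c * Polynomial.X ^ j := by
          rw [hφc, map_mul, h1, h4]
        rw [hJc, h5, map_mul, map_pow, h2, h3]
    apply hJinj
    rw [hJx, hφx, map_zero, map_zero, mul_zero]

end Vale.Agent.P280.H939
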