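import Vale.Agent.P280.H939.R3c

/-!
# P280, row R3 (d): (s1) and (s2)
-/

namespace Vale.Agent.P280.H939

open DirectSum Vale.Agent.P280.T

section
variable {R : Type} [CommRing R] [Algebra ℂ R] {𝒜 : ℕ × ℤ → Submodule ℂ R} [GradedAlgebra 𝒜]
  {μ a : ℤ} {p : R →ₐ[ℂ] ℂ} {f : R} {K : Type} [Field K] [Algebra R K] [Algebra ℂ K]
  [IsScalarTower ℂ R K]

variable (𝒜 μ f K) in
/-- The dehomogenisation in weight `k`. -/
noncomputable abbrev cf (k : ℤ) : R →ₗ[ℂ] K := co 𝒜 (algebraMap R K f) dg (wt μ) k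

theorem cf_of_mem {d : ℕ} {m k : ℤ} {b : R} (hb : b ∈ 𝒜 (d, m)) :
    cf 𝒜 μ f K k b = if m - (d : ℤ) * μ = k then
      algebraMap R K b * algebraMap R K f ^ (-(d : ℤ)) else 0 :=
  co_of_mem 𝒜 (algebraMap R K f) dg (wt μ) hb

theorem cf_mul (hf0 : algebraMap R K f ≠ 0) {d : ℕ} {m k : ℤ} {x : R} (hx : x ∈ 𝒜 (d, m))
    (c : R) : cf 𝒜 μ f K k (c * x) =
      (algebraMap R K x * algebraMap R K f ^ (-(d : ℤ))) *
        cf 𝒜 μ f K (k - (m - (d : ℤ) * μ)) c := by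
  rw [mul_comm c x]
  exact co_mul 𝒜 (algebraMap R K f) dg (wt μ) hf0 hx c

theorem cf_f (hf0 : algebraMap R K f ≠ 0) (hf : f ∈ 𝒜 (1, μ)) {k : ℤ} (c : R) :
    cf 𝒜 μ f K k (c * f) = cf 𝒜 μ f K k c := by
  rw [cf_mul hf0 hf]
  have h1 : algebraMap R K f * algebraMap R K f ^ (-((1 : ℕ) : ℤ)) = 1 := by
    rw [Nat.cast_one, zpow_neg_one, mul_inv_cancel₀ hf0]
  have h2 : k - (μ - ((1 : ℕ) : ℤ) * μ) = k := by simp
  rw [h1, h2, one_mul]

/-- The value at the source can be read off from the weight zero part. -/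
theorem cf_zero_eq (hfix : IsFixed 𝒜 p μ) (pf : p f = 1) (hf0 : algebraMap R K f ≠ 0) (b : R) :
    ∃ (M : ℕ), ∀ N : ℕ, M ≤ N → ∃ ρ : R,
      algebraMap R K f ^ N * cf 𝒜 μ f K 0 b = algebraMap R K ρ ∧ p ρ = p b := by
  induction b using DirectSum.Decomposition.inductionOn 𝒜 with
  | zero => exact ⟨0, fun N _ => ⟨0, by simp, by simp⟩⟩
  | homogeneous b =>
    rename_i g
    obtain ⟨b, hb⟩ := b
    obtain ⟨d, m⟩ := g
    refine ⟨d, fun N hN => ?_⟩
    change ∃ ρ : R, algebraMap R K f ^ N * cf 𝒜 μ f K 0 b = algebraMap R K ρ ∧ p ρ = p b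
    rw [cf_of_mem hb]
    by_cases hm : m - (d : ℤ) * μ = 0
    · rw [if_pos hm]
      refine ⟨b * f ^ (N - d), ?_, by rw [map_mul, map_pow, pf, one_pow, mul_one]⟩
      rw [map_mul, map_pow, zpow_neg, zpow_natCast]
      have e : algebraMap R K f ^ N = algebraMap R K f ^ (N - d) * algebraMap R K f ^ d := by
        rw [← pow_add, Nat.sub_add_cancel hN]
      rw [e]
      field_simp
    · rw [if_neg hm]
      refine ⟨0, by simp, ?_⟩
      rw [map_zero]
      by_contra hne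
      have := hfix d m b hb (Ne.symm hne)
      apply hm
      rw [this, nsmul_eq_mul]
      simp
  | add x y hx hy =>
    obtain ⟨M, hM⟩ := hx
    obtain ⟨M', hM'⟩ := hy
    refine ⟨max M M', fun N hN => ?_⟩
    obtain ⟨ρ, h1, h2⟩ := hM N (le_trans (le_max_left _ _) hN)
    obtain ⟨σ, h3, h4⟩ := hM' N (le_trans (le_max_right _ _) hN)
    exact ⟨ρ + σ, by rw [map_add, mul_add, h1, h3, map_add], by rw [map_add, h2, h4, map_add]⟩

variable [IsDomain R] [IsNoetherianRing R]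

theorem cf_neg (hgen : Algebra.adjoin ℂ {h : R | ∃ m : ℤ, h ∈ 𝒜 (1, m)} = ⊤)
    (hfix : IsFixed 𝒜 p μ) (hw : ∀ χ : ℤ, TangentWeight 𝒜 p μ χ → 0 < χ) (hf : f ∈ 𝒜 (1, μ))
    (pf : p f = 1) {k : ℤ} (hk : k < 0) (b : R) : cf 𝒜 μ f K k b = 0 := by
  induction b using DirectSum.Decomposition.inductionOn 𝒜 with
  | zero => simp
  | homogeneous b =>
    rename_i g
    obtain ⟨b, hb⟩ := b
    obtain ⟨d, m⟩ := g
    change cf 𝒜 μ f K k b = 0
    rw [cf_of_mem hb]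
    by_cases hm : m - (d : ℤ) * μ = k
    · rw [eq_zero_of_neg hgen hfix hw hf pf hk (mem_coarse hb hm)]
      simp
    · rw [if_neg hm]
  | add x y hx hy => rw [map_add, hx, hy, add_zero]

/-- (s2): elements of weight zero are multiples of powers of `f`. -/
theorem eq_of_zero_weight (hgen : Algebra.adjoin ℂ {h : R | ∃ m : ℤ, h ∈ 𝒜 (1, m)} = ⊤)
    (hfix : IsFixed 𝒜 p μ) (hw : ∀ χ : ℤ, TangentWeight 𝒜 p μ χ → 0 < χ) (hf : f ∈ 𝒜 (1, μ))
    (pf : p f = 1) {d : ℕ} {h : R} (hh : h ∈ 𝒜 (d, d • μ)) : h = p h • f ^ d := by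
  set I := RingHom.ker p with hI
  obtain ⟨r, hr, hrI⟩ := Submodule.exists_sub_one_mem_and_smul_le_of_fg_of_le_sup (I := I)
    (N := Ideal.span (gens 𝒜 μ f)) (N' := I) (P := I) (IsNoetherian.noetherian I) le_rfl (by
      have := ker_le hgen hfix hw hf pf
      rwa [pow_two] at this)
  have hrI' : ∀ x ∈ I, r * x ∈ Ideal.span (gens 𝒜 μ f) := fun x hx =>
    hrI (Submodule.smul_mem_pointwise_smul x r I hx)
  have inj : Function.Injective (algebraMap R (FractionRing R)) :=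
    IsFractionRing.injective R (FractionRing R)
  have hfne : f ≠ 0 := by
    rintro rfl
    rw [map_zero] at pf
    exact zero_ne_one pf
  have hf0 : algebraMap R (FractionRing R) f ≠ 0 := fun h => hfne (inj (by rw [h, map_zero]))
  have claim : ∀ u ∈ Ideal.span (gens 𝒜 μ f), ∀ c : R, cf 𝒜 μ f (FractionRing R) 0 (c * u) = 0 := by
    intro u hu
    induction hu using Submodule.span_induction with
    | mem x hx =>
      intro c
      rcases hx with rfl | ⟨m, hm, hx⟩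
      · rw [mul_sub, map_sub, cf_f hf0 hf, mul_one, sub_self]
      · rw [cf_mul hf0 hx, cf_neg hgen hfix hw hf pf (by push_cast; omega), mul_zero]
    | zero => intro c; simp
    | add x y _ _ hx hy => intro c; rw [mul_add, map_add, hx, hy, add_zero]
    | smul a x _ hx => intro c; rw [smul_eq_mul, ← mul_assoc]; exact hx _
  set g := h - p h • f ^ d with hg
  have hfd : f ^ d ∈ 𝒜 (d, d • μ) := by
    have := SetLike.pow_mem_graded d hf
    rwa [Prod.smul_mk, smul_eq_mul, mul_one] at this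
  have hgm : g ∈ 𝒜 (d, d • μ) := Submodule.sub_mem _ hh (Submodule.smul_mem _ _ hfd)
  have hgI : g ∈ I := by
    rw [hI, RingHom.mem_ker, hg, map_sub, map_smul, map_pow, pf, one_pow, smul_eq_mul, mul_one,
      sub_self]
  have h1 := claim _ (hrI' g hgI) 1
  rw [one_mul, cf_mul hf0 hgm, mul_eq_zero] at h1
  have hr0 : cf 𝒜 μ f (FractionRing R) 0 r ≠ 0 := by
    intro h0
    obtain ⟨M, hM⟩ := cf_zero_eq (K := FractionRing R) (𝒜 := 𝒜) hfix pf hf0 r
    obtain ⟨ρ, hρ, hpρ⟩ := hM M le_rfl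
    rw [h0, mul_zero] at hρ
    have : ρ = 0 := inj (by rw [← hρ, map_zero])
    rw [this, map_zero] at hpρ
    have hr1 : p r = 1 := by
      have := (RingHom.mem_ker (f := p)).1 hr
      rw [map_sub, map_one, sub_eq_zero] at this
      exact this
    rw [hr1] at hpρ
    exact zero_ne_one hpρ
  have e0 : (0 : ℤ) - (d • μ - (d : ℤ) * μ) = 0 := by rw [nsmul_eq_mul]; simp
  rw [e0] at h1
  have h2 : algebraMap R (FractionRing R) g = 0 := by
    rcases h1 with h1 | h1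
    · rcases mul_eq_zero.1 h1 with h1 | h1
      · exact h1
      · exact absurd h1 (zpow_ne_zero _ hf0)
    · exact absurd h1 hr0
  have : g = 0 := inj (by rw [h2, map_zero])
  rw [hg, sub_eq_zero] at this
  exact this

end

section final

variable {R : Type} [CommRing R] [Algebra ℂ R] {𝒜 : ℕ × ℤ → Submodule ℂ R} [GradedAlgebra 𝒜]
  {μ a : ℤ} {p : R →ₐ[ℂ] ℂ}

/-- (s1) -/
theorem source_s1 (hX : IsTorusManifold 𝒜) (hp : IsSource 𝒜 (AddMonoidHom.id ℤ) p μ a) :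
    ∃ f ∈ 𝒜 (1, μ), p f = 1 := exists_f hX.gen hp.1 hp.2.1

/-- (s2) -/
theorem source_s2 (hX : IsTorusManifold 𝒜) (hp : IsSource 𝒜 (AddMonoidHom.id ℤ) p μ a) :
    (∀ (d : ℕ) (m : ℤ), ∀ h ∈ 𝒜 (d, m), h ≠ 0 → d • μ ≤ m) ∧
      ∀ f ∈ 𝒜 (1, μ), p f ≠ 0 → ∀ (d : ℕ), ∀ h ∈ 𝒜 (d, d • μ), ∃ c : ℂ, h = c • f ^ d := by
  have := hX.domain
  have := hX.finiteType
  have : IsNoetherianRing R := Algebra.FiniteType.isNoetherianRing ℂ R
  have hw : ∀ χ : ℤ, TangentWeight 𝒜 p μ χ → 0 < χ := fun χ h => (hp.2.2 χ h).1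
  refine ⟨fun d m h hh hne => ?_, fun f hf hpf d h hh => ?_⟩
  · obtain ⟨f, hf, pf⟩ := source_s1 hX hp
    by_contra hlt
    refine hne (eq_zero_of_neg hX.gen hp.2.1 hw hf pf (k := m - (d : ℤ) * μ) ?_
      (mem_coarse hh (wt_apply μ d m)))
    rw [nsmul_eq_mul] at hlt
    push Not at hlt
    have : ((d : ℕ) : ℤ) * μ = (d : ℤ) * μ := rfl
    linarith
  · have hf' : (p f)⁻¹ • f ∈ 𝒜 (1, μ) := Submodule.smul_mem _ _ hf
    have pf' : p ((p f)⁻¹ • f) = 1 := by rw [map_smul, smul_eq_mul, inv_mul_cancel₀ hpf]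
    have := eq_of_zero_weight hX.gen hp.2.1 hw hf' pf' hh
    refine ⟨p h * ((p f)⁻¹) ^ d, ?_⟩
    rw [smul_pow, smul_smul] at this
    exact this

end final

end Vale.Agent.P280.H939
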