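import Vale.Agent.P280.H939.Flow
import Vale.Agent.P280.H587.Base
import Mathlib.Analysis.SpecialFunctions.Complex.Log

/-!
# P280 (T1): the group generated by the flows of the fields
-/

namespace Vale.Agent.P280.H939

open DirectSum Vale.Agent.P280.T

section
variable {R : Type} [CommRing R] [Algebra ℂ R]

/-- every element lies in a finite-dimensional stable subspace -/
def LocFin (D : Derivation ℂ R R) : Prop :=
  ∀ h : R, ∃ W : Submodule ℂ R, FiniteDimensional ℂ W ∧ (∀ x ∈ W, D x ∈ W) ∧ h ∈ W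

/-- The exponential of a locally finite derivation is an automorphism. -/
theorem exists_exp {D : Derivation ℂ R R} (hD : LocFin D) :
    ∃ F : R ≃ₐ[ℂ] R, (∀ h, IsExpAt (D : R →ₗ[ℂ] R) h (F h)) ∧
      ∀ h, IsExpAt (-(D : R →ₗ[ℂ] R)) h (F.symm h) := by
  have hex : ∀ h, ∃ y, IsExpAt (D : R →ₗ[ℂ] R) h y ∧ IsExpAt (-(D : R →ₗ[ℂ] R)) y h := by
    intro h
    obtain ⟨W, hfin, hW, hh⟩ := hD h
    obtain ⟨y, -, h1, h2⟩ := exists_expAt (D : R →ₗ[ℂ] R) W hW hh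
    exact ⟨y, h1, h2⟩
  have hex' : ∀ h, ∃ y, IsExpAt (-(D : R →ₗ[ℂ] R)) h y ∧ IsExpAt (D : R →ₗ[ℂ] R) y h := by
    intro h
    obtain ⟨W, hfin, hW, hh⟩ := hD h
    obtain ⟨y, -, h1, h2⟩ := exists_expAt (-(D : R →ₗ[ℂ] R)) W
      (fun x hx => W.neg_mem (hW x hx)) hh
    rw [neg_neg] at h2
    exact ⟨y, h1, h2⟩
  choose F hF hF' using hex
  choose G hG hG' using hex'
  have hadd : ∀ x y, F (x + y) = F x + F y := fun x y => (hF _).unique ((hF x).add (hF y))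
  have hsmul : ∀ (c : ℂ) x, F (c • x) = c • F x := fun c x => (hF _).unique ((hF x).smul c)
  have hone : F 1 = 1 := (hF _).unique (IsExpAt.one D)
  have hmul : ∀ x y, F (x * y) = F x * F y := by
    intro x y
    obtain ⟨W, hfin, hW, hy⟩ := hD y
    exact (hF _).unique (IsExpAt.mul hW hy (hF x) (hF y))
  have hGF : ∀ x, G (F x) = x := fun x => (hG _).unique (hF' x)
  have hFG : ∀ x, F (G x) = x := fun x => (hF _).unique (hG' x)
  let L : R →ₗ[ℂ] R := { toFun := F, map_add' := hadd, map_smul' := hsmul }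
  let Fa : R →ₐ[ℂ] R := AlgHom.ofLinearMap L hone hmul
  let Fe : R ≃ₐ[ℂ] R := AlgEquiv.ofBijective Fa
    ⟨fun x y hxy => by
      have h1 : F x = F y := hxy
      rw [← hGF x, h1, hGF], fun y => ⟨G y, hFG y⟩⟩
  refine ⟨Fe, hF, fun h => ?_⟩
  have h1 : Fe.symm h = G h := by
    rw [AlgEquiv.symm_apply_eq]
    exact (hFG h).symm
  rw [h1]
  exact hG h

/-- A finite-dimensional stable subspace is stable under the exponential. -/
theorem IsExpAt.mem {D : R →ₗ[ℂ] R} {W : Submodule ℂ R} [FiniteDimensional ℂ W]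
    (hW : ∀ x ∈ W, D x ∈ W) {x y : R} (hx : x ∈ W) (h : IsExpAt D x y) : y ∈ W := by
  obtain ⟨y', h1, h2, -⟩ := exists_expAt D W hW hx
  rwa [h.unique h2]

/-- eigenvectors -/
theorem IsExpAt.eigen {D : R →ₗ[ℂ] R} {x : R} {c : ℂ} (hx : D x = c • x) :
    IsExpAt D x (Complex.exp c • x) := by
  intro θ
  have h1 : ∀ k : ℕ, (⇑D)^[k] x = c ^ k • x := by
    intro k
    induction k with
    | zero => simp
    | succ k ih => rw [Function.iterate_succ_apply', ih, map_smul, hx, smul_smul, pow_succ]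
  have h2 : HasSum (fun k : ℕ => c ^ k / (k.factorial : ℂ)) (Complex.exp c) := by
    rw [Complex.exp_eq_exp_ℂ]
    exact NormedSpace.expSeries_div_hasSum_exp c
  rw [map_smul, smul_eq_mul]
  refine (h2.mul_right (θ x)).congr_fun ?_
  intro k
  rw [h1, map_smul, smul_eq_mul]
  ring

end

section grp
variable {M : Type} [AddCommGroup M] [DecidableEq M]
variable {R : Type} [CommRing R] [Algebra ℂ R]

/-- the elements of degree `d` -/
abbrev deg (𝒜 : ℕ × M → Submodule ℂ R) (d : ℕ) : Submodule ℂ R := ⨆ m : M, 𝒜 (d, m)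

/-- the group generated by the flows of the fields -/
def Gam (𝒜 : ℕ × M → Submodule ℂ R) : Subgroup (R ≃ₐ[ℂ] R) :=
  Subgroup.closure {F | ∃ D : Derivation ℂ R R, IsField 𝒜 D ∧
    ∀ h, IsExpAt (D : R →ₗ[ℂ] R) h (F h)}

omit [AddCommGroup M] [DecidableEq M] in
theorem field_deg {𝒜 : ℕ × M → Submodule ℂ R} {D : Derivation ℂ R R} (hD : IsField 𝒜 D) {d : ℕ}
    {h : R} (hh : h ∈ deg 𝒜 d) : D h ∈ deg 𝒜 d := by
  refine Submodule.iSup_induction (motive := fun h => D h ∈ deg 𝒜 d) _ hh ?_ ?_ ?_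
  · intro m x hx
    exact hD d m x hx
  · rw [map_zero]; exact Submodule.zero_mem _
  · intro x y hx hy
    rw [map_add]; exact Submodule.add_mem _ hx hy

variable {𝒜 : ℕ × M → Submodule ℂ R} [GradedAlgebra 𝒜]

theorem locFin_of_field (hfin : ∀ d, FiniteDimensional ℂ (deg 𝒜 d)) {D : Derivation ℂ R R}
    (hD : IsField 𝒜 D) : LocFin D := by
  intro h
  induction h using DirectSum.Decomposition.inductionOn 𝒜 with
  | zero =>
    refine ⟨⊥, inferInstance, ?_, Submodule.zero_mem _⟩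
    intro x hx
    rw [Submodule.mem_bot] at hx
    rw [hx, map_zero]
    exact Submodule.zero_mem _
  | homogeneous h =>
    rename_i g
    obtain ⟨h, hh⟩ := h
    obtain ⟨d, m⟩ := g
    exact ⟨deg 𝒜 d, hfin d, fun x hx => field_deg hD hx,
      (le_iSup (fun m : M => 𝒜 (d, m)) m) hh⟩
  | add x y hx hy =>
    obtain ⟨W, hW, hW', hx⟩ := hx
    obtain ⟨V, hV, hV', hy⟩ := hy
    refine ⟨W ⊔ V, inferInstance, ?_, Submodule.add_mem_sup hx hy⟩
    intro z hz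
    obtain ⟨a, ha, b, hb, rfl⟩ := Submodule.mem_sup.1 hz
    rw [map_add]
    exact Submodule.add_mem_sup (hW' a ha) (hV' b hb)

/-- the flow of a field belongs to the group -/
theorem exists_flow (hfin : ∀ d, FiniteDimensional ℂ (deg 𝒜 d)) {D : Derivation ℂ R R}
    (hD : IsField 𝒜 D) : ∃ F ∈ Gam 𝒜, ∀ h, IsExpAt (D : R →ₗ[ℂ] R) h (F h) := by
  obtain ⟨F, hF, -⟩ := exists_exp (locFin_of_field hfin hD)
  exact ⟨F, Subgroup.subset_closure ⟨D, hD, hF⟩, hF⟩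

omit [AddCommGroup M] [DecidableEq M] [GradedAlgebra 𝒜] in
/-- elements of the group preserve degrees -/
theorem Gam.graded (hfin : ∀ d, FiniteDimensional ℂ (deg 𝒜 d)) {F : R ≃ₐ[ℂ] R} (hF : F ∈ Gam 𝒜) :
    (∀ d, ∀ h ∈ deg 𝒜 d, F h ∈ deg 𝒜 d) ∧ ∀ d, ∀ h ∈ deg 𝒜 d, F⁻¹ h ∈ deg 𝒜 d := by
  induction hF using Subgroup.closure_induction with
  | mem F hF =>
    obtain ⟨D, hD, h1⟩ := hF
    refine ⟨fun d h hh => ?_, fun d h hh => ?_⟩
    · have := hfin d
      exact (h1 h).mem (W := deg 𝒜 d) (fun x hx => field_deg hD hx) hh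
    · have := hfin d
      obtain ⟨y, hy, -, h3⟩ := exists_expAt (-(D : R →ₗ[ℂ] R)) (deg 𝒜 d)
        (fun x hx => Submodule.neg_mem _ (field_deg hD hx)) hh
      rw [neg_neg] at h3
      have h4 : F y = h := (h1 y).unique h3
      have h5 : F⁻¹ h = y := by
        rw [← h4]
        exact F.symm_apply_apply y
      rwa [h5]
  | one => exact ⟨fun d h hh => hh, fun d h hh => by rw [inv_one]; exact hh⟩
  | mul F G _ _ hF hG =>
    refine ⟨fun d h hh => hF.1 d _ (hG.1 d h hh), fun d h hh => ?_⟩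
    rw [mul_inv_rev]
    exact hG.2 d _ (hF.2 d h hh)
  | inv F _ hF => exact ⟨hF.2, fun d h hh => by rw [inv_inv]; exact hF.1 d h hh⟩

/-- weight derivations -/
theorem exists_weight_deriv (𝒜 : ℕ × M → Submodule ℂ R) [GradedAlgebra 𝒜] (χ : ℕ × M →+ ℂ) :
    ∃ E : Derivation ℂ R R, ∀ i, ∀ h ∈ 𝒜 i, E h = χ i • h := by
  obtain ⟨F, hF⟩ := H587.exists_linearMap 𝒜 (fun i : ℕ × M => χ i • (LinearMap.id : R →ₗ[ℂ] R))
  have hF' : ∀ i, ∀ h ∈ 𝒜 i, F h = χ i • h := fun i h hh => hF i h hh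
  have hL : ∀ x y : R, F (x * y) = x • F y + y • F x := by
    intro a b
    let F1 : R →ₗ[ℂ] R →ₗ[ℂ] R := (LinearMap.mul ℂ R).compr₂ F
    let G : R →ₗ[ℂ] R →ₗ[ℂ] R :=
      (LinearMap.mul ℂ R).compl₁₂ LinearMap.id F +
        ((LinearMap.mul ℂ R).compl₁₂ LinearMap.id F).flip
    have hFG : F1 a b = G a b := by
      refine H587.bilin_ext 𝒜 (F := F1) (G := G) ?_ a b
      intro i j x hx y hy
      change F (x * y) = x * F y + y * F x
      have hxy : x * y ∈ 𝒜 (i + j) := SetLike.mul_mem_graded hx hy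
      rw [hF' _ _ hxy, hF' _ _ hx, hF' _ _ hy, mul_smul_comm, mul_smul_comm, mul_comm y x,
        ← add_smul, map_add, add_comm]
    exact hFG
  exact ⟨Derivation.mk' F hL, hF'⟩

theorem exists_char_mem (hfin : ∀ d, FiniteDimensional ℂ (deg 𝒜 d)) (χ : ℕ × M →+ ℂ) :
    ∃ F ∈ Gam 𝒜, ∀ i, ∀ h ∈ 𝒜 i, F h = Complex.exp (χ i) • h := by
  obtain ⟨E, hE⟩ := exists_weight_deriv 𝒜 χ
  have hE' : IsField 𝒜 E := by
    intro d m h hh
    rw [hE _ _ hh]
    exact Submodule.smul_mem _ _ ((le_iSup (fun m : M => 𝒜 (d, m)) m) hh)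
  obtain ⟨F, hF, hF'⟩ := exists_flow hfin hE'
  exact ⟨F, hF, fun i h hh => (hF' h).unique (IsExpAt.eigen (hE i h hh))⟩

/-- the torus belongs to the group -/
theorem torus_mem (hfin : ∀ d, FiniteDimensional ℂ (deg 𝒜 d)) (l : M →+ ℤ) {c : ℂ} (hc : c ≠ 0) :
    ∃ F ∈ Gam 𝒜, ∀ d m, ∀ h ∈ 𝒜 (d, m), F h = c ^ (l m) • h := by
  let χ : ℕ × M →+ ℂ :=
    { toFun := fun i => (l i.2 : ℂ) * Complex.log c
      map_zero' := by simp
      map_add' := fun a b => by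
        simp only [Prod.snd_add, map_add, Int.cast_add]
        ring }
  obtain ⟨F, hF, hF'⟩ := exists_char_mem hfin χ
  refine ⟨F, hF, fun d m h hh => ?_⟩
  rw [hF' _ h hh]
  change Complex.exp ((l m : ℂ) * Complex.log c) • h = _
  rw [Complex.exp_int_mul, Complex.exp_log hc]

/-- the scalars belong to the group -/
theorem scalar_mem (hfin : ∀ d, FiniteDimensional ℂ (deg 𝒜 d)) {c : ℂ} (hc : c ≠ 0) :
    ∃ F ∈ Gam 𝒜, ∀ d m, ∀ h ∈ 𝒜 (d, m), F h = c ^ d • h := by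
  let χ : ℕ × M →+ ℂ :=
    { toFun := fun i => (i.1 : ℂ) * Complex.log c
      map_zero' := by simp
      map_add' := fun a b => by
        simp only [Prod.fst_add, Nat.cast_add]
        ring }
  obtain ⟨F, hF, hF'⟩ := exists_char_mem hfin χ
  refine ⟨F, hF, fun d m h hh => ?_⟩
  rw [hF' _ h hh]
  change Complex.exp ((d : ℂ) * Complex.log c) • h = _
  rw [Complex.exp_nat_mul, Complex.exp_log hc]

/-- the orbit relation on points -/
def OrbRel (𝒜 : ℕ × M → Submodule ℂ R) (p q : R →ₐ[ℂ] ℂ) : Prop :=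
  ∃ F ∈ Gam 𝒜, ∀ h, q h = p (F h)

omit [AddCommGroup M] [DecidableEq M] [GradedAlgebra 𝒜] in
theorem OrbRel.refl (p : R →ₐ[ℂ] ℂ) : OrbRel 𝒜 p p := ⟨1, Subgroup.one_mem _, fun _ => rfl⟩

omit [AddCommGroup M] [DecidableEq M] [GradedAlgebra 𝒜] in
theorem OrbRel.symm {p q : R →ₐ[ℂ] ℂ} (h : OrbRel 𝒜 p q) : OrbRel 𝒜 q p := by
  obtain ⟨F, hF, h1⟩ := h
  refine ⟨F⁻¹, Subgroup.inv_mem _ hF, fun x => ?_⟩
  rw [h1]
  exact (congrArg p (F.apply_symm_apply x)).symm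

omit [AddCommGroup M] [DecidableEq M] [GradedAlgebra 𝒜] in
theorem OrbRel.trans {p q r : R →ₐ[ℂ] ℂ} (h : OrbRel 𝒜 p q) (h' : OrbRel 𝒜 q r) :
    OrbRel 𝒜 p r := by
  obtain ⟨F, hF, h1⟩ := h
  obtain ⟨G, hG, h2⟩ := h'
  exact ⟨F * G, Subgroup.mul_mem _ hF hG, fun x => by rw [h2, h1]; rfl⟩

end grp

end Vale.Agent.P280.H939
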