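import Vale.Agent.P280.H939.Fin2
import Mathlib.RingTheory.Filtration
import Mathlib.Analysis.Analytic.Uniqueness
import Mathlib.Analysis.Analytic.OfScalars

/-!
# P280 (T), part (A): orbits are Zariski dense
-/

namespace Vale.Agent.P280.H939

open DirectSum Vale.Agent.P280.T

/-- A power series which vanishes everywhere has vanishing coefficients. -/
theorem coeff_zero_of_hasSum {c : ℕ → ℂ} (h : ∀ t : ℂ, HasSum (fun k => t ^ k * c k) 0) (k : ℕ) :
    c k = 0 := by
  let p : FormalMultilinearSeries ℂ ℂ ℂ := FormalMultilinearSeries.ofScalars ℂ c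
  have hp : HasFPowerSeriesAt (0 : ℂ → ℂ) p 0 := by
    rw [hasFPowerSeriesAt_iff]
    refine Filter.Eventually.of_forall fun t => ?_
    have h1 : (fun n => t ^ n • p.coeff n) = fun n => t ^ n * c n := by
      funext n
      rw [FormalMultilinearSeries.coeff_ofScalars, smul_eq_mul]
    rw [h1]
    exact h t
  have h2 : p = 0 := hp.eq_zero
  have h3 : p.coeff k = c k := FormalMultilinearSeries.coeff_ofScalars
  rw [← h3, h2]
  rfl

section
variable {R : Type} [CommRing R] [Algebra ℂ R]

/-- A derivation which is the identity on the cotangent space acts on powers of the ideal. -/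
theorem euler_pow {m : Ideal R} {E : Derivation ℂ R R} (h0 : ∀ x, E x ∈ m)
    (h1 : ∀ x ∈ m, E x - x ∈ m ^ 2) (k : ℕ) : ∀ x ∈ m ^ k, E x - (k : ℂ) • x ∈ m ^ (k + 1) := by
  induction k with
  | zero =>
    intro x _
    rw [Nat.cast_zero, zero_smul, sub_zero, zero_add, pow_one]
    exact h0 x
  | succ k ih =>
    intro x hx
    rw [pow_succ] at hx
    refine Submodule.mul_induction_on hx ?_ ?_
    · intro a ha b hb
      have e : E (a * b) - ((k + 1 : ℕ) : ℂ) • (a * b) =
          a * (E b - b) + b * (E a - (k : ℂ) • a) := by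
        rw [E.leibniz, smul_eq_mul, smul_eq_mul]
        push_cast
        rw [add_smul, one_smul, mul_sub, mul_sub, mul_smul_comm, mul_comm b a]
        ring
      rw [e]
      refine Ideal.add_mem _ ?_ ?_
      · have := Ideal.mul_mem_mul ha (h1 b hb)
        rwa [← pow_add] at this
      · have := Ideal.mul_mem_mul hb (ih a ha)
        rwa [← pow_succ'] at this
    · intro a b ha hb
      have e : E (a + b) - ((k + 1 : ℕ) : ℂ) • (a + b) =
          (E a - ((k + 1 : ℕ) : ℂ) • a) + (E b - ((k + 1 : ℕ) : ℂ) • b) := by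
        rw [map_add, smul_add]; ring
      rw [e]
      exact Ideal.add_mem _ ha hb

/-- A stable ideal inside `m` is zero. -/
theorem stable_eq_bot [IsDomain R] [IsNoetherianRing R] {m I : Ideal R} (hm : m ≠ ⊤) (hI : I ≤ m)
    {E : Derivation ℂ R R} (h0 : ∀ x, E x ∈ m) (h1 : ∀ x ∈ m, E x - x ∈ m ^ 2)
    (h2 : ∀ x ∈ I, E x ∈ m * I) : I = ⊥ := by
  have key : ∀ k : ℕ, I ≤ m ^ (k + 1) := by
    intro k
    induction k with
    | zero => rw [zero_add, pow_one]; exact hI
    | succ k ih =>
      intro x hx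
      have h3 := euler_pow h0 h1 (k + 1) x (ih hx)
      have h4 : E x ∈ m ^ (k + 1 + 1) := by
        rw [pow_succ']
        exact Ideal.mul_mono_right ih (h2 x hx)
      have h5 : ((k + 1 : ℕ) : ℂ) • x ∈ m ^ (k + 1 + 1) := by
        have := Ideal.sub_mem _ h4 h3
        rwa [sub_sub_cancel] at this
      have h6 : ((k + 1 : ℕ) : ℂ) ≠ 0 := by exact_mod_cast Nat.succ_ne_zero k
      have h7 := Ideal.mul_mem_left (m ^ (k + 1 + 1)) (algebraMap ℂ R (((k + 1 : ℕ) : ℂ)⁻¹)) h5
      rwa [← Algebra.smul_def, smul_smul, inv_mul_cancel₀ h6, one_smul] at h7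
  rw [eq_bot_iff, ← Ideal.iInf_pow_eq_bot_of_isDomain m hm]
  refine le_iInf fun k => ?_
  exact (key k).trans (Ideal.pow_le_pow_right (Nat.le_succ k))

/-- Coordinates on the cotangent space. -/
theorem exists_coords [IsNoetherianRing R] (z : R →ₐ[ℂ] ℂ) :
    ∃ (n : ℕ) (u : Fin n → R) (v : Fin n → R →ₗ[ℂ] ℂ), (∀ i, z (u i) = 0) ∧
      (∀ i, IsTangent z (v i)) ∧
      ∀ g, z g = 0 → g - ∑ i, v i g • u i ∈ (RingHom.ker z) ^ 2 := by
  classical
  set m : Ideal R := RingHom.ker z with hm
  let m2 : Submodule ℂ R := (m ^ 2).restrictScalars ℂ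
  let mm : Submodule ℂ R := m.restrictScalars ℂ
  let Q : Submodule ℂ (R ⧸ m2) := mm.map m2.mkQ
  obtain ⟨S, hS⟩ : m.FG := IsNoetherian.noetherian _
  have hQ : Q.FG := by
    refine ⟨S.image m2.mkQ, ?_⟩
    apply le_antisymm
    · rw [Submodule.span_le]
      intro y hy
      rw [Finset.coe_image] at hy
      obtain ⟨s, hs, rfl⟩ := hy
      refine Submodule.mem_map_of_mem ?_
      change s ∈ m
      rw [← hS]
      exact Submodule.subset_span hs
    · rintro _ ⟨x, hx, rfl⟩
      have hx' : x ∈ Submodule.span R (S : Set R) := by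
        change x ∈ Ideal.span (S : Set R)
        rw [hS]; exact hx
      have hSm : ∀ s ∈ S, s ∈ m := fun s hs => by
        rw [← hS]; exact Submodule.subset_span hs
      clear hx
      induction hx' using Submodule.span_induction with
      | mem s hs =>
        apply Submodule.subset_span
        rw [Finset.coe_image]
        exact ⟨s, hs, rfl⟩
      | zero => rw [map_zero]; exact Submodule.zero_mem _
      | add a b _ _ ha hb => rw [map_add]; exact Submodule.add_mem _ ha hb
      | smul r a ha ih =>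
        have ham : a ∈ m := by rw [← hS]; exact ha
        have e : m2.mkQ (r • a) = z r • m2.mkQ a := by
          rw [← map_smul, ← sub_eq_zero, ← map_sub, Submodule.mkQ_apply,
            Submodule.Quotient.mk_eq_zero]
          change r • a - z r • a ∈ m ^ 2
          have e2 : r • a - z r • a = (r - algebraMap ℂ R (z r)) * a := by
            rw [smul_eq_mul, Algebra.smul_def, sub_mul]
          rw [e2, pow_two]
          refine Ideal.mul_mem_mul ?_ ham
          rw [hm, RingHom.mem_ker, map_sub, AlgHom.commutes]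
          simp
        rw [e]
        exact Submodule.smul_mem _ _ ih
  have : FiniteDimensional ℂ Q := Module.Finite.iff_fg.2 hQ
  let b := Module.finBasis ℂ Q
  have hu : ∀ i, ∃ u ∈ m, m2.mkQ u = (b i : R ⧸ m2) := by
    intro i
    obtain ⟨u, hu, hu'⟩ := (b i).2
    exact ⟨u, hu, hu'⟩
  choose u hum hu using hu
  have hβ : ∀ i, ∃ β : (R ⧸ m2) →ₗ[ℂ] ℂ, β ∘ₗ Q.subtype = b.coord i := fun i =>
    LinearMap.exists_extend (b.coord i)
  choose β hβ using hβ
  -- projection to the maximal ideal
  let pr : R →ₗ[ℂ] R := LinearMap.id - (Algebra.linearMap ℂ R) ∘ₗ z.toLinearMap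
  have hpr : ∀ x, pr x = x - algebraMap ℂ R (z x) := fun x => rfl
  have hprm : ∀ x, pr x ∈ m := by
    intro x
    rw [hpr, hm, RingHom.mem_ker, map_sub, AlgHom.commutes]
    simp
  refine ⟨Module.finrank ℂ Q, u, fun i => β i ∘ₗ m2.mkQ ∘ₗ pr, ?_, ?_, ?_⟩
  · intro i
    exact (RingHom.mem_ker).1 (hum i)
  · intro i x y
    change β i (m2.mkQ (pr (x * y))) = z x * β i (m2.mkQ (pr y)) + z y * β i (m2.mkQ (pr x))
    have key : m2.mkQ (pr (x * y)) = z x • m2.mkQ (pr y) + z y • m2.mkQ (pr x) := by
      have e : pr (x * y) - (z x • pr y + z y • pr x) = pr x * pr y := by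
        simp only [hpr, map_mul, Algebra.smul_def]
        ring
      have h1 : m2.mkQ (pr (x * y)) = m2.mkQ (z x • pr y + z y • pr x) := by
        refine (Submodule.Quotient.eq m2).2 ?_
        rw [e]
        change pr x * pr y ∈ m ^ 2
        rw [pow_two]
        exact Ideal.mul_mem_mul (hprm x) (hprm y)
      rw [h1, map_add, map_smul, map_smul]
    rw [key, map_add, map_smul, map_smul, smul_eq_mul, smul_eq_mul]
  · intro g hg
    have hgm : g ∈ m := (RingHom.mem_ker).2 hg
    have hprg : pr g = g := by rw [hpr, hg, map_zero, sub_zero]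
    have hgQ : m2.mkQ g ∈ Q := Submodule.mem_map_of_mem hgm
    have h1 := b.sum_repr ⟨m2.mkQ g, hgQ⟩
    have h2 := congrArg Q.subtype h1
    rw [map_sum] at h2
    have h3 : m2.mkQ (g - ∑ i, (β i ∘ₗ m2.mkQ ∘ₗ pr) g • u i) = 0 := by
      rw [map_sub, sub_eq_zero, map_sum]
      refine h2.symm.trans (Finset.sum_congr rfl fun i _ => ?_)
      rw [map_smul, map_smul, hu]
      change _ = β i (m2.mkQ (pr g)) • _
      rw [hprg]
      have h4 := LinearMap.congr_fun (hβ i) ⟨m2.mkQ g, hgQ⟩
      change β i (m2.mkQ g) = b.repr ⟨m2.mkQ g, hgQ⟩ i at h4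
      rw [h4]
      rfl
    rw [Submodule.mkQ_apply, Submodule.Quotient.mk_eq_zero] at h3
    exact h3

end

section
variable {M : Type} [AddCommGroup M] [DecidableEq M]
variable {R : Type} [CommRing R] [Algebra ℂ R] {𝒜 : ℕ × M → Submodule ℂ R} [GradedAlgebra 𝒜]

/-- (A): orbits are Zariski dense -/
theorem dense (hX : IsTorusManifold 𝒜) (hH : IsHomogeneousManifold 𝒜) {z : R →ₐ[ℂ] ℂ}
    (hz : ¬ IsVertex 𝒜 z) {f : R} (hf : f ≠ 0) : ∃ F ∈ Gam 𝒜, z (F f) ≠ 0 := by
  have := hX.domain
  have := hX.finiteType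
  have : IsNoetherianRing R := Algebra.FiniteType.isNoetherianRing ℂ R
  by_contra hcon
  push Not at hcon
  let I : Ideal R :=
    { carrier := {h | ∀ F ∈ Gam 𝒜, z (F h) = 0}
      zero_mem' := fun F _ => by rw [map_zero, map_zero]
      add_mem' := fun {a b} ha hb F hF => by rw [map_add, map_add, ha F hF, hb F hF, add_zero]
      smul_mem' := fun c {a} ha F hF => by
        rw [smul_eq_mul, map_mul, map_mul, ha F hF, mul_zero] }
  have hstab : ∀ D : Derivation ℂ R R, IsField 𝒜 D → ∀ h ∈ I, D h ∈ I := by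
    intro D hD h hh F hF
    let θ : R →ₗ[ℂ] ℂ := z.toLinearMap ∘ₗ (F : R →ₐ[ℂ] R).toLinearMap
    have hser : ∀ t : ℂ, HasSum (fun k : ℕ => t ^ k * (((k.factorial : ℂ))⁻¹ * θ ((⇑D)^[k] h)))
        0 := by
      intro t
      have htD : IsField 𝒜 (t • D) := by
        intro d m x hx
        rw [Derivation.smul_apply]
        exact Submodule.smul_mem _ _ (hD d m x hx)
      obtain ⟨G, hG, hGe⟩ := exists_flow (finite_deg hX) htD
      have h1 := hGe h θ
      have h2 : θ (G h) = 0 := hh (F * G) (Subgroup.mul_mem _ hF hG)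
      rw [h2] at h1
      refine h1.congr_fun ?_
      intro k
      have h3 : ∀ k : ℕ, (⇑((t • D : Derivation ℂ R R) : R →ₗ[ℂ] R))^[k] h =
          t ^ k • (⇑D)^[k] h := by
        intro k
        induction k with
        | zero => simp
        | succ k ih =>
          rw [Function.iterate_succ_apply', ih, Function.iterate_succ_apply' (⇑D)]
          change t • D (t ^ k • (⇑D)^[k] h) = _
          rw [D.map_smul, smul_smul, pow_succ']
      rw [h3, map_smul, smul_eq_mul]
      ring
    have h4 := coeff_zero_of_hasSum hser 1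
    rw [Nat.factorial_one, Nat.cast_one, inv_one, one_mul, Function.iterate_one] at h4
    exact h4
  obtain ⟨n, u, v, hu, hv, hg⟩ := exists_coords z
  choose D hD hDv using fun i => hH z hz (v i) (hv i)
  let E : Derivation ℂ R R := ∑ i, u i • D i
  have hE : ∀ x, E x = ∑ i, u i * D i x := by
    intro x
    have h1 := map_sum (Derivation.coeFnAddMonoidHom (R := ℂ) (A := R) (M := R))
      (fun i => u i • D i) Finset.univ
    have h2 := congrFun h1 x
    rw [Finset.sum_apply] at h2
    exact h2
  have hum : ∀ i, u i ∈ RingHom.ker z := fun i => (RingHom.mem_ker).2 (hu i)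
  have hI : I = ⊥ := by
    refine stable_eq_bot (m := RingHom.ker z) (E := E) (RingHom.ker_ne_top _) ?_ ?_ ?_ ?_
    · intro h hh
      exact (RingHom.mem_ker).2 (hh 1 (Subgroup.one_mem _))
    · intro x
      rw [hE]
      exact Ideal.sum_mem _ fun i _ => Ideal.mul_mem_right _ _ (hum i)
    · intro x hx
      have e : E x - x = (∑ i, u i * (D i x - algebraMap ℂ R (z (D i x)))) -
          (x - ∑ i, v i x • u i) := by
        have e1 : ∑ i, u i * (D i x - algebraMap ℂ R (z (D i x))) =
            ∑ i, u i * D i x - ∑ i, v i x • u i := by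
          rw [← Finset.sum_sub_distrib]
          refine Finset.sum_congr rfl fun i _ => ?_
          rw [hDv, Algebra.smul_def, mul_sub, mul_comm (u i) (algebraMap ℂ R _)]
        rw [hE, e1]
        ring
      rw [e]
      refine Ideal.sub_mem _ (Ideal.sum_mem _ fun i _ => ?_) (hg x ((RingHom.mem_ker).1 hx))
      rw [pow_two]
      refine Ideal.mul_mem_mul (hum i) ?_
      rw [RingHom.mem_ker, map_sub, AlgHom.commutes]
      simp
    · intro x hx
      rw [hE]
      exact Ideal.sum_mem _ fun i _ => Ideal.mul_mem_mul (hum i) (hstab _ (hD i) x hx)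
  have hfI : f ∈ I := hcon
  rw [hI] at hfI
  exact hf hfI

end

end Vale.Agent.P280.H939
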