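import Vale.Agent.P280.H939.Fin2
import Vale.Agent.P280.H939.R3d
import Vale.Agent.P280.H93.Tangent
import Vale.Agent.P280.H587.Generic

/-!
# P280 (T), part (B): the chart at the source lies in one orbit
-/

namespace Vale.Agent.P280.H939

open DirectSum Vale.Agent.P280.T

section
variable {R : Type} [CommRing R] [Algebra ℂ R]

theorem IsExpAt.of_sq {D : R →ₗ[ℂ] R} {x : R} (hx : D (D x) = 0) : IsExpAt D x (x + D x) := by
  intro θ
  have h1 : ∀ k : ℕ, k ∉ Finset.range 2 → ((k.factorial : ℂ))⁻¹ * θ ((⇑D)^[k] x) = 0 := by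
    intro k hk
    rw [Finset.mem_range, not_lt] at hk
    obtain ⟨j, rfl⟩ := Nat.exists_eq_add_of_le' hk
    rw [Function.iterate_add_apply]
    change _ * θ ((⇑D)^[j] (D (D x))) = 0
    rw [hx, ← Module.End.pow_apply, map_zero, map_zero, mul_zero]
  have h2 : HasSum (fun k : ℕ => ((k.factorial : ℂ))⁻¹ * θ ((⇑D)^[k] x))
      (∑ k ∈ Finset.range 2, ((k.factorial : ℂ))⁻¹ * θ ((⇑D)^[k] x)) :=
    hasSum_sum_of_ne_finset_zero h1
  rw [Finset.sum_range_succ, Finset.sum_range_one] at h2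
  simp only [Nat.factorial_zero, Nat.cast_one, inv_one, one_mul, Nat.factorial_one,
    Function.iterate_zero, id_eq, Function.iterate_one] at h2
  rw [map_add]
  exact h2

variable {𝒜 : ℕ × ℤ → Submodule ℂ R} [GradedAlgebra 𝒜] {μ a : ℤ} {p : R →ₐ[ℂ] ℂ} {f : R}

/-- `z` kills the homogeneous elements of relative weight between `0` and `k` -/
def NK (𝒜 : ℕ × ℤ → Submodule ℂ R) (μ : ℤ) (z : R →ₐ[ℂ] ℂ) (k : ℤ) : Prop :=
  ∀ (d : ℕ) (m : ℤ), 0 < m - (d : ℤ) * μ → m - (d : ℤ) * μ < k → ∀ h ∈ 𝒜 (d, m), z h = 0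

variable [IsDomain R] [IsNoetherianRing R]

/-- the leading part of `z` is tangent at the source -/
theorem exists_leading (hgen : Algebra.adjoin ℂ {h : R | ∃ m : ℤ, h ∈ 𝒜 (1, m)} = ⊤)
    (hfix : IsFixed 𝒜 p μ) (hw : ∀ χ : ℤ, TangentWeight 𝒜 p μ χ → 0 < χ) (hf : f ∈ 𝒜 (1, μ))
    (pf : p f = 1) {z : R →ₐ[ℂ] ℂ} (zf : z f = 1) {k : ℤ} (hk : 0 < k) (hz : NK 𝒜 μ z k) :
    ∃ v : R →ₗ[ℂ] ℂ, IsTangent p v ∧ HasWeight 𝒜 μ k v ∧
      ∀ (d : ℕ) (m : ℤ), m - (d : ℤ) * μ = k → ∀ h ∈ 𝒜 (d, m), v h = - z h := by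
  obtain ⟨v, hv⟩ := H587.exists_linearMap 𝒜
    (fun i : ℕ × ℤ => if wt μ i = k then -z.toLinearMap else 0)
  have hv1 : ∀ (d : ℕ) (m : ℤ), m - (d : ℤ) * μ = k → ∀ h ∈ 𝒜 (d, m), v h = - z h := by
    intro d m hm h hh
    rw [hv _ h hh, if_pos (by rw [wt_apply]; exact hm)]
    rfl
  have hv0 : ∀ (d : ℕ) (m : ℤ), m - (d : ℤ) * μ ≠ k → ∀ h ∈ 𝒜 (d, m), v h = 0 := by
    intro d m hm h hh
    rw [hv _ h hh, if_neg (by rw [wt_apply]; exact hm)]
    rfl
  have hp0 : ∀ (d : ℕ) (m : ℤ), m - (d : ℤ) * μ ≠ 0 → ∀ h ∈ 𝒜 (d, m), p h = 0 :=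
    fun d m hm h hh => p_weight hfix hm (mem_coarse hh (wt_apply μ d m))
  have hneg : ∀ (d : ℕ) (m : ℤ), m - (d : ℤ) * μ < 0 → ∀ h ∈ 𝒜 (d, m), h = 0 :=
    fun d m hm h hh => eq_zero_of_neg hgen hfix hw hf pf hm (mem_coarse hh (wt_apply μ d m))
  have hz0 : ∀ (d : ℕ) (m : ℤ), m - (d : ℤ) * μ = 0 → ∀ h ∈ 𝒜 (d, m), z h = p h := by
    intro d m hm h hh
    have hm' : m = d • μ := by rw [nsmul_eq_mul]; linarith
    subst hm'
    have h1 := eq_of_zero_weight hgen hfix hw hf pf hh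
    rw [h1, map_smul, map_pow, zf, one_pow, smul_eq_mul, mul_one, map_smul, map_pow, pf, one_pow,
      smul_eq_mul, mul_one]
  refine ⟨v, ?_, ?_, hv1⟩
  · intro x y
    let F1 : R →ₗ[ℂ] R →ₗ[ℂ] ℂ := (LinearMap.mul ℂ R).compr₂ v
    let G : R →ₗ[ℂ] R →ₗ[ℂ] ℂ :=
      (LinearMap.mul ℂ ℂ).compl₁₂ p.toLinearMap v +
        ((LinearMap.mul ℂ ℂ).compl₁₂ p.toLinearMap v).flip
    have hFG : F1 x y = G x y := by
      refine H587.bilin_ext 𝒜 (F := F1) (G := G) ?_ x y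
      rintro ⟨d, m⟩ ⟨e, n⟩ x hx y hy
      change v (x * y) = p x * v y + p y * v x
      have hxy : x * y ∈ 𝒜 (d + e, m + n) := SetLike.mul_mem_graded hx hy
      have hadd : (m + n) - ((d + e : ℕ) : ℤ) * μ = (m - (d : ℤ) * μ) + (n - (e : ℤ) * μ) := by
        push_cast; ring
      rcases lt_or_ge (m - (d : ℤ) * μ) 0 with hx0 | hx0
      · rw [hneg d m hx0 x hx]; simp
      rcases lt_or_ge (n - (e : ℤ) * μ) 0 with hy0 | hy0
      · rw [hneg e n hy0 y hy]; simp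
      by_cases hk' : (m - (d : ℤ) * μ) + (n - (e : ℤ) * μ) = k
      · rw [hv1 _ _ (by rw [hadd]; exact hk') _ hxy, map_mul]
        rcases hx0.eq_or_lt with hx1 | hx1
        · rw [hz0 d m hx1.symm x hx, hv1 e n (by omega) y hy, hp0 e n (by omega) y hy]
          ring
        rcases hy0.eq_or_lt with hy1 | hy1
        · rw [hz0 e n hy1.symm y hy, hv1 d m (by omega) x hx, hp0 d m (by omega) x hx]
          ring
        · rw [hz d m hx1 (by omega) x hx, hp0 d m (by omega) x hx, hp0 e n (by omega) y hy]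
          ring
      · rw [hv0 _ _ (by rw [hadd]; exact hk') _ hxy]
        have h1 : p x * v y = 0 := by
          by_cases hx1 : m - (d : ℤ) * μ = 0
          · rw [hv0 e n (by omega) y hy, mul_zero]
          · rw [hp0 d m hx1 x hx, zero_mul]
        have h2 : p y * v x = 0 := by
          by_cases hy1 : n - (e : ℤ) * μ = 0
          · rw [hv0 d m (by omega) x hx, mul_zero]
          · rw [hp0 e n hy1 y hy, zero_mul]
        rw [h1, h2, add_zero]
    exact hFG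
  · intro d m h hh hne
    by_contra hcon
    apply hne
    apply hv0 d m _ h hh
    intro h1
    apply hcon
    rw [nsmul_eq_mul]
    linarith

/-- one step: the next weight can be killed -/
theorem orb_step (hX : IsTorusManifold 𝒜) (hp : IsSource 𝒜 (AddMonoidHom.id ℤ) p μ a)
    (hH : IsHomogeneousManifold 𝒜) (hf : f ∈ 𝒜 (1, μ)) (pf : p f = 1) {z : R →ₐ[ℂ] ℂ}
    (zf : z f = 1) {k : ℤ} (hk : 0 < k) (hz : NK 𝒜 μ z k) :
    ∃ F ∈ Gam 𝒜, z (F f) = 1 ∧ NK 𝒜 μ (z.comp (F : R →ₐ[ℂ] R)) (k + 1) := by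
  have hw : ∀ χ : ℤ, TangentWeight 𝒜 p μ χ → 0 < χ := fun χ h => (hp.2.2 χ h).1
  have hfix := hp.2.1
  obtain ⟨v, hv, hvw, hv1⟩ := exists_leading hX.gen hfix hw hf pf zf hk hz
  obtain ⟨D0, hD0, hD0v⟩ := hH p hp.1 v hv
  obtain ⟨D, hD, hDv⟩ := H93.exists_hfield hfix hvw D0 hD0 hD0v
  obtain ⟨F, hF, hFe⟩ := exists_flow (finite_deg hX) hD.isField
  have hneg : ∀ (d : ℕ) (m : ℤ), m - (d : ℤ) * μ < 0 → ∀ h ∈ 𝒜 (d, m), h = 0 :=
    fun d m hm h hh => eq_zero_of_neg hX.gen hfix hw hf pf hm (mem_coarse hh (wt_apply μ d m))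
  -- below the weight
  have hlow : ∀ (d : ℕ) (m : ℤ), m - (d : ℤ) * μ < k → ∀ h ∈ 𝒜 (d, m), F h = h := by
    intro d m hm h hh
    have h0 : D h = 0 := hneg d (m - k) (by omega) _ (hD d m h hh)
    have h1 : IsExpAt (D : R →ₗ[ℂ] R) h (h + D h) := IsExpAt.of_sq (by
      change D (D h) = 0
      rw [h0, map_zero])
    rw [(hFe h).unique h1, h0, add_zero]
  refine ⟨F, hF, ?_, ?_⟩
  · rw [hlow 1 μ (by push_cast; linarith) f hf, zf]
  · intro d m hm1 hm2 h hh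
    change z (F h) = 0
    rcases lt_or_ge (m - (d : ℤ) * μ) k with hm | hm
    · rw [hlow d m hm h hh]
      exact hz d m hm1 hm h hh
    · have hmk : m - (d : ℤ) * μ = k := by omega
      have hDh := hD d m h hh
      have h2 : D (D h) = 0 := hneg d (m - k - k) (by omega) _ (hD d (m - k) _ hDh)
      rw [(hFe h).unique (IsExpAt.of_sq (D := (D : R →ₗ[ℂ] R)) h2)]
      change z (h + D h) = 0
      have e : m - k = d • μ := by rw [nsmul_eq_mul]; linarith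
      rw [e] at hDh
      have h3 := eq_of_zero_weight hX.gen hfix hw hf pf hDh
      rw [map_add, h3, map_smul, map_pow, zf, one_pow, smul_eq_mul, mul_one, hDv, hv1 d m hmk h hh,
        add_neg_cancel]

/-- (B): the points with `z f ≠ 0` are in the orbit of the source -/
theorem orb_source (hX : IsTorusManifold 𝒜) (hp : IsSource 𝒜 (AddMonoidHom.id ℤ) p μ a)
    (hH : IsHomogeneousManifold 𝒜) (hf : f ∈ 𝒜 (1, μ)) (pf : p f = 1) {z : R →ₐ[ℂ] ℂ}
    (zf : z f ≠ 0) : OrbRel 𝒜 z p := by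
  have hw : ∀ χ : ℤ, TangentWeight 𝒜 p μ χ → 0 < χ := fun χ h => (hp.2.2 χ h).1
  -- scaling
  obtain ⟨F0, hF0, hF0'⟩ := scalar_mem (finite_deg hX) (inv_ne_zero zf)
  have h0 : OrbRel 𝒜 z (z.comp (F0 : R →ₐ[ℂ] R)) := ⟨F0, hF0, fun _ => rfl⟩
  have h0f : (z.comp (F0 : R →ₐ[ℂ] R)) f = 1 := by
    change z (F0 f) = 1
    rw [hF0' 1 μ f hf, map_smul, pow_one, smul_eq_mul, inv_mul_cancel₀ zf]
  -- all steps
  have hstep : ∀ n : ℕ, ∃ z' : R →ₐ[ℂ] ℂ, OrbRel 𝒜 z z' ∧ z' f = 1 ∧ NK 𝒜 μ z' ((n : ℤ) + 1) := by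
    intro n
    induction n with
    | zero => exact ⟨_, h0, h0f, fun d m h1 h2 => by
        push_cast at h2
        omega⟩
    | succ n ih =>
      obtain ⟨z', h1, h2, h3⟩ := ih
      obtain ⟨F, hF, h4, h5⟩ := orb_step hX hp hH hf pf h2 (by omega) h3
      refine ⟨z'.comp (F : R →ₐ[ℂ] R), h1.trans ⟨F, hF, fun _ => rfl⟩, h4, ?_⟩
      push_cast
      exact h5
  -- bound for the weights in degree one
  obtain ⟨K, hK⟩ : ∃ K : ℕ, ∀ m ∈ H587.wts 𝒜, m - μ < (K : ℤ) := by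
    obtain ⟨b, hb⟩ := (finite_weights hX).bddAbove
    refine ⟨(b - μ).toNat + 1, fun m hm => ?_⟩
    have := hb hm
    omega
  obtain ⟨z', h1, h2, h3⟩ := hstep K
  have hz' : z' = p := by
    refine AlgHom.ext_of_adjoin_eq_top hX.gen ?_
    rintro h ⟨m, hh⟩
    change z' h = p h
    by_cases hne : h = 0
    · rw [hne, map_zero, map_zero]
    · rcases lt_trichotomy (m - μ) 0 with hm | hm | hm
      · exfalso
        apply hne
        exact eq_zero_of_neg hX.gen hp.2.1 hw hf pf (k := m - μ) hm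
          (mem_coarse hh (by rw [wt_apply]; simp))
      · have hm' : m = 1 • μ := by rw [one_smul]; linarith
        rw [hm'] at hh
        have h4 := eq_of_zero_weight hX.gen hp.2.1 hw hf pf hh
        rw [h4, map_smul, map_pow, h2, map_smul, map_pow, pf]
      · have h5 : z' h = 0 := h3 1 m (by push_cast; linarith)
          (by have := hK m ⟨h, hh, hne⟩; push_cast; linarith) h hh
        rw [h5, p_weight hp.2.1 (k := m - μ) (by omega) (mem_coarse hh (by rw [wt_apply]; simp))]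
  rwa [hz'] at h1

end

end Vale.Agent.P280.H939
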