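import Vale.Agent.P280.H939.R3g
import Vale.Agent.P280.H127.Wts
import Vale.Agent.P280.H587.Base
import Vale.Agent.P280.T.Tools2

/-!
# P280 (B1), E1: the chart at an isolated source, graded by all characters
-/

namespace Vale.Agent.P280.H939

open DirectSum Vale.Agent.P280.T Vale.Agent.P280.H127

section deh
variable {M : Type} [AddCommGroup M] [DecidableEq M]
variable {R : Type} [CommRing R] [Algebra ℂ R] {𝒜 : ℕ × M → Submodule ℂ R} [GradedAlgebra 𝒜]
  {K : Type} [Field K] [Algebra R K] [Algebra ℂ K] [IsScalarTower ℂ R K]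

/-- dehomogenisation -/
theorem exists_deh (𝒜 : ℕ × M → Submodule ℂ R) [GradedAlgebra 𝒜] {F : K} (hF : F ≠ 0) :
    ∃ D : R →ₐ[ℂ] K, ∀ (d : ℕ) (m : M), ∀ h ∈ 𝒜 (d, m),
      D h = algebraMap R K h * (F ^ d)⁻¹ := by
  obtain ⟨φ, hφ⟩ := H587.exists_linearMap 𝒜 (fun i : ℕ × M =>
    (LinearMap.mulRight ℂ ((F ^ i.1)⁻¹)).comp ((Algebra.linearMap R K).restrictScalars ℂ))
  have hφ' : ∀ (d : ℕ) (m : M), ∀ h ∈ 𝒜 (d, m), φ h = algebraMap R K h * (F ^ d)⁻¹ :=
    fun d m h hh => hφ (d, m) h hh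
  have hmul : ∀ x y : R, φ (x * y) = φ x * φ y := by
    intro x y
    let F1 : R →ₗ[ℂ] R →ₗ[ℂ] K := (LinearMap.mul ℂ R).compr₂ φ
    let G : R →ₗ[ℂ] R →ₗ[ℂ] K := (LinearMap.mul ℂ K).compl₁₂ φ φ
    have hFG : F1 x y = G x y := by
      refine H587.bilin_ext 𝒜 (F := F1) (G := G) ?_ x y
      rintro ⟨d, m⟩ ⟨e, n⟩ x hx y hy
      change φ (x * y) = φ x * φ y
      have hxy : x * y ∈ 𝒜 (d + e, m + n) := SetLike.mul_mem_graded hx hy
      rw [hφ' _ _ _ hxy, hφ' _ _ _ hx, hφ' _ _ _ hy, map_mul, pow_add, mul_inv]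
      ring
    exact hFG
  have h1 : φ 1 = 1 := by
    have h : (1 : R) ∈ 𝒜 (0, 0) := SetLike.one_mem_graded 𝒜
    rw [hφ' 0 0 1 h, map_one, pow_zero, inv_one, mul_one]
  exact ⟨AlgHom.ofLinearMap φ h1 hmul, hφ'⟩

/-- the dehomogenisation -/
noncomputable def deh (𝒜 : ℕ × M → Submodule ℂ R) [GradedAlgebra 𝒜] {F : K} (hF : F ≠ 0) :
    R →ₐ[ℂ] K := (exists_deh 𝒜 hF).choose

theorem deh_of_mem {F : K} (hF : F ≠ 0) {d : ℕ} {m : M} {h : R} (hh : h ∈ 𝒜 (d, m)) :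
    deh 𝒜 hF h = algebraMap R K h * (F ^ d)⁻¹ := (exists_deh 𝒜 hF).choose_spec d m h hh

end deh

section chart
variable {M : Type} [AddCommGroup M] [DecidableEq M]
variable {R : Type} [CommRing R] [Algebra ℂ R] {𝒜 : ℕ × M → Submodule ℂ R} [GradedAlgebra 𝒜]

/-- relative weights -/
abbrev rw' (μ : M) : ℕ × M →+ M := rl (AddMonoidHom.id M) μ

omit [DecidableEq M] in
theorem rw'_apply (μ : M) (d : ℕ) (m : M) : rw' μ (d, m) = m - d • μ := rfl

/-- from relative weights to the relative weights for a one-parameter group -/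
theorem coarse_co (L : M →+ ℤ) (μ : M) {ψ : M} {x : R} (hx : x ∈ coarse 𝒜 (rw' μ) ψ) :
    x ∈ coarse (H587.co 𝒜 L) (wt (L μ)) (L ψ) := by
  refine coarse_induction (P := fun x => x ∈ coarse (H587.co 𝒜 L) (wt (L μ)) (L ψ))
    (Submodule.zero_mem _) (fun a b ha hb => Submodule.add_mem _ ha hb) ?_ hx
  rintro ⟨d, m⟩ hi h hh
  refine mem_coarse (H587.mem_co (l := L) hh) ?_
  rw [wt_apply, ← hi, rw'_apply, map_sub, map_nsmul, nsmul_eq_mul]

/-- the data of an isolated source for `L`, with parameters homogeneous for all characters -/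
structure CData (𝒜 : ℕ × M → Submodule ℂ R) [GradedAlgebra 𝒜] (L : M →+ ℤ) (μ : M)
    (p : R →ₐ[ℂ] ℂ) (f : R) {n : ℕ} (u : Fin n → R) (χ : Fin n → M) : Prop where
  dom : IsDomain R
  noe : IsNoetherianRing R
  src : SrcData (H587.co 𝒜 L) (L μ) p f
  fix : IsFixed 𝒜 p μ
  hf : f ∈ 𝒜 (1, μ)
  gens : Gens (coarse 𝒜 (rw' μ)) p u χ
  ht : (n : ℕ∞) = (mx p).height

variable {L : M →+ ℤ} {μ : M} {p : R →ₐ[ℂ] ℂ} {f : R} {n : ℕ} {u : Fin n → R} {χ : Fin n → M}

theorem exists_cdata (hX : IsTorusManifold 𝒜) {a : ℤ} (hs : IsSource 𝒜 L p μ a) :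
    ∃ (f : R) (n : ℕ) (u : Fin n → R) (χ : Fin n → M), CData 𝒜 L μ p f u χ := by
  have hdom := hX.domain
  have := hX.finiteType
  have hnoe : IsNoetherianRing R := Algebra.FiniteType.isNoetherianRing ℂ R
  have hX' := H587.isTorusManifold_co (l := L) hX
  have hs' := H587.isSource_co hs
  obtain ⟨f0, hf0, hne⟩ := exists_deg_one_ne hX.gen hs.1 hs.2.1
  set f := (p f0)⁻¹ • f0 with hf
  have hfm : f ∈ 𝒜 (1, μ) := Submodule.smul_mem _ _ hf0
  have pf : p f = 1 := by rw [hf, map_smul, smul_eq_mul, inv_mul_cancel₀ hne]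
  obtain ⟨n, u, χ, G, hn⟩ := exists_params_T hX hs.1 (fix_of_isFixed hs.2.1)
  refine ⟨f, n, u, χ, hdom, hnoe, ⟨hX'.gen, hs'.2.1, fun χ h => (hs'.2.2 χ h).1, ?_, pf⟩,
    hs.2.1, hfm, G, hn⟩
  exact H587.mem_co hfm

/-- parameters for the grading by `L` -/
theorem CData.gensL (C : CData 𝒜 L μ p f u χ) :
    Gens (coarse (H587.co 𝒜 L) (wt (L μ))) p u (fun i => L (χ i)) := by
  refine ⟨fun i => coarse_co L μ (C.gens.hom i), C.gens.zero, ?_⟩
  obtain ⟨s, hs, h1, h2⟩ := C.gens.gen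
  refine ⟨s, ?_, h1, h2⟩
  have := coarse_co L μ hs
  rwa [map_zero] at this

theorem CData.eq_zero (C : CData 𝒜 L μ p f u χ) {ψ : M} (hψ : L ψ < 0) {x : R}
    (hx : x ∈ coarse 𝒜 (rw' μ) ψ) : x = 0 := by
  have := C.dom
  have := C.noe
  exact eq_zero_of_neg C.src.gen C.src.fix C.src.pos C.src.hf C.src.pf hψ (coarse_co L μ hx)

theorem CData.f_ne (C : CData 𝒜 L μ p f u χ) : f ≠ 0 := by
  rintro rfl
  have := C.src.pf
  rw [map_zero] at this
  exact zero_ne_one this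

theorem CData.eq_smul (C : CData 𝒜 L μ p f u χ) {d : ℕ} {m : M} (hm : L (m - d • μ) = 0) {h : R}
    (hh : h ∈ 𝒜 (d, m)) : h = p h • f ^ d := by
  have := C.dom
  have := C.noe
  refine eq_of_zero_weight C.src.gen C.src.fix C.src.pos C.src.hf C.src.pf ?_
  have h1 := H587.mem_co (l := L) hh
  rw [map_sub, map_nsmul, sub_eq_zero] at hm
  rwa [hm] at h1

variable {K : Type} [Field K] [Algebra R K] [Algebra ℂ K] [IsScalarTower ℂ R K]

/-- elements of weight zero for `L` have constant dehomogenisation -/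
theorem CData.deh_zero (C : CData 𝒜 L μ p f u χ) (hF : algebraMap R K f ≠ 0) {ψ : M}
    (hψ : L ψ = 0) {x : R} (hx : x ∈ coarse 𝒜 (rw' μ) ψ) :
    deh 𝒜 hF x = algebraMap ℂ K (p x) := by
  refine coarse_induction (P := fun x => deh 𝒜 hF x = algebraMap ℂ K (p x)) ?_ ?_ ?_ hx
  · rw [map_zero, map_zero, map_zero]
  · intro a b ha hb
    rw [map_add, ha, hb, map_add, map_add]
  · rintro ⟨d, m⟩ hi h hh
    have h1 := C.eq_smul (by rw [rw'_apply] at hi; rw [hi, hψ]) hh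
    rw [deh_of_mem hF hh]
    conv_lhs => rw [h1]
    rw [Algebra.smul_def, map_mul, map_pow, ← IsScalarTower.algebraMap_apply, mul_assoc,
      mul_inv_cancel₀ (pow_ne_zero _ hF), mul_one]

/-- the coordinates -/
noncomputable def xiM (𝒜 : ℕ × M → Submodule ℂ R) [GradedAlgebra 𝒜] (L : M →+ ℤ) {F : K}
    (hF : F ≠ 0) (u : Fin n → R) (χ : Fin n → M) (i : {i : Fin n // 0 < L (χ i)}) : K :=
  deh 𝒜 hF (u i)

/-- the polynomial of a homogeneous element -/
theorem CData.exists_poly (C : CData 𝒜 L μ p f u χ) (hF : algebraMap R K f ≠ 0) {ψ : M} {x : R}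
    (hx : x ∈ coarse 𝒜 (rw' μ) ψ) : ∃ P : MvPolynomial {i : Fin n // 0 < L (χ i)} ℂ,
      MvPolynomial.IsWeightedHomogeneous (fun i : {i : Fin n // 0 < L (χ i)} => χ i) P ψ ∧
      MvPolynomial.aeval (xiM 𝒜 L hF u χ) P = deh 𝒜 hF x := by
  have := C.dom
  have := C.noe
  by_cases hk : L ψ < 0
  · refine ⟨0, MvPolynomial.isWeightedHomogeneous_zero _ _ _, ?_⟩
    rw [map_zero, C.eq_zero hk hx, map_zero]
  push Not at hk
  obtain ⟨N, hN⟩ := Int.eq_ofNat_of_zero_le hk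
  clear hk
  induction N using Nat.strong_induction_on generalizing ψ x with
  | _ N ih =>
  rcases Nat.eq_zero_or_pos N with rfl | hN0
  · have h0 : L ψ = 0 := hN
    rw [C.deh_zero hF h0 hx]
    by_cases hψ : ψ = 0
    · subst hψ
      refine ⟨MvPolynomial.C (p x), MvPolynomial.isWeightedHomogeneous_C _ _, ?_⟩
      rw [MvPolynomial.aeval_C]
    · refine ⟨0, MvPolynomial.isWeightedHomogeneous_zero _ _ _, ?_⟩
      have hpx : p x = 0 := (fix_of_isFixed C.fix) ψ hψ x hx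
      rw [map_zero, hpx, map_zero]
  -- existence for all smaller weights
  have ih' : ∀ ψ' : M, L ψ' < N → ∀ y ∈ coarse 𝒜 (rw' μ) ψ',
      ∃ P : MvPolynomial {i : Fin n // 0 < L (χ i)} ℂ,
      MvPolynomial.IsWeightedHomogeneous (fun i : {i : Fin n // 0 < L (χ i)} => χ i) P ψ' ∧
      MvPolynomial.aeval (xiM 𝒜 L hF u χ) P = deh 𝒜 hF y := by
    intro ψ' hψ' y hy
    by_cases hk0 : L ψ' < 0
    · refine ⟨0, MvPolynomial.isWeightedHomogeneous_zero _ _ _, ?_⟩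
      rw [map_zero, C.eq_zero hk0 hy, map_zero]
    · obtain ⟨J, hJ⟩ := Int.eq_ofNat_of_zero_le (not_lt.1 hk0)
      exact ih J (by omega) hy hJ
  have hψ : ψ ≠ 0 := by
    rintro rfl
    rw [map_zero] at hN
    omega
  obtain ⟨s, hs0, hs1, hs⟩ := C.gens.gen
  have hxm : x ∈ mx p := mem_mx.2 ((fix_of_isFixed C.fix) ψ hψ x hx)
  obtain ⟨c, hc⟩ := Ideal.mem_span_range_iff_exists_fun.1 (hs x hxm)
  have hsx : s * x ∈ coarse 𝒜 (rw' μ) ψ := by
    have := SetLike.mul_mem_graded hs0 hx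
    rwa [zero_add] at this
  have h1 : s * x = ∑ i, cp (coarse 𝒜 (rw' μ)) (ψ - χ i) (c i) * u i := by
    conv_lhs => rw [← cp_of_mem (coarse 𝒜 (rw' μ)) hsx, ← hc, cp_sum]
    exact Finset.sum_congr rfl fun i _ => cp_mul_right (coarse 𝒜 (rw' μ)) (C.gens.hom i) _ _
  have h2 : deh 𝒜 hF x = ∑ i, deh 𝒜 hF (cp (coarse 𝒜 (rw' μ)) (ψ - χ i) (c i) * u i) := by
    rw [← map_sum, ← h1, map_mul, C.deh_zero hF (map_zero L) hs0, hs1, map_one, one_mul]
  choose P hP hP' using fun i : {i : Fin n // 0 < L (χ i)} =>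
    ih' (ψ - χ i) (by rw [map_sub]; have := i.2; omega)
      (cp (coarse 𝒜 (rw' μ)) (ψ - χ i) (c i)) (cp_mem _ _ _)
  refine ⟨∑ i, MvPolynomial.X i * P i, ?_, ?_⟩
  · refine MvPolynomial.IsWeightedHomogeneous.sum _ _ _ fun i _ => ?_
    have := (MvPolynomial.isWeightedHomogeneous_X ℂ
      (fun i : {i : Fin n // 0 < L (χ i)} => χ i) i).mul (hP i)
    rwa [show χ i + (ψ - χ i) = ψ by abel] at this
  · rw [h2, map_sum]
    have h3 : ∀ i : Fin n, ¬ 0 < L (χ i) → deh 𝒜 hF (u i) = 0 := by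
      intro i hi
      rcases (not_lt.1 hi).lt_or_eq with h | h
      · rw [C.eq_zero h (C.gens.hom i), map_zero]
      · rw [C.deh_zero hF h (C.gens.hom i), C.gens.zero i, map_zero]
    have h4 : ∑ i : Fin n, deh 𝒜 hF (cp (coarse 𝒜 (rw' μ)) (ψ - χ i) (c i) * u i) =
        ∑ i : {i : Fin n // 0 < L (χ i)},
          deh 𝒜 hF (cp (coarse 𝒜 (rw' μ)) (ψ - χ i) (c i) * u i) := by
      rw [← Finset.sum_filter_of_ne (s := Finset.univ) (p := fun i => 0 < L (χ i))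
        (fun i _ hi => by
          by_contra hneg
          exact hi (by rw [map_mul, h3 i hneg, mul_zero]))]
      exact Finset.sum_subtype _ (fun i => by simp) _
    rw [h4]
    refine Finset.sum_congr rfl fun i _ => ?_
    rw [map_mul, MvPolynomial.aeval_X, hP' i, map_mul, mul_comm]
    rfl

/-- evaluation at `f` and the coordinates -/
noncomputable def PsiM (𝒜 : ℕ × M → Submodule ℂ R) [GradedAlgebra 𝒜] (L : M →+ ℤ) {F : K}
    (hF : F ≠ 0) (u : Fin n → R) (χ : Fin n → M) :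
    MvPolynomial (Option {i : Fin n // 0 < L (χ i)}) ℂ →ₐ[ℂ] K :=
  MvPolynomial.aeval (fun o => o.elim F (xiM 𝒜 L hF u χ))

theorem PsiM_none {F : K} (hF : F ≠ 0) : PsiM 𝒜 L hF u χ (MvPolynomial.X none) = F := by
  unfold PsiM
  rw [MvPolynomial.aeval_X]
  rfl

theorem PsiM_some {F : K} (hF : F ≠ 0) (i : {i : Fin n // 0 < L (χ i)}) :
    PsiM 𝒜 L hF u χ (MvPolynomial.X (some i)) = deh 𝒜 hF (u i) := by
  unfold PsiM
  rw [MvPolynomial.aeval_X]
  rfl

theorem PsiM_rename {F : K} (hF : F ≠ 0) (P : MvPolynomial {i : Fin n // 0 < L (χ i)} ℂ) :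
    PsiM 𝒜 L hF u χ (MvPolynomial.rename some P) =
      MvPolynomial.aeval (xiM 𝒜 L hF u χ) P := by
  unfold PsiM
  rw [MvPolynomial.aeval_rename]
  rfl

theorem deh_eq_cf (hF : algebraMap R K f ≠ 0) {ψ : M} {x : R}
    (hx : x ∈ coarse 𝒜 (rw' μ) ψ) :
    deh 𝒜 hF x = cf (H587.co 𝒜 L) (L μ) f K (L ψ) x := by
  refine coarse_induction (P := fun x => deh 𝒜 hF x = cf (H587.co 𝒜 L) (L μ) f K (L ψ) x)
    ?_ ?_ ?_ hx
  · rw [map_zero, map_zero]
  · intro a b ha hb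
    rw [map_add, ha, hb, map_add]
  · rintro ⟨d, m⟩ hi h hh
    rw [deh_of_mem hF hh, cf_of_mem (H587.mem_co (l := L) hh), if_pos, zpow_neg, zpow_natCast]
    rw [← hi, rw'_apply, map_sub, map_nsmul, nsmul_eq_mul]

/-- the chart is an affine space -/
theorem CData.inj (C : CData 𝒜 L μ p f u χ) (hK : Function.Injective (algebraMap R K))
    (hF : algebraMap R K f ≠ 0) : Function.Injective (PsiM 𝒜 L hF u χ) := by
  have := C.dom
  have := C.noe
  have h1 := Psi_injective (K := K) hK C.src hF C.gensL C.ht.le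
  have h2 : PsiM 𝒜 L hF u χ = Psi (H587.co 𝒜 L) (L μ) f K u (fun i => L (χ i)) := by
    unfold PsiM Psi
    congr 1
    funext o
    cases o with
    | none => rfl
    | some i => exact deh_eq_cf (μ := μ) hF (C.gens.hom i)
  rw [h2]
  exact h1

/-- homogeneous elements as values of polynomials -/
theorem CData.exists_hom (C : CData 𝒜 L μ p f u χ) (hF : algebraMap R K f ≠ 0) {d : ℕ} {m : M}
    {h : R} (hh : h ∈ 𝒜 (d, m)) : ∃ P : MvPolynomial {i : Fin n // 0 < L (χ i)} ℂ,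
      MvPolynomial.IsWeightedHomogeneous (fun i : {i : Fin n // 0 < L (χ i)} => χ i) P
        (m - d • μ) ∧
      PsiM 𝒜 L hF u χ (MvPolynomial.X none ^ d * MvPolynomial.rename some P) =
        algebraMap R K h := by
  obtain ⟨P, hP, hP'⟩ := C.exists_poly hF (mem_coarse hh (rw'_apply μ d m))
  refine ⟨P, hP, ?_⟩
  rw [map_mul, map_pow, PsiM_none, PsiM_rename, hP', deh_of_mem hF hh, mul_comm, mul_assoc,
    inv_mul_cancel₀ (pow_ne_zero _ hF), mul_one]

end chart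

end Vale.Agent.P280.H939
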