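import Vale.Agent.P280.H939.E1

/-!
# P280 (B1), E2: induction over the chart
-/

namespace Vale.Agent.P280.H939

open DirectSum Vale.Agent.P280.T Vale.Agent.P280.H127

section chart
variable {M : Type} [AddCommGroup M] [DecidableEq M]
variable {R : Type} [CommRing R] [Algebra ℂ R] {𝒜 : ℕ × M → Submodule ℂ R} [GradedAlgebra 𝒜]
variable {L : M →+ ℤ} {μ : M} {p : R →ₐ[ℂ] ℂ} {f : R} {n : ℕ} {u : Fin n → R} {χ : Fin n → M}
variable {K : Type} [Field K] [Algebra R K] [Algebra ℂ K] [IsScalarTower ℂ R K]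

theorem pow_fM (hf : f ∈ 𝒜 (1, μ)) (d : ℕ) : f ^ d ∈ 𝒜 (d, d • μ) := by
  have := SetLike.pow_mem_graded d hf
  rwa [Prod.smul_mk, smul_eq_mul, mul_one] at this

/-- clearing denominators in the dehomogenisation -/
theorem clear_deh (hf : f ∈ 𝒜 (1, μ)) (hF : algebraMap R K f ≠ 0) {ψ : M} {x : R}
    (hx : x ∈ coarse 𝒜 (rw' μ) ψ) : ∃ N : ℕ, ∃ b ∈ 𝒜 (N, N • μ + ψ),
      algebraMap R K f ^ N * deh 𝒜 hF x = algebraMap R K b ∧ (f - 1) ∣ b - x := by
  refine coarse_induction (P := fun x => ∃ N : ℕ, ∃ b ∈ 𝒜 (N, N • μ + ψ),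
      algebraMap R K f ^ N * deh 𝒜 hF x = algebraMap R K b ∧ (f - 1) ∣ b - x) ?_ ?_ ?_ hx
  · exact ⟨0, 0, Submodule.zero_mem _, by simp, by simp⟩
  · rintro x y ⟨N, b, hb, h1, h2⟩ ⟨N', b', hb', h1', h2'⟩
    have hup : ∀ (N N' : ℕ) (b x : R), b ∈ 𝒜 (N, N • μ + ψ) →
        algebraMap R K f ^ N * deh 𝒜 hF x = algebraMap R K b → (f - 1) ∣ b - x →
        f ^ N' * b ∈ 𝒜 (N' + N, (N' + N) • μ + ψ) ∧
        algebraMap R K f ^ (N' + N) * deh 𝒜 hF x = algebraMap R K (f ^ N' * b) ∧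
        (f - 1) ∣ f ^ N' * b - x := by
      intro N N' b x hb h1 h2
      refine ⟨?_, ?_, ?_⟩
      · have := SetLike.mul_mem_graded (pow_fM hf N') hb
        rw [Prod.mk_add_mk] at this
        rwa [add_smul, add_assoc]
      · rw [pow_add, mul_assoc, h1, map_mul, map_pow]
      · have e : f ^ N' * b - x = (f ^ N' - 1) * b + (b - x) := by ring
        rw [e]
        refine dvd_add (Dvd.dvd.mul_right ?_ _) h2
        have := sub_dvd_pow_sub_pow f 1 N'
        rwa [one_pow] at this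
    obtain ⟨a1, a2, a3⟩ := hup N N' b x hb h1 h2
    obtain ⟨b1, b2, b3⟩ := hup N' N b' y hb' h1' h2'
    rw [add_comm N N'] at b1 b2
    refine ⟨N' + N, f ^ N' * b + f ^ N * b', Submodule.add_mem _ a1 b1, ?_, ?_⟩
    · rw [map_add, mul_add, a2, b2, map_add]
    · have e : f ^ N' * b + f ^ N * b' - (x + y) = (f ^ N' * b - x) + (f ^ N * b' - y) := by ring
      rw [e]
      exact dvd_add a3 b3
  · rintro ⟨d, m⟩ hi h hh
    rw [rw'_apply] at hi
    refine ⟨d, h, ?_, ?_, by simp⟩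
    · have e : d • μ + ψ = m := by rw [← hi]; abel
      rw [e]; exact hh
    · rw [deh_of_mem hF hh, mul_comm, mul_assoc, inv_mul_cancel₀ (pow_ne_zero _ hF), mul_one]

/-- Induction over the chart. -/
theorem CData.chart_ind (C : CData 𝒜 L μ p f u χ) (hF : algebraMap R K f ≠ 0)
    {P : R → MvPolynomial (Option {i : Fin n // 0 < L (χ i)}) ℂ → Prop}
    (hC : ∀ c : ℂ, P (algebraMap ℂ R c) (MvPolynomial.C c))
    (hadd : ∀ r s Q Q', P r Q → P s Q' → P (r + s) (Q + Q'))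
    (hmul : ∀ r s Q Q', P r Q → P s Q' → P (r * s) (Q * Q'))
    (hX : P f (MvPolynomial.X none))
    (hfm : ∀ r Q, P r Q → P (f * r) Q)
    (hsome : ∀ (i : {i : Fin n // 0 < L (χ i)}) (N : ℕ) (b : R), b ∈ 𝒜 (N, N • μ + χ i) →
      (f - 1) ∣ b - u i → P b (MvPolynomial.X (some i)))
    (Q : MvPolynomial (Option {i : Fin n // 0 < L (χ i)}) ℂ) :
    ∃ (N : ℕ) (r : R), algebraMap R K f ^ N * PsiM 𝒜 L hF u χ Q = algebraMap R K r ∧ P r Q := by
  have hfm' : ∀ (N : ℕ) r Q, P r Q → P (f ^ N * r) Q := by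
    intro N
    induction N with
    | zero => intro r Q h; rwa [pow_zero, one_mul]
    | succ N ih =>
      intro r Q h
      rw [pow_succ', mul_assoc]
      exact hfm _ _ (ih r Q h)
  induction Q using MvPolynomial.induction_on with
  | C c =>
    refine ⟨0, algebraMap ℂ R c, ?_, hC c⟩
    rw [pow_zero, one_mul, ← IsScalarTower.algebraMap_apply]
    exact MvPolynomial.aeval_C _ _
  | add Q Q' hQ hQ' =>
    obtain ⟨N, r, h1, h2⟩ := hQ
    obtain ⟨N', s, h1', h2'⟩ := hQ'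
    refine ⟨N + N', f ^ N' * r + f ^ N * s, ?_,
      hadd _ _ _ _ (hfm' _ _ _ h2) (hfm' _ _ _ h2')⟩
    rw [map_add, map_add, map_mul, map_mul, map_pow, map_pow, ← h1, ← h1']
    ring
  | mul_X Q o hQ =>
    obtain ⟨N, r, h1, h2⟩ := hQ
    have : ∃ (N' : ℕ) (s : R), algebraMap R K f ^ N' * PsiM 𝒜 L hF u χ (MvPolynomial.X o) =
        algebraMap R K s ∧ P s (MvPolynomial.X o) := by
      cases o with
      | none => exact ⟨0, f, by rw [pow_zero, one_mul, PsiM_none], hX⟩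
      | some i =>
        obtain ⟨N', b, hb, h3, h4⟩ := clear_deh C.hf hF (C.gens.hom i)
        exact ⟨N', b, by rw [PsiM_some]; exact h3, hsome i N' b hb h4⟩
    obtain ⟨N', s, h1', h2'⟩ := this
    refine ⟨N + N', r * s, ?_, hmul _ _ _ _ h2 h2'⟩
    rw [map_mul, map_mul, ← h1, ← h1']
    ring

/-- The same for elements of `R`. -/
theorem CData.chart_ind' (C : CData 𝒜 L μ p f u χ) (hK : Function.Injective (algebraMap R K))
    (hF : algebraMap R K f ≠ 0)
    {P : R → MvPolynomial (Option {i : Fin n // 0 < L (χ i)}) ℂ → Prop}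
    (hC : ∀ c : ℂ, P (algebraMap ℂ R c) (MvPolynomial.C c))
    (hadd : ∀ r s Q Q', P r Q → P s Q' → P (r + s) (Q + Q'))
    (hmul : ∀ r s Q Q', P r Q → P s Q' → P (r * s) (Q * Q'))
    (hX : P f (MvPolynomial.X none))
    (hfm : ∀ r Q, P r Q → P (f * r) Q)
    (hsome : ∀ (i : {i : Fin n // 0 < L (χ i)}) (N : ℕ) (b : R), b ∈ 𝒜 (N, N • μ + χ i) →
      (f - 1) ∣ b - u i → P b (MvPolynomial.X (some i)))
    {Q : MvPolynomial (Option {i : Fin n // 0 < L (χ i)}) ℂ} {h : R}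
    (hQ : PsiM 𝒜 L hF u χ Q = algebraMap R K h) : ∃ N : ℕ, P (f ^ N * h) Q := by
  obtain ⟨N, r, h1, h2⟩ := C.chart_ind hF hC hadd hmul hX hfm hsome Q
  refine ⟨N, ?_⟩
  have h3 : f ^ N * h = r := hK (by rw [map_mul, map_pow, ← hQ, h1])
  rwa [h3]

/-- An algebra homomorphism with value `1` at `f` is determined by its values at the parameters. -/
theorem CData.chart_hom (C : CData 𝒜 L μ p f u χ) (hK : Function.Injective (algebraMap R K))
    (hF : algebraMap R K f ≠ 0) {B : Type} [CommRing B] [Algebra ℂ B] (y : R →ₐ[ℂ] B)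
    (yf : y f = 1) {Q : MvPolynomial (Option {i : Fin n // 0 < L (χ i)}) ℂ} {h : R}
    (hQ : PsiM 𝒜 L hF u χ Q = algebraMap R K h) :
    y h = MvPolynomial.aeval (fun o : Option {i : Fin n // 0 < L (χ i)} =>
      o.elim 1 (fun i => y (u i))) Q := by
  have key : ∃ N : ℕ, y (f ^ N * h) = MvPolynomial.aeval
      (fun o : Option {i : Fin n // 0 < L (χ i)} => o.elim 1 (fun i => y (u i))) Q := by
    refine C.chart_ind' hK hF (P := fun r Q => y r = MvPolynomial.aeval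
      (fun o : Option {i : Fin n // 0 < L (χ i)} => o.elim 1 (fun i => y (u i))) Q)
      ?_ ?_ ?_ ?_ ?_ ?_ hQ
    · intro c
      rw [AlgHom.commutes, MvPolynomial.aeval_C]
    · intro r s Q Q' h1 h2
      rw [map_add, map_add, h1, h2]
    · intro r s Q Q' h1 h2
      rw [map_mul, map_mul, h1, h2]
    · rw [yf, MvPolynomial.aeval_X]
      rfl
    · intro r Q h1
      rw [map_mul, yf, one_mul, h1]
    · intro i N b _ hb
      obtain ⟨e, he⟩ := hb
      have h1 : y b = y (u i) := by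
        have h2 := congrArg y he
        rw [map_sub, map_mul, map_sub, map_one, yf, sub_self, zero_mul, sub_eq_zero] at h2
        exact h2
      rw [h1, MvPolynomial.aeval_X]
      rfl
  obtain ⟨N, hN⟩ := key
  rwa [map_mul, map_pow, yf, one_pow, one_mul] at hN

end chart

end Vale.Agent.P280.H939
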