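import Mathlib.RingTheory.MvPolynomial.Homogeneous
import Mathlib.Analysis.Complex.Basic
import Mathlib.Algebra.Polynomial.AlgebraMap
import Mathlib.RingTheory.MvPolynomial.WeightedHomogeneous

/-!
# P280 (B1), E3a: homogeneous polynomials in two variables
-/

namespace Vale.Agent.P280.H939

theorem homog_scale {B : Type*} [CommRing B] [Algebra ℂ B] {P : MvPolynomial (Fin 2) ℂ} {D : ℕ}
    (hP : P.IsHomogeneous D) (c : B) (r : Fin 2 → B) :
    MvPolynomial.aeval (fun i => c * r i) P = c ^ D * MvPolynomial.aeval r P := by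
  rw [MvPolynomial.aeval_def, MvPolynomial.aeval_def, MvPolynomial.eval₂_eq',
    MvPolynomial.eval₂_eq', Finset.mul_sum]
  refine Finset.sum_congr rfl fun e he => ?_
  have h1 : e.degree = D := by
    by_contra hne
    exact (MvPolynomial.mem_support_iff.1 he) (hP.coeff_eq_zero hne)
  have h2 : ∏ i, (c * r i) ^ e i = c ^ D * ∏ i, r i ^ e i := by
    simp_rw [mul_pow]
    rw [Finset.prod_mul_distrib, Finset.prod_pow_eq_pow_sum, ← h1, Finsupp.degree_eq_sum]
  rw [h2]
  ring

/-- dehomogenisation `s = 1` -/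
noncomputable def evs : MvPolynomial (Fin 2) ℂ →ₐ[ℂ] Polynomial ℂ :=
  MvPolynomial.aeval ![1, Polynomial.X]

/-- dehomogenisation `t = 1` -/
noncomputable def evt : MvPolynomial (Fin 2) ℂ →ₐ[ℂ] Polynomial ℂ :=
  MvPolynomial.aeval ![Polynomial.X, 1]

theorem evs_zero : evs (MvPolynomial.X 0) = 1 := by
  unfold evs
  rw [MvPolynomial.aeval_X]
  rfl

theorem evs_one : evs (MvPolynomial.X 1) = Polynomial.X := by
  unfold evs
  rw [MvPolynomial.aeval_X]
  rfl

theorem evt_zero : evt (MvPolynomial.X 0) = Polynomial.X := by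
  unfold evt
  rw [MvPolynomial.aeval_X]
  rfl

theorem evt_one : evt (MvPolynomial.X 1) = 1 := by
  unfold evt
  rw [MvPolynomial.aeval_X]
  rfl

theorem eval_evs (b : ℂ) (P : MvPolynomial (Fin 2) ℂ) :
    Polynomial.aeval b (evs P) = MvPolynomial.aeval ![1, b] P := by
  have h : (Polynomial.aeval b).comp evs = MvPolynomial.aeval ![1, b] := by
    apply MvPolynomial.algHom_ext
    intro i
    fin_cases i
    · change Polynomial.aeval b (evs (MvPolynomial.X 0)) = _
      rw [evs_zero, map_one, MvPolynomial.aeval_X]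
      rfl
    · change Polynomial.aeval b (evs (MvPolynomial.X 1)) = _
      rw [evs_one, Polynomial.aeval_X, MvPolynomial.aeval_X]
      rfl
  exact DFunLike.congr_fun h P

theorem eval_evt (b : ℂ) (P : MvPolynomial (Fin 2) ℂ) :
    Polynomial.aeval b (evt P) = MvPolynomial.aeval ![b, 1] P := by
  have h : (Polynomial.aeval b).comp evt = MvPolynomial.aeval ![b, 1] := by
    apply MvPolynomial.algHom_ext
    intro i
    fin_cases i
    · change Polynomial.aeval b (evt (MvPolynomial.X 0)) = _
      rw [evt_zero, Polynomial.aeval_X, MvPolynomial.aeval_X]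
      rfl
    · change Polynomial.aeval b (evt (MvPolynomial.X 1)) = _
      rw [evt_one, map_one, MvPolynomial.aeval_X]
      rfl
  exact DFunLike.congr_fun h P

theorem eq_zero_of_forall {P : MvPolynomial (Fin 2) ℂ} {D : ℕ} (hP : P.IsHomogeneous D) (j : Fin 2)
    (h : ∀ r : Fin 2 → ℂ, r j ≠ 0 → MvPolynomial.aeval r P = 0) : P = 0 := by
  have h1 : MvPolynomial.X j * P = 0 := by
    refine MvPolynomial.IsHomogeneous.eq_zero_of_forall_eval_eq_zero
      ((MvPolynomial.isHomogeneous_X ℂ j).mul hP) fun r => ?_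
    rw [map_mul, MvPolynomial.eval_X]
    by_cases hr : r j = 0
    · rw [hr, zero_mul]
    · have := h r hr
      rw [MvPolynomial.aeval_eq_eval] at this
      rw [show MvPolynomial.eval r P = 0 from this, mul_zero]
  exact (mul_eq_zero.1 h1).resolve_left (MvPolynomial.X_ne_zero j)

/-- a homogeneous polynomial is determined by its dehomogenisation -/
theorem evs_inj {P : MvPolynomial (Fin 2) ℂ} {D : ℕ} (hP : P.IsHomogeneous D) (h : evs P = 0) :
    P = 0 := by
  refine eq_zero_of_forall hP 0 fun r hr => ?_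
  have h1 := homog_scale hP (r 0) ![1, r 1 / r 0]
  have h2 : (fun i => r 0 * (![1, r 1 / r 0] : Fin 2 → ℂ) i) = r := by
    funext i
    fin_cases i
    · simp
    · change r 0 * (r 1 / r 0) = r 1
      field_simp
  rw [h2, ← eval_evs, h, map_zero, mul_zero] at h1
  exact h1

theorem evt_inj {P : MvPolynomial (Fin 2) ℂ} {D : ℕ} (hP : P.IsHomogeneous D) (h : evt P = 0) :
    P = 0 := by
  refine eq_zero_of_forall hP 1 fun r hr => ?_
  have h1 := homog_scale hP (r 1) ![r 0 / r 1, 1]
  have h2 : (fun i => r 1 * (![r 0 / r 1, 1] : Fin 2 → ℂ) i) = r := by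
    funext i
    fin_cases i
    · change r 1 * (r 0 / r 1) = r 0
      field_simp
    · simp
  rw [h2, ← eval_evt, h, map_zero, mul_zero] at h1
  exact h1

/-- weighted homogeneous polynomials whose weight is a multiple of one weight -/
theorem single_poly {M : Type*} [AddCommGroup M] {ι : Type*} {χ : ι → M} {l : M →+ ℤ} (i0 : ι)
    (h0 : l (χ i0) = 0) (hpos : ∀ i, i ≠ i0 → 0 < l (χ i)) {P : MvPolynomial ι ℂ} {ψ : M}
    (hP : MvPolynomial.IsWeightedHomogeneous χ P ψ) {e : ι →₀ ℕ} (he : e ∈ P.support) :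
    0 ≤ l ψ ∧ (l ψ = 0 → e = Finsupp.single i0 (e i0) ∧ e i0 • χ i0 = ψ) ∧
      (l ψ ≠ 0 → ∃ i, i ≠ i0 ∧ e i ≠ 0) := by
  classical
  have h1 : Finsupp.weight χ e = ψ := hP (MvPolynomial.mem_support_iff.1 he)
  rw [Finsupp.weight_apply, Finsupp.sum] at h1
  have h2 : l ψ = ∑ i ∈ e.support, (e i : ℤ) * l (χ i) := by
    rw [← h1, map_sum]
    exact Finset.sum_congr rfl fun i _ => by rw [map_nsmul, nsmul_eq_mul]
  have h3 : ∀ i ∈ e.support, 0 ≤ (e i : ℤ) * l (χ i) := by
    intro i _
    by_cases hi : i = i0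
    · rw [hi, h0, mul_zero]
    · have := hpos i hi
      positivity
  refine ⟨by rw [h2]; exact Finset.sum_nonneg h3, fun hψ => ?_, fun hψ => ?_⟩
  · have h4 : ∀ i, i ≠ i0 → e i = 0 := by
      intro i hi
      by_contra hne
      have h5 := (Finset.sum_eq_zero_iff_of_nonneg h3).1 (by rw [← h2, hψ]) i
        (Finsupp.mem_support_iff.2 hne)
      rcases mul_eq_zero.1 h5 with h6 | h6
      · exact hne (by exact_mod_cast h6)
      · exact (hpos i hi).ne' h6
    have h5 : e = Finsupp.single i0 (e i0) := by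
      ext i
      by_cases hi : i = i0
      · rw [hi, Finsupp.single_eq_same]
      · rw [h4 i hi, Finsupp.single_eq_of_ne hi]
    refine ⟨h5, ?_⟩
    rw [← h1]
    symm
    have h6 : ∑ i ∈ e.support, e i • χ i = ∑ i ∈ {i0}, e i • χ i := by
      apply Finset.sum_subset_zero_on_sdiff
      · intro i hi
        rw [Finset.mem_singleton]
        by_contra hne
        exact (Finsupp.mem_support_iff.1 hi) (h4 i hne)
      · intro i hi
        rw [Finset.mem_sdiff, Finsupp.notMem_support_iff] at hi
        rw [hi.2, zero_smul]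
      · intro i _; rfl
    rw [h6, Finset.sum_singleton]
  · by_contra hcon
    push Not at hcon
    apply hψ
    rw [h2]
    refine Finset.sum_eq_zero fun i _ => ?_
    by_cases hi : i = i0
    · rw [hi, h0, mul_zero]
    · rw [hcon i hi]
      simp

end Vale.Agent.P280.H939
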