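import Vale.Agent.P280.H939.E2
import Vale.Agent.P280.H939.E3a

/-!
# P280 (B1), E3b: the parametrisation of the source component
-/

namespace Vale.Agent.P280.H939

open DirectSum Vale.Agent.P280.T Vale.Agent.P280.H127

/-- polynomials of weight in the kernel of `l` are powers of one coordinate -/
theorem low_poly {M : Type*} [AddCommGroup M] {ι : Type*} {χ : ι → M} {l L : M →+ ℤ} (i0 : ι)
    (h0 : l (χ i0) = 0) (hpos : ∀ i, i ≠ i0 → 0 < l (χ i)) (hL : 0 < L (χ i0))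
    {P : MvPolynomial ι ℂ} {ψ : M} (hP : MvPolynomial.IsWeightedHomogeneous χ P ψ)
    (hψ : l ψ = 0) : ∃ (c : ℂ) (j : ℕ), P = MvPolynomial.C c * MvPolynomial.X i0 ^ j ∧
      (c ≠ 0 → j • χ i0 = ψ) := by
  classical
  by_cases hP0 : P = 0
  · exact ⟨0, 0, by rw [hP0]; simp, fun h => absurd rfl h⟩
  obtain ⟨e, he⟩ := MvPolynomial.support_nonempty.2 hP0
  obtain ⟨-, h1, -⟩ := single_poly i0 h0 hpos hP he
  obtain ⟨h2, h3⟩ := h1 hψ
  have huniq : ∀ e' ∈ P.support, e' = e := by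
    intro e' he'
    obtain ⟨-, h4, -⟩ := single_poly i0 h0 hpos hP he'
    obtain ⟨h5, h6⟩ := h4 hψ
    rw [h5, h2]
    congr 1
    have h7 : L (e' i0 • χ i0) = L (e i0 • χ i0) := by rw [h6, h3]
    rw [map_nsmul, map_nsmul, nsmul_eq_mul, nsmul_eq_mul] at h7
    have h8 := mul_right_cancel₀ hL.ne' h7
    exact_mod_cast h8
  have hs : P.support = {e} := by
    ext e'
    rw [Finset.mem_singleton]
    exact ⟨huniq e', fun h => by rw [h]; exact he⟩
  refine ⟨P.coeff e, e i0, ?_, fun _ => h3⟩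
  rw [P.as_sum, hs, Finset.sum_singleton, MvPolynomial.coeff_monomial, if_pos rfl,
    MvPolynomial.C_mul_X_pow_eq_monomial, ← h2]

/-- the other coordinates kill all polynomials whose weight is not in the kernel of `l` -/
theorem pos_poly {M : Type*} [AddCommGroup M] {ι : Type*} [DecidableEq ι] {χ : ι → M} {l : M →+ ℤ}
    (i0 : ι) (h0 : l (χ i0) = 0) (hpos : ∀ i, i ≠ i0 → 0 < l (χ i)) {P : MvPolynomial ι ℂ} {ψ : M}
    (hP : MvPolynomial.IsWeightedHomogeneous χ P ψ) (hψ : l ψ ≠ 0) {B : Type*} [CommRing B]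
    [Algebra ℂ B] (b : B) : MvPolynomial.aeval (fun i => if i = i0 then b else 0) P = 0 := by
  rw [P.as_sum, map_sum]
  refine Finset.sum_eq_zero fun e he => ?_
  obtain ⟨-, -, h1⟩ := single_poly i0 h0 hpos hP he
  obtain ⟨i, hi, hei⟩ := h1 hψ
  rw [MvPolynomial.aeval_monomial, Finsupp.prod,
    Finset.prod_eq_zero (Finsupp.mem_support_iff.2 hei), mul_zero]
  rw [if_neg hi, zero_pow hei]

section line
variable {M : Type} [AddCommGroup M] [DecidableEq M]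
variable {R : Type} [CommRing R] [Algebra ℂ R] {𝒜 : ℕ × M → Submodule ℂ R} [GradedAlgebra 𝒜]
variable {l L : M →+ ℤ} {μ : M} {p : R →ₐ[ℂ] ℂ} {f : R} {n : ℕ} {u : Fin n → R} {χ : Fin n → M}
variable {K : Type} [Field K] [Algebra R K] [Algebra ℂ K] [IsScalarTower ℂ R K]

/-- elements of `R` as polynomials in `f` and the coordinates -/
theorem CData.exists_jj (C : CData 𝒜 L μ p f u χ) (hK : Function.Injective (algebraMap R K))
    (hF : algebraMap R K f ≠ 0) :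
    ∃ J : R →ₐ[ℂ] MvPolynomial (Option {i : Fin n // 0 < L (χ i)}) ℂ,
      ∀ h, PsiM 𝒜 L hF u χ (J h) = algebraMap R K h := by
  have hall : ∀ h : R, ∃ Q, PsiM 𝒜 L hF u χ Q = algebraMap R K h := by
    intro h
    induction h using DirectSum.Decomposition.inductionOn 𝒜 with
    | zero => exact ⟨0, by rw [map_zero, map_zero]⟩
    | homogeneous h =>
      rename_i g
      obtain ⟨h, hh⟩ := h
      obtain ⟨d, m⟩ := g
      obtain ⟨P, -, hP⟩ := C.exists_hom hF hh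
      exact ⟨_, hP⟩
    | add x y hx hy =>
      obtain ⟨P, hP⟩ := hx
      obtain ⟨Q, hQ⟩ := hy
      exact ⟨P + Q, by rw [map_add, map_add, hP, hQ]⟩
  have hinj := C.inj hK hF
  choose J hJ using hall
  have hadd : ∀ x y, J (x + y) = J x + J y := fun x y =>
    hinj (by rw [hJ, map_add, map_add, hJ, hJ])
  have hsmul : ∀ (c : ℂ) x, J (c • x) = c • J x := fun c x =>
    hinj (by rw [hJ, map_smul (PsiM 𝒜 L hF u χ), hJ, Algebra.smul_def, Algebra.smul_def, map_mul,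
      ← IsScalarTower.algebraMap_apply])
  have hmul : ∀ x y, J (x * y) = J x * J y := fun x y =>
    hinj (by rw [hJ, map_mul, map_mul, hJ, hJ])
  have hone : J 1 = 1 := hinj (by rw [hJ, map_one, map_one])
  exact ⟨AlgHom.ofLinearMap { toFun := J, map_add' := hadd, map_smul' := hsmul } hone hmul, hJ⟩

/-- the parametrised source component -/
structure LData (𝒜 : ℕ × M → Submodule ℂ R) [GradedAlgebra 𝒜] (l : M →+ ℤ) (μ ω : M) (f f1 : R)
    (k : ℕ) (φ : R →ₐ[ℂ] MvPolynomial (Fin 2) ℂ) : Prop where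
  kpos : 0 < k
  lom : l ω = 0
  unit : ∃ (d e : ℕ) (b : R), b ∈ 𝒜 (d, d • μ + ω) ∧ e + 1 = d * k ∧
    φ b = MvPolynomial.X 0 ^ e * MvPolynomial.X 1
  f1mem : f1 ∈ 𝒜 (1, μ + k • ω)
  phif : φ f = MvPolynomial.X 0 ^ k
  phif1 : φ f1 = MvPolynomial.X 1 ^ k
  zero : ∀ d m, l (m - d • μ) ≠ 0 → ∀ h ∈ 𝒜 (d, m), φ h = 0
  low : ∀ d m, l (m - d • μ) = 0 → ∀ h ∈ 𝒜 (d, m), h ≠ 0 → ∃ (c : ℂ) (i j : ℕ), c ≠ 0 ∧
    i + j = d * k ∧ m = d • μ + j • ω ∧
    φ h = MvPolynomial.C c * (MvPolynomial.X 0 ^ i * MvPolynomial.X 1 ^ j)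
  nonneg : ∀ d m, ∀ h ∈ 𝒜 (d, m), h ≠ 0 → 0 ≤ l (m - d • μ)
  inj : ∀ d, ∀ x ∈ H587.co 𝒜 l (d, d • l μ), φ x = 0 → x = 0

theorem LData.hom {ω : M} {f1 : R} {k : ℕ} {φ : R →ₐ[ℂ] MvPolynomial (Fin 2) ℂ}
    (D : LData 𝒜 l μ ω f f1 k φ) (d : ℕ) (m : M) (h : R) (hh : h ∈ 𝒜 (d, m)) :
    (φ h).IsHomogeneous (d * k) := by
  by_cases h0 : h = 0
  · rw [h0, map_zero]
    exact MvPolynomial.isHomogeneous_zero _ _ _
  by_cases hl : l (m - d • μ) = 0
  · obtain ⟨c, i, j, -, hij, -, hφ⟩ := D.low d m hl h hh h0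
    rw [hφ, ← hij]
    exact ((MvPolynomial.isHomogeneous_X_pow _ _).mul
      (MvPolynomial.isHomogeneous_X_pow _ _)).C_mul c
  · rw [D.zero d m hl h hh]
    exact MvPolynomial.isHomogeneous_zero _ _ _

end line

end Vale.Agent.P280.H939
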