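import Vale.Agent.P280.H939.R3g
import Vale.Agent.P280.H127.Dual
import Mathlib.RingTheory.MvPolynomial.EulerIdentity

/-!
# P280, row R3 (h): derivations from the coordinates
-/

namespace Vale.Agent.P280.H939

open DirectSum Vale.Agent.P280.T Vale.Agent.P280.H127

/-- A quotient of homogeneous elements is homogeneous. -/
theorem mem_of_mul_mem' {R : Type} [CommRing R] [Algebra ℂ R] {ι : Type} [AddCancelCommMonoid ι]
    [DecidableEq ι] {𝒜 : ι → Submodule ℂ R} [GradedAlgebra 𝒜] [IsDomain R] {i j : ι} {g x : R}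
    (hg : g ≠ 0) (hgi : g ∈ 𝒜 i) (h : g * x ∈ 𝒜 (i + j)) : x ∈ 𝒜 j := by
  classical
  have h1 : ∀ k, k ≠ j → (decompose 𝒜 x k : R) = 0 := by
    intro k hk
    have h2 := DirectSum.coe_decompose_mul_add_of_left_mem 𝒜 (b := x) (j := k) hgi
    rw [DirectSum.decompose_of_mem_ne 𝒜 h (fun h3 => hk (add_left_cancel h3).symm)] at h2
    rcases mul_eq_zero.1 h2.symm with h3 | h3
    · exact absurd h3 hg
    · exact h3
  have h2 : x = (decompose 𝒜 x j : R) := by
    conv_lhs => rw [← DirectSum.sum_support_decompose 𝒜 x]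
    apply Finset.sum_eq_single j
    · intro k _ hk
      exact h1 k hk
    · intro hj
      rw [DFinsupp.notMem_support_iff.1 hj]
      rfl
  rw [h2]
  exact SetLike.coe_mem _

/-- Transport of a derivation, after multiplication by a power of `f`. -/
theorem exists_deriv {R : Type} [CommRing R] [Algebra ℂ R] {K : Type} [Field K] [Algebra R K]
    [Algebra ℂ K] [IsScalarTower ℂ R K] [Algebra.FiniteType ℂ R] {A : Type} [CommRing A]
    [Algebra ℂ A] (Ψ : A →ₐ[ℂ] K) (hΨ : Function.Injective Ψ)
    (hK : Function.Injective (algebraMap R K)) (f : R)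
    (hall : ∀ h : R, ∃ Q, Ψ Q = algebraMap R K h)
    (hclear : ∀ Q, ∃ (N : ℕ) (r : R), algebraMap R K f ^ N * Ψ Q = algebraMap R K r)
    (D0 : Derivation ℂ A A) : ∃ (N : ℕ) (D1 : Derivation ℂ R R), ∀ (h : R) (Q : A),
      Ψ Q = algebraMap R K h → algebraMap R K (D1 h) = algebraMap R K f ^ N * Ψ (D0 Q) := by
  choose jj hjj using hall
  have hju : ∀ (h : R) (Q : A), Ψ Q = algebraMap R K h → Q = jj h := fun h Q hQ =>
    hΨ (hQ.trans (hjj h).symm)
  have hadd : ∀ x y, jj (x + y) = jj x + jj y := fun x y =>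
    (hju _ _ (by rw [map_add, map_add, hjj, hjj])).symm
  have hmul : ∀ x y, jj (x * y) = jj x * jj y := fun x y =>
    (hju _ _ (by rw [map_mul, map_mul, hjj, hjj])).symm
  have hsmul : ∀ (c : ℂ) x, jj (c • x) = c • jj x := fun c x =>
    (hju _ _ (by rw [map_smul, hjj, Algebra.smul_def, Algebra.smul_def, map_mul,
      ← IsScalarTower.algebraMap_apply])).symm
  have hconst : ∀ c : ℂ, jj (algebraMap ℂ R c) = algebraMap ℂ A c := fun c =>
    (hju _ _ (by rw [AlgHom.commutes, ← IsScalarTower.algebraMap_apply])).symm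
  have hN : ∃ N : ℕ, ∀ h : R, ∃ r : R,
      algebraMap R K f ^ N * Ψ (D0 (jj h)) = algebraMap R K r := by
    obtain ⟨T, hT⟩ := Algebra.FiniteType.out (R := ℂ) (A := R)
    choose Nf rf hrf using fun h : R => hclear (D0 (jj h))
    refine ⟨∑ t ∈ T, Nf t, fun h => ?_⟩
    have hh : h ∈ Algebra.adjoin ℂ (T : Set R) := by rw [hT]; trivial
    induction hh using Algebra.adjoin_induction with
    | mem x hx =>
      have hle : Nf x ≤ ∑ t ∈ T, Nf t :=
        Finset.single_le_sum (fun _ _ => Nat.zero_le _) hx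
      refine ⟨f ^ (∑ t ∈ T, Nf t - Nf x) * rf x, ?_⟩
      rw [map_mul, map_pow, ← hrf, ← mul_assoc, ← pow_add, Nat.sub_add_cancel hle]
    | algebraMap c =>
      refine ⟨0, ?_⟩
      rw [hconst, D0.map_algebraMap, map_zero, mul_zero, map_zero]
    | add x y _ _ hx hy =>
      obtain ⟨r, hr⟩ := hx
      obtain ⟨s, hs⟩ := hy
      exact ⟨r + s, by rw [hadd, map_add, map_add, mul_add, hr, hs, map_add]⟩
    | mul x y _ _ hx hy =>
      obtain ⟨r, hr⟩ := hx
      obtain ⟨s, hs⟩ := hy
      refine ⟨x * s + y * r, ?_⟩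
      rw [hmul, D0.leibniz, map_add, smul_eq_mul, smul_eq_mul, map_mul, map_mul, hjj, hjj, map_add,
        map_mul, map_mul, ← hr, ← hs]
      ring
  obtain ⟨N, hN⟩ := hN
  choose r hr using hN
  have radd : ∀ x y, r (x + y) = r x + r y := by
    intro x y
    apply hK
    rw [← hr, hadd, map_add, map_add, mul_add, hr, hr, map_add]
  have rsmul : ∀ (c : ℂ) x, r (c • x) = c • r x := by
    intro c x
    apply hK
    rw [← hr, hsmul, D0.map_smul, map_smul Ψ, mul_smul_comm, hr, Algebra.smul_def, Algebra.smul_def,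
      map_mul, ← IsScalarTower.algebraMap_apply]
  let L : R →ₗ[ℂ] R := { toFun := r, map_add' := radd, map_smul' := rsmul }
  refine ⟨N, Derivation.mk' L ?_, ?_⟩
  · intro x y
    apply hK
    change algebraMap R K (r (x * y)) = algebraMap R K (x • r y + y • r x)
    rw [← hr, hmul, D0.leibniz, map_add, smul_eq_mul, smul_eq_mul, map_mul, map_mul, hjj, hjj,
      smul_eq_mul, smul_eq_mul, map_add, map_mul, map_mul, ← hr, ← hr]
    ring
  · intro h Q hQ
    change algebraMap R K (r h) = _
    rw [← hr, hju h Q hQ]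

section
variable {ι : Type} [Fintype ι]

/-- the derivation with constant coefficients -/
noncomputable def D00 (c : ι → ℂ) :
    Derivation ℂ (MvPolynomial (Option ι) ℂ) (MvPolynomial (Option ι) ℂ) :=
  MvPolynomial.mkDerivation ℂ fun o => o.elim 0 fun i => MvPolynomial.C (c i)

omit [Fintype ι] in
theorem D00_none (c : ι → ℂ) : D00 c (MvPolynomial.X none) = 0 := by
  unfold D00
  rw [MvPolynomial.mkDerivation_X]
  rfl

omit [Fintype ι] in
theorem D00_some (c : ι → ℂ) (i : ι) :
    D00 c (MvPolynomial.X (some i)) = MvPolynomial.C (c i) := by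
  unfold D00
  rw [MvPolynomial.mkDerivation_X]
  rfl

omit [Fintype ι] in
theorem D00_none_pow (c : ι → ℂ) (d : ℕ) (Q : MvPolynomial (Option ι) ℂ) :
    D00 c (MvPolynomial.X none ^ d * Q) = MvPolynomial.X none ^ d * D00 c Q := by
  rw [Derivation.leibniz, Derivation.leibniz_pow, D00_none, smul_zero, smul_zero, smul_zero,
    add_zero, smul_eq_mul]

theorem D00_rename [DecidableEq ι] (c : ι → ℂ) (P : MvPolynomial ι ℂ) :
    D00 c (MvPolynomial.rename some P) =
      MvPolynomial.rename some (∑ i, c i • MvPolynomial.pderiv i P) := by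
  induction P using MvPolynomial.induction_on with
  | C a => simp
  | add P Q hP hQ =>
    rw [map_add, map_add, hP, hQ, ← map_add]
    congr 1
    rw [← Finset.sum_add_distrib]
    refine Finset.sum_congr rfl fun i _ => ?_
    rw [map_add, smul_add]
  | mul_X P j hP =>
    rw [map_mul, Derivation.leibniz, hP, MvPolynomial.rename_X, D00_some, smul_eq_mul, smul_eq_mul]
    have h1 : ∀ i, c i • MvPolynomial.pderiv i (P * MvPolynomial.X j) =
        MvPolynomial.X j * (c i • MvPolynomial.pderiv i P) +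
          (if i = j then P * MvPolynomial.C (c i) else 0) := by
      intro i
      rw [Derivation.leibniz, MvPolynomial.pderiv_X, smul_add, smul_eq_mul, smul_eq_mul,
        add_comm, mul_smul_comm]
      congr 1
      by_cases hij : i = j
      · subst hij
        rw [if_pos rfl, Pi.single_eq_same, mul_one, MvPolynomial.smul_eq_C_mul, mul_comm]
      · rw [if_neg hij, Pi.single_eq_of_ne (Ne.symm hij), mul_zero, smul_zero]
    simp_rw [h1]
    rw [Finset.sum_add_distrib, ← Finset.mul_sum, Finset.sum_ite_eq' Finset.univ j,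
      if_pos (Finset.mem_univ j), map_add, map_mul, map_mul, MvPolynomial.rename_X,
      MvPolynomial.rename_C]
    ring

theorem D00_weight (c : ι → ℂ) {W : ι → ℤ} {w0 : ℤ} (hc : ∀ i, c i ≠ 0 → W i = w0)
    {P : MvPolynomial ι ℂ} {l : ℤ} (hP : MvPolynomial.IsWeightedHomogeneous W P l) :
    ∃ P' : MvPolynomial ι ℂ, MvPolynomial.IsWeightedHomogeneous W P' (l - w0) ∧
      D00 c (MvPolynomial.rename some P) = MvPolynomial.rename some P' := by
  classical
  refine ⟨_, ?_, D00_rename c P⟩
  refine MvPolynomial.IsWeightedHomogeneous.sum _ _ _ fun i _ => ?_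
  by_cases hi : c i = 0
  · rw [hi, zero_smul]
    exact MvPolynomial.isWeightedHomogeneous_zero _ _ _
  · have h1 := hP.pderiv (i := i) (n' := l - w0) (by rw [hc i hi]; ring)
    exact (MvPolynomial.weightedHomogeneousSubmodule ℂ W (l - w0)).smul_mem _ h1

end

end Vale.Agent.P280.H939
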