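import Vale.Agent.P280.H939.E3b
import Vale.Agent.P280.H939.R3h

/-!
# P280 (B1), E5: from a derivation along the line to a derivation of the ring
-/

namespace Vale.Agent.P280.H939

open DirectSum Vale.Agent.P280.T Vale.Agent.P280.H127

section Dg
variable {ι : Type} [Fintype ι]

/-- the derivation with given coefficients -/
noncomputable def Dg (g : ι → MvPolynomial ι ℂ) :
    Derivation ℂ (MvPolynomial (Option ι) ℂ) (MvPolynomial (Option ι) ℂ) :=
  MvPolynomial.mkDerivation ℂ fun o => o.elim 0 fun i => MvPolynomial.rename some (g i)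

omit [Fintype ι] in
theorem Dg_none (g : ι → MvPolynomial ι ℂ) : Dg g (MvPolynomial.X none) = 0 := by
  unfold Dg
  rw [MvPolynomial.mkDerivation_X]
  rfl

omit [Fintype ι] in
theorem Dg_some (g : ι → MvPolynomial ι ℂ) (i : ι) :
    Dg g (MvPolynomial.X (some i)) = MvPolynomial.rename some (g i) := by
  unfold Dg
  rw [MvPolynomial.mkDerivation_X]
  rfl

omit [Fintype ι] in
theorem Dg_none_pow (g : ι → MvPolynomial ι ℂ) (d : ℕ) (Q : MvPolynomial (Option ι) ℂ) :
    Dg g (MvPolynomial.X none ^ d * Q) = MvPolynomial.X none ^ d * Dg g Q := by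
  rw [Derivation.leibniz, Derivation.leibniz_pow, Dg_none, smul_zero, smul_zero, smul_zero,
    add_zero, smul_eq_mul]

theorem Dg_rename [DecidableEq ι] (g : ι → MvPolynomial ι ℂ) (P : MvPolynomial ι ℂ) :
    Dg g (MvPolynomial.rename some P) =
      MvPolynomial.rename some (∑ i, g i * MvPolynomial.pderiv i P) := by
  induction P using MvPolynomial.induction_on with
  | C a => simp
  | add P Q hP hQ =>
    rw [map_add, map_add, hP, hQ, ← map_add]
    congr 1
    rw [← Finset.sum_add_distrib]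
    refine Finset.sum_congr rfl fun i _ => ?_
    rw [map_add, mul_add]
  | mul_X P j hP =>
    rw [map_mul, Derivation.leibniz, hP, MvPolynomial.rename_X, Dg_some, smul_eq_mul, smul_eq_mul]
    have h1 : ∀ i, g i * MvPolynomial.pderiv i (P * MvPolynomial.X j) =
        MvPolynomial.X j * (g i * MvPolynomial.pderiv i P) +
          (if i = j then P * g i else 0) := by
      intro i
      rw [Derivation.leibniz, MvPolynomial.pderiv_X, smul_eq_mul, smul_eq_mul]
      by_cases hij : i = j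
      · subst hij
        rw [if_pos rfl, Pi.single_eq_same]
        ring
      · rw [if_neg hij, Pi.single_eq_of_ne (Ne.symm hij)]
        ring
    simp_rw [h1]
    rw [Finset.sum_add_distrib, ← Finset.mul_sum, Finset.sum_ite_eq' Finset.univ j,
      if_pos (Finset.mem_univ j), map_add, map_mul, map_mul, MvPolynomial.rename_X]
    ring

theorem Dg_weight (g : ι → MvPolynomial ι ℂ) {W : ι → ℤ} {a : ℤ}
    (hg : ∀ i, MvPolynomial.IsWeightedHomogeneous W (g i) 0) (hc : ∀ i, g i ≠ 0 → W i = a)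
    {P : MvPolynomial ι ℂ} {k : ℤ} (hP : MvPolynomial.IsWeightedHomogeneous W P k) :
    ∃ P' : MvPolynomial ι ℂ, MvPolynomial.IsWeightedHomogeneous W P' (k - a) ∧
      Dg g (MvPolynomial.rename some P) = MvPolynomial.rename some P' := by
  classical
  refine ⟨_, ?_, Dg_rename g P⟩
  refine MvPolynomial.IsWeightedHomogeneous.sum _ _ _ fun i _ => ?_
  by_cases hi : g i = 0
  · rw [hi, zero_mul]
    exact MvPolynomial.isWeightedHomogeneous_zero _ _ _
  · have h1 := hP.pderiv (i := i) (n' := k - a) (by rw [hc i hi]; ring)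
    have h2 := (hg i).mul h1
    rwa [zero_add] at h2

end Dg

/-- weights may be pushed forward -/
theorem weighted_map {M : Type*} [AddCommGroup M] {ι : Type*} {χ : ι → M} (l : M →+ ℤ)
    {P : MvPolynomial ι ℂ} {ψ : M} (hP : MvPolynomial.IsWeightedHomogeneous χ P ψ) :
    MvPolynomial.IsWeightedHomogeneous (fun i => l (χ i)) P (l ψ) := by
  intro e he
  have h1 : Finsupp.weight χ e = ψ := hP he
  rw [← h1, Finsupp.weight_apply, Finsupp.weight_apply, Finsupp.sum, Finsupp.sum, map_sum]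
  exact Finset.sum_congr rfl fun i _ => by rw [map_nsmul]

section chart
variable {M : Type} [AddCommGroup M] [DecidableEq M]
variable {R : Type} [CommRing R] [Algebra ℂ R] {𝒜 : ℕ × M → Submodule ℂ R} [GradedAlgebra 𝒜]
variable {l L : M →+ ℤ} {μ : M} {p : R →ₐ[ℂ] ℂ} {f : R} {n : ℕ} {u : Fin n → R} {χ : Fin n → M}
variable {K : Type} [Field K] [Algebra R K] [Algebra ℂ K] [IsScalarTower ℂ R K]

/-- values of polynomials which are weighted homogeneous for `l` -/
theorem CData.HH_l (C : CData 𝒜 L μ p f u χ) (hF : algebraMap R K f ≠ 0) (l : M →+ ℤ) {k : ℤ}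
    {Q : MvPolynomial {i : Fin n // 0 < L (χ i)} ℂ}
    (hQ : MvPolynomial.IsWeightedHomogeneous (fun i : {i : Fin n // 0 < L (χ i)} => l (χ i)) Q k) :
    HH (H587.co 𝒜 l) (l μ) f k (MvPolynomial.aeval (xiM 𝒜 L hF u χ) Q) := by
  refine HH.aeval (H587.mem_co (l := l) C.hf) (fun i => ?_) hQ
  obtain ⟨N, b, hb, h1, -⟩ := clear_deh C.hf hF (C.gens.hom i)
  refine ⟨N, b, ?_, h1⟩
  have h2 := H587.mem_co (l := l) hb
  rwa [map_add, map_nsmul, nsmul_eq_mul] at h2

/-- bidegree -/
theorem CData.bideg (C : CData 𝒜 L μ p f u χ) (hK : Function.Injective (algebraMap R K))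
    (hF : algebraMap R K f ≠ 0) (l : M →+ ℤ)
    {g : {i : Fin n // 0 < L (χ i)} → MvPolynomial {i : Fin n // 0 < L (χ i)} ℂ} {a : ℤ}
    (hg : ∀ i, MvPolynomial.IsWeightedHomogeneous
      (fun i : {i : Fin n // 0 < L (χ i)} => l (χ i)) (g i) 0)
    (hc : ∀ i, g i ≠ 0 → l (χ i) = a) {N : ℕ} {D1 : Derivation ℂ R R}
    (hD1 : ∀ (h : R) (Q : MvPolynomial (Option {i : Fin n // 0 < L (χ i)}) ℂ),
      PsiM 𝒜 L hF u χ Q = algebraMap R K h →
        algebraMap R K (D1 h) = algebraMap R K f ^ N * PsiM 𝒜 L hF u χ (Dg g Q))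
    {d : ℕ} {m : M} {h : R} (hh : h ∈ 𝒜 (d, m)) :
    D1 h ∈ H587.co 𝒜 l (d + N, l m + N • l μ - a) := by
  have := C.dom
  obtain ⟨P, hP, hPh⟩ := C.exists_hom hF hh
  obtain ⟨P', hP', hD⟩ := Dg_weight g hg hc (weighted_map l hP)
  have h1 := hD1 h _ hPh
  rw [Dg_none_pow, hD, map_mul, map_pow, PsiM_none, PsiM_rename] at h1
  obtain ⟨M', b, hb, hb'⟩ := C.HH_l hF l hP'
  have h2 : f ^ M' * D1 h = f ^ (N + d) * b := by
    apply hK
    rw [map_mul, map_mul, map_pow, map_pow, h1, ← hb', pow_add]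
    ring
  refine mem_of_mul_mem' (𝒜 := H587.co 𝒜 l) (pow_ne_zero M' C.f_ne)
    (pow_f (H587.mem_co (l := l) C.hf) M') ?_
  rw [h2]
  have h3 := SetLike.mul_mem_graded (pow_f (H587.mem_co (l := l) C.hf) (N + d)) hb
  rw [Prod.mk_add_mk] at h3 ⊢
  have e1 : N + d + M' = M' + (d + N) := by ring
  have e2 : ((N + d : ℕ) : ℤ) * l μ + ((M' : ℤ) * l μ + (l (m - d • μ) - a)) =
      (M' : ℤ) * l μ + (l m + N • l μ - a) := by
    rw [nsmul_eq_mul, map_sub, map_nsmul, nsmul_eq_mul]
    push_cast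
    ring
  rwa [e1, e2] at h3

end chart

end Vale.Agent.P280.H939
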