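import Vale.Agent.P280.H939.E5

/-!
# P280 (B1), E5b: the derivation of the ring given by a derivation along the line
-/

namespace Vale.Agent.P280.H939

open DirectSum Vale.Agent.P280.T Vale.Agent.P280.H127

variable {M : Type} [AddCommGroup M] [DecidableEq M]
variable {R : Type} [CommRing R] [Algebra ℂ R] {𝒜 : ℕ × M → Submodule ℂ R} [GradedAlgebra 𝒜]
variable {l L : M →+ ℤ} {μ : M} {p : R →ₐ[ℂ] ℂ} {f : R} {n : ℕ} {u : Fin n → R} {χ : Fin n → M}
variable {K : Type} [Field K] [Algebra R K] [Algebra ℂ K] [IsScalarTower ℂ R K]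

/-- comparison of a derivation along a homomorphism to `ℂ[T]` with the derivation of the chart -/
theorem CData.chart_der (C : CData 𝒜 L μ p f u χ) (hK : Function.Injective (algebraMap R K))
    (hF : algebraMap R K f ≠ 0) (y : R →ₐ[ℂ] Polynomial ℂ) (yf : y f = 1)
    (δ : R →ₗ[ℂ] Polynomial ℂ) (hδ : ∀ r s, δ (r * s) = y r * δ s + y s * δ r) (δf : δ f = 0)
    (g : {i : Fin n // 0 < L (χ i)} → MvPolynomial {i : Fin n // 0 < L (χ i)} ℂ)
    (hg : ∀ i, MvPolynomial.aeval (fun i : {i : Fin n // 0 < L (χ i)} => y (u i)) (g i) =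
      δ (u i))
    {Q : MvPolynomial (Option {i : Fin n // 0 < L (χ i)}) ℂ} {h : R}
    (hQ : PsiM 𝒜 L hF u χ Q = algebraMap R K h) :
    δ h = MvPolynomial.aeval (fun o : Option {i : Fin n // 0 < L (χ i)} =>
      o.elim 1 (fun i => y (u i))) (Dg g Q) := by
  set Y : MvPolynomial (Option {i : Fin n // 0 < L (χ i)}) ℂ →ₐ[ℂ] Polynomial ℂ :=
    MvPolynomial.aeval (fun o : Option {i : Fin n // 0 < L (χ i)} =>
      o.elim 1 (fun i => y (u i))) with hY
  have hYn : Y (MvPolynomial.X none) = 1 := MvPolynomial.aeval_X _ _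
  have hYs : ∀ i, Y (MvPolynomial.X (some i)) = y (u i) := fun i => MvPolynomial.aeval_X _ _
  have hYr : ∀ P, Y (MvPolynomial.rename some P) =
      MvPolynomial.aeval (fun i : {i : Fin n // 0 < L (χ i)} => y (u i)) P := by
    intro P
    change MvPolynomial.aeval _ (MvPolynomial.rename some P) = _
    rw [MvPolynomial.aeval_rename]
    rfl
  have δ1 : δ 1 = 0 := by
    have := hδ 1 1
    rw [mul_one, map_one y, one_mul] at this
    exact left_eq_add.mp this
  have key : ∃ N : ℕ, y (f ^ N * h) = Y Q ∧ δ (f ^ N * h) = Y (Dg g Q) := by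
    refine C.chart_ind' hK hF (P := fun r Q => y r = Y Q ∧ δ r = Y (Dg g Q))
      ?_ ?_ ?_ ?_ ?_ ?_ hQ
    · intro c
      refine ⟨?_, ?_⟩
      · have h1 : Y (MvPolynomial.C c) = algebraMap ℂ _ c := MvPolynomial.aeval_C _ _
        rw [h1, AlgHom.commutes]
      · rw [Algebra.algebraMap_eq_smul_one, map_smul, δ1, smul_zero, MvPolynomial.derivation_C,
          map_zero]
    · rintro r s Q Q' ⟨h1, h2⟩ ⟨h3, h4⟩
      exact ⟨by rw [map_add, map_add, h1, h3], by rw [map_add, h2, h4, map_add, map_add]⟩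
    · rintro r s Q Q' ⟨h1, h2⟩ ⟨h3, h4⟩
      refine ⟨by rw [map_mul, map_mul, h1, h3], ?_⟩
      rw [hδ, h1, h3, h2, h4, Derivation.leibniz, map_add, smul_eq_mul, smul_eq_mul, map_mul,
        map_mul]
    · exact ⟨by rw [yf, hYn], by rw [δf, Dg_none, map_zero]⟩
    · rintro r Q ⟨h1, h2⟩
      exact ⟨by rw [map_mul, yf, one_mul, h1], by rw [hδ, yf, one_mul, δf, mul_zero, add_zero, h2]⟩
    · rintro i N b _ ⟨e, he⟩
      have hb : b = u i + (f - 1) * e := by rw [← he]; ring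
      refine ⟨?_, ?_⟩
      · rw [hb, map_add, map_mul, map_sub, map_one, yf, sub_self, zero_mul, add_zero, hYs]
      · rw [hb, map_add, hδ, map_sub, map_sub, map_one, yf, sub_self, zero_mul, δf, δ1, sub_self,
          mul_zero, add_zero, add_zero, Dg_some, hYr, hg]
  obtain ⟨N, -, hN⟩ := key
  have hfN : ∀ N : ℕ, δ (f ^ N * h) = δ h := by
    intro N
    induction N with
    | zero => rw [pow_zero, one_mul]
    | succ N ih =>
      rw [pow_succ', mul_assoc, hδ, yf, one_mul, δf, mul_zero, add_zero, ih]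
  rw [← hN, hfN]

/-- From a derivation along the line to a derivation of the ring. -/
theorem CData.exists_D1 (hX : IsTorusManifold 𝒜) (C : CData 𝒜 L μ p f u χ)
    (i0 : {i : Fin n // 0 < L (χ i)}) (h0 : l (χ i0) = 0)
    (hpos : ∀ i : {i : Fin n // 0 < L (χ i)}, i ≠ i0 → 0 < l (χ i))
    {k : ℕ} (φ : R →ₐ[ℂ] MvPolynomial (Fin 2) ℂ)
    (hhom : ∀ d m, ∀ h ∈ 𝒜 (d, m), (φ h).IsHomogeneous (d * k))
    (hzero : ∀ d m, l (m - d • μ) ≠ 0 → ∀ h ∈ 𝒜 (d, m), φ h = 0)
    (ev : MvPolynomial (Fin 2) ℂ →ₐ[ℂ] Polynomial ℂ)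
    (hev : ∀ (P : MvPolynomial (Fin 2) ℂ) (D : ℕ), P.IsHomogeneous D → ev P = 0 → P = 0)
    (hf1 : ev (φ f) = 1) {c : ℂ} (hc : c ≠ 0)
    (hu0 : ev (φ (u i0)) = Polynomial.C c * Polynomial.X) {a : ℤ} (ha : 0 < a)
    (δ : R →ₗ[ℂ] MvPolynomial (Fin 2) ℂ) (hδ : ∀ x y, δ (x * y) = φ x * δ y + φ y * δ x)
    (hδhom : ∀ d m, ∀ h ∈ 𝒜 (d, m), (δ h).IsHomogeneous (d * k))
    (hδa : ∀ d m, l (m - d • μ) ≠ a → ∀ h ∈ 𝒜 (d, m), δ h = 0) :
    ∃ (N : ℕ) (D1 : Derivation ℂ R R),
      (∀ (d : ℕ) (m : ℤ), ∀ h ∈ H587.co 𝒜 l (d, m),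
        D1 h ∈ H587.co 𝒜 l (d + N, m + N • l μ - a)) ∧
      ∀ h, φ (D1 h) = φ f ^ N * δ h := by
  have hdom := C.dom
  have := hX.finiteType
  let K := FractionRing R
  have hK : Function.Injective (algebraMap R K) := IsFractionRing.injective R K
  have hF : algebraMap R K f ≠ 0 := fun h => C.f_ne (hK (by rw [h, map_zero]))
  have hPinj := C.inj hK hF
  obtain ⟨J, hJ⟩ := C.exists_jj hK hF
  -- the homomorphism to `ℂ[T]`
  let y : R →ₐ[ℂ] Polynomial ℂ := ev.comp φ
  have yu : ∀ i : {i : Fin n // 0 < L (χ i)}, i ≠ i0 → y (u i) = 0 := by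
    intro i hi
    refine coarse_induction (P := fun x => y x = 0) (map_zero y)
      (fun a b ha hb => by rw [map_add, ha, hb, add_zero]) ?_ (C.gens.hom i)
    rintro ⟨d, m⟩ hi' h hh
    rw [rw'_apply] at hi'
    change ev (φ h) = 0
    rw [hzero d m (by rw [hi']; exact (hpos i hi).ne') h hh, map_zero]
  let g : {i : Fin n // 0 < L (χ i)} → MvPolynomial {i : Fin n // 0 < L (χ i)} ℂ := fun i =>
    Polynomial.aeval (MvPolynomial.C c⁻¹ * MvPolynomial.X i0) (ev (δ (u i)))
  have hgw : ∀ i, MvPolynomial.IsWeightedHomogeneous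
      (fun i : {i : Fin n // 0 < L (χ i)} => l (χ i)) (g i) 0 := by
    intro i
    change MvPolynomial.IsWeightedHomogeneous _
      (Polynomial.aeval (MvPolynomial.C c⁻¹ * MvPolynomial.X i0) (ev (δ (u i)))) 0
    rw [Polynomial.aeval_eq_sum_range]
    refine MvPolynomial.IsWeightedHomogeneous.sum _ _ _ fun j _ => ?_
    have h1 : MvPolynomial.IsWeightedHomogeneous
        (fun i : {i : Fin n // 0 < L (χ i)} => l (χ i))
        (MvPolynomial.C c⁻¹ * MvPolynomial.X i0 : MvPolynomial {i : Fin n // 0 < L (χ i)} ℂ) 0 := by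
      have h2 := (MvPolynomial.isWeightedHomogeneous_C
        (fun i : {i : Fin n // 0 < L (χ i)} => l (χ i)) c⁻¹).mul
        (MvPolynomial.isWeightedHomogeneous_X ℂ
          (fun i : {i : Fin n // 0 < L (χ i)} => l (χ i)) i0)
      rwa [zero_add, h0] at h2
    have h3 := h1.pow j
    rw [smul_zero] at h3
    exact (MvPolynomial.weightedHomogeneousSubmodule ℂ _ _).smul_mem _ h3
  have hδu : ∀ i : {i : Fin n // 0 < L (χ i)}, l (χ i) ≠ a → δ (u i) = 0 := by
    intro i hi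
    refine coarse_induction (P := fun x => δ x = 0) (map_zero δ)
      (fun a b ha hb => by rw [map_add, ha, hb, add_zero]) ?_ (C.gens.hom i)
    rintro ⟨d, m⟩ hi' h hh
    rw [rw'_apply] at hi'
    exact hδa d m (by rw [hi']; exact hi) h hh
  have hga : ∀ i, g i ≠ 0 → l (χ i) = a := by
    intro i hi
    by_contra hne
    apply hi
    change Polynomial.aeval _ (ev (δ (u i))) = 0
    rw [hδu i hne, map_zero, map_zero]
  have hfm : f ∈ 𝒜 (1, μ) := C.hf
  have δf : δ f = 0 := by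
    refine hδa 1 μ ?_ f hfm
    rw [one_smul, sub_self, map_zero]
    exact ha.ne
  have hgy : ∀ i, MvPolynomial.aeval (fun i : {i : Fin n // 0 < L (χ i)} => y (u i)) (g i) =
      ev (δ (u i)) := by
    intro i
    change MvPolynomial.aeval _ (Polynomial.aeval _ (ev (δ (u i)))) = _
    rw [← Polynomial.aeval_algHom_apply, map_mul, MvPolynomial.aeval_X, MvPolynomial.aeval_C]
    have h1 : y (u i0) = Polynomial.C c * Polynomial.X := hu0
    have h2 : algebraMap ℂ (Polynomial ℂ) c⁻¹ = Polynomial.C c⁻¹ := rfl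
    rw [h1, h2, ← mul_assoc,
      ← Polynomial.C_mul, inv_mul_cancel₀ hc, Polynomial.C_1, one_mul, Polynomial.aeval_X_left_apply]
  obtain ⟨N, D1, hD1⟩ := exists_deriv (K := K) (PsiM 𝒜 L hF u χ) hPinj hK f
    (fun h => ⟨J h, hJ h⟩) (fun Q => by
      obtain ⟨N, r, h1, -⟩ := C.chart_ind hF (P := fun _ _ => True) (fun _ => trivial)
        (fun _ _ _ _ _ _ => trivial) (fun _ _ _ _ _ _ => trivial) trivial (fun _ _ _ => trivial)
        (fun _ _ _ _ _ => trivial) Q
      exact ⟨N, r, h1⟩) (Dg g)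
  have hbi : ∀ (d : ℕ) (m : ℤ), ∀ h ∈ H587.co 𝒜 l (d, m),
      D1 h ∈ H587.co 𝒜 l (d + N, m + N • l μ - a) := by
    intro d m h hh
    refine H587.co_induction (l := l) (d := d) (k := m)
      (P := fun h => D1 h ∈ H587.co 𝒜 l (d + N, m + N • l μ - a)) ?_ ?_ ?_ hh
    · rw [map_zero]; exact Submodule.zero_mem _
    · intro a b ha hb
      rw [map_add]; exact Submodule.add_mem _ ha hb
    · intro m' hm' h hh
      have := C.bideg hK hF l hgw hga hD1 hh
      rwa [hm'] at this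
  refine ⟨N, D1, hbi, ?_⟩
  -- comparison after dehomogenisation
  have hev1 : ∀ h, ev (φ (D1 h)) = ev (δ h) := by
    intro h
    have h1 := C.chart_der hK hF y hf1 (ev.toLinearMap ∘ₗ δ) (fun r s => by
      change ev (δ (r * s)) = ev (φ r) * ev (δ s) + ev (φ s) * ev (δ r)
      rw [hδ, map_add, map_mul, map_mul]) (by
      change ev (δ f) = 0
      rw [δf, map_zero]) g hgy (hJ h)
    have h2 : PsiM 𝒜 L hF u χ (MvPolynomial.X none ^ N * Dg g (J h)) =
        algebraMap R K (D1 h) := by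
      rw [hD1 h (J h) (hJ h), map_mul, map_pow, PsiM_none]
    have h3 := C.chart_hom hK hF y hf1 h2
    change y (D1 h) = _
    rw [h3, map_mul, map_pow]
    have h4 : (MvPolynomial.aeval (R := ℂ) (fun o : Option {i : Fin n // 0 < L (χ i)} =>
        (o.elim 1 (fun i => y (u i)) : Polynomial ℂ)))
        (MvPolynomial.X none : MvPolynomial (Option {i : Fin n // 0 < L (χ i)}) ℂ) = 1 :=
      MvPolynomial.aeval_X _ _
    rw [h4, one_pow, one_mul]
    exact h1.symm
  have hφco : ∀ (d : ℕ) (m : ℤ), ∀ x ∈ H587.co 𝒜 l (d, m), (φ x).IsHomogeneous (d * k) := by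
    intro d m x hx
    refine H587.co_induction (l := l) (d := d) (k := m)
      (P := fun x => (φ x).IsHomogeneous (d * k)) ?_ ?_ ?_ hx
    · rw [map_zero]; exact MvPolynomial.isHomogeneous_zero _ _ _
    · intro a b ha hb
      rw [map_add]; exact ha.add hb
    · intro m' _ h hh
      exact hhom d m' h hh
  intro h
  induction h using DirectSum.Decomposition.inductionOn 𝒜 with
  | zero => rw [map_zero, map_zero, map_zero, mul_zero]
  | homogeneous h =>
    rename_i i
    obtain ⟨h, hh⟩ := h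
    obtain ⟨d, m⟩ := i
    change φ (D1 h) = φ f ^ N * δ h
    rw [← sub_eq_zero]
    refine hev _ ((d + N) * k) ?_ ?_
    · refine (hφco _ _ _ (hbi d (l m) h (H587.mem_co hh))).sub ?_
      have h1 := ((hhom 1 μ f hfm).pow N).mul (hδhom d m h hh)
      have e : 1 * k * N + d * k = (d + N) * k := by ring
      rwa [e] at h1
    · rw [map_sub, hev1, map_mul, map_pow, hf1, one_pow, one_mul, sub_self]
  | add x y hx hy => rw [map_add, map_add, hx, hy, map_add, mul_add]

end Vale.Agent.P280.H939
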