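import Vale.Agent.P280.H939.E5b

/-!
# P280 (B1), E6: uniqueness on a chart, weights on a chart, gluing
-/

namespace Vale.Agent.P280.H939

open DirectSum Vale.Agent.P280.T Vale.Agent.P280.H127

variable {M : Type} [AddCommGroup M] [DecidableEq M]
variable {R : Type} [CommRing R] [Algebra ℂ R] {𝒜 : ℕ × M → Submodule ℂ R} [GradedAlgebra 𝒜]
variable {l L : M →+ ℤ} {μ : M} {p : R →ₐ[ℂ] ℂ} {f : R} {n : ℕ} {u : Fin n → R} {χ : Fin n → M}

theorem low_zero {ω : M} {f1 : R} {k : ℕ} {φ : R →ₐ[ℂ] MvPolynomial (Fin 2) ℂ}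
    (D : LData 𝒜 l μ ω f f1 k φ) {d : ℕ} {m : ℤ} (hm : m < d • l μ) {x : R}
    (hx : x ∈ H587.co 𝒜 l (d, m)) : x = 0 := by
  have h0 : ∀ y : R, y = 0 ↔ y = 0 := fun _ => Iff.rfl
  refine H587.co_induction (𝒜 := 𝒜) (l := l) (d := d) (k := m)
    (P := fun y : R => y = (0 : R)) ((h0 0).1 rfl)
    (fun a b ha hb => by rw [ha, hb, add_zero]) ?_ hx
  intro m' hm' h hh
  by_contra hne
  have h1 := D.nonneg d m' h hh hne
  rw [map_sub, map_nsmul, hm'] at h1
  linarith

/-- A derivation of weight `-a` vanishing along the line vanishes. -/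
theorem CData.deriv_eq_zero (C : CData 𝒜 L μ p f u χ) {ω : M} {f1 : R} {k : ℕ}
    {φ : R →ₐ[ℂ] MvPolynomial (Fin 2) ℂ} (D : LData 𝒜 l μ ω f f1 k φ) {a : ℤ} (ha : 0 < a)
    (hla : ∀ i : {i : Fin n // 0 < L (χ i)}, l (χ i) ≤ a) {N : ℕ} (Δ : Derivation ℂ R R)
    (hΔ : ∀ (d : ℕ) (m : ℤ), ∀ h ∈ H587.co 𝒜 l (d, m),
      Δ h ∈ H587.co 𝒜 l (d + N, m + N • l μ - a))
    (h0 : ∀ h, φ (Δ h) = 0) (h : R) : Δ h = 0 := by
  have hdom := C.dom
  let K := FractionRing R
  have hK : Function.Injective (algebraMap R K) := IsFractionRing.injective R K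
  have hF : algebraMap R K f ≠ 0 := fun h => C.f_ne (hK (by rw [h, map_zero]))
  obtain ⟨J, hJ⟩ := C.exists_jj hK hF
  have hΔf : Δ f = 0 := by
    refine low_zero D ?_ (hΔ 1 (l μ) f (H587.mem_co C.hf))
    rw [add_smul, one_smul]
    linarith
  obtain ⟨N', hN'⟩ := C.chart_ind' hK hF (P := fun r _ => Δ r = 0)
    (fun c => Derivation.map_algebraMap Δ c)
    (fun r s _ _ h1 h2 => by rw [map_add, h1, h2, add_zero])
    (fun r s _ _ h1 h2 => by rw [Derivation.leibniz, h1, h2, smul_zero, smul_zero, add_zero])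
    hΔf (fun r _ h1 => by rw [Derivation.leibniz, h1, hΔf, smul_zero, smul_zero, add_zero])
    (fun i N' b hb _ => by
      have h1 := hΔ N' (l (N' • μ + χ i)) b (H587.mem_co hb)
      rw [map_add, map_nsmul] at h1
      rcases (hla i).lt_or_eq with h2 | h2
      · refine low_zero D ?_ h1
        rw [add_smul]
        linarith
      · refine D.inj (N' + N) _ ?_ (h0 b)
        have e : N' • l μ + l (χ i) + N • l μ - a = (N' + N) • l μ := by
          rw [h2, add_smul]
          ring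
        rwa [e] at h1) (hJ h)
  rw [Derivation.leibniz, Derivation.leibniz_pow, hΔf, smul_zero, smul_zero, smul_zero, add_zero,
    smul_eq_mul] at hN'
  rcases mul_eq_zero.1 hN' with h1 | h1
  · exact absurd h1 (pow_ne_zero _ C.f_ne)
  · exact h1

/-- tangent vectors at points of the chart have weight at most `a` -/
theorem CData.tangent_eq_zero (C : CData 𝒜 L μ p f u χ) {b : ℤ} (hb : 0 < b)
    (hla : ∀ i : {i : Fin n // 0 < L (χ i)}, l (χ i) < b) {q : R →ₐ[ℂ] ℂ} (hqf : q f ≠ 0)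
    {v : R →ₗ[ℂ] ℂ} (hv : IsTangent q v) (hvw : HasWeight (H587.co 𝒜 l) (l μ) b v) (h : R) :
    v h = 0 := by
  have hdom := C.dom
  let K := FractionRing R
  have hK : Function.Injective (algebraMap R K) := IsFractionRing.injective R K
  have hF : algebraMap R K f ≠ 0 := fun h => C.f_ne (hK (by rw [h, map_zero]))
  obtain ⟨J, hJ⟩ := C.exists_jj hK hF
  have hvf : v f = 0 := by
    by_contra hne
    have h1 := hvw 1 (l μ) f (H587.mem_co C.hf) hne
    rw [one_smul] at h1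
    linarith
  have hv1 : v 1 = 0 := by
    have := hv 1 1
    rw [mul_one, map_one q, one_mul] at this
    exact left_eq_add.mp this
  obtain ⟨N', hN'⟩ := C.chart_ind' hK hF (P := fun r _ => v r = 0)
    (fun c => by rw [Algebra.algebraMap_eq_smul_one, map_smul, hv1, smul_zero])
    (fun r s _ _ h1 h2 => by rw [map_add, h1, h2, add_zero])
    (fun r s _ _ h1 h2 => by rw [hv, h1, h2, mul_zero, mul_zero, add_zero])
    hvf (fun r _ h1 => by rw [hv, h1, hvf, mul_zero, mul_zero, add_zero])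
    (fun i N' b' hb' _ => by
      by_contra hne
      have h1 := hvw N' (l (N' • μ + χ i)) b' (H587.mem_co hb') hne
      rw [map_add, map_nsmul] at h1
      have := hla i
      linarith) (hJ h)
  have hpow : ∀ N : ℕ, v (f ^ N * h) = q f ^ N * v h := by
    intro N
    induction N with
    | zero => rw [pow_zero, pow_zero, one_mul, one_mul]
    | succ N ih => rw [pow_succ', mul_assoc, hv, hvf, mul_zero, add_zero, ih, pow_succ', mul_assoc]
  rw [hpow] at hN'
  rcases mul_eq_zero.1 hN' with h1 | h1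
  · exact absurd h1 (pow_ne_zero _ hqf)
  · exact h1

/-- the component of weight `a` of a derivation along the line -/
theorem exists_delta_a {φ : R →ₐ[ℂ] MvPolynomial (Fin 2) ℂ} {k : ℕ}
    (hzero : ∀ d m, l (m - d • μ) ≠ 0 → ∀ h ∈ 𝒜 (d, m), φ h = 0)
    (δ : R →ₗ[ℂ] MvPolynomial (Fin 2) ℂ)
    (hδ : ∀ x y, δ (x * y) = φ x * δ y + φ y * δ x)
    (hδhom : ∀ d m, ∀ h ∈ 𝒜 (d, m), (δ h).IsHomogeneous (d * k)) {a : ℤ} (ha : 0 < a) :
    ∃ δ' : R →ₗ[ℂ] MvPolynomial (Fin 2) ℂ,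
      (∀ x y, δ' (x * y) = φ x * δ' y + φ y * δ' x) ∧
      (∀ d m, ∀ h ∈ 𝒜 (d, m), (δ' h).IsHomogeneous (d * k)) ∧
      (∀ d m, l (m - d • μ) ≠ a → ∀ h ∈ 𝒜 (d, m), δ' h = 0) ∧
      (∀ d m, l (m - d • μ) = a → ∀ h ∈ 𝒜 (d, m), δ' h = δ h) := by
  obtain ⟨δ', hδ'⟩ := H587.exists_linearMap 𝒜
    (fun i : ℕ × M => if l (i.2 - i.1 • μ) = a then δ else 0)
  have h1 : ∀ d m, l (m - d • μ) = a → ∀ h ∈ 𝒜 (d, m), δ' h = δ h := by
    intro d m hm h hh
    rw [hδ' (d, m) h hh]
    change (if l (m - d • μ) = a then δ else 0) h = δ h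
    rw [if_pos hm]
  have h2 : ∀ d m, l (m - d • μ) ≠ a → ∀ h ∈ 𝒜 (d, m), δ' h = 0 := by
    intro d m hm h hh
    rw [hδ' (d, m) h hh]
    change (if l (m - d • μ) = a then δ else 0) h = 0
    rw [if_neg hm]
    rfl
  refine ⟨δ', ?_, ?_, h2, h1⟩
  · intro x y
    have key := H587.bilin_ext 𝒜 (F := (LinearMap.mul ℂ R).compr₂ δ')
      (G := (LinearMap.mul ℂ (MvPolynomial (Fin 2) ℂ)).compl₁₂ φ.toLinearMap δ' +
        ((LinearMap.mul ℂ (MvPolynomial (Fin 2) ℂ)).compl₁₂ φ.toLinearMap δ').flip) ?_ x y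
    · exact key
    · rintro ⟨d, m⟩ ⟨e, m'⟩ x hx y hy
      change δ' (x * y) = φ x * δ' y + φ y * δ' x
      have hxy : x * y ∈ 𝒜 (d + e, m + m') := SetLike.mul_mem_graded hx hy
      have hl : l (m + m' - (d + e) • μ) = l (m - d • μ) + l (m' - e • μ) := by
        rw [← map_add]
        apply congrArg
        rw [add_smul]
        abel
      by_cases hα : l (m - d • μ) = 0
      · rw [hα, zero_add] at hl
        have hx0 : δ' x = 0 := h2 d m (by rw [hα]; exact ha.ne) x hx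
        by_cases hβ : l (m' - e • μ) = a
        · rw [h1 _ _ (hl.trans hβ) _ hxy, hδ, h1 _ _ hβ _ hy, hx0,
            hzero _ _ (by rw [hβ]; exact ha.ne') _ hy, zero_mul, zero_mul]
        · rw [h2 _ _ (fun h => hβ (hl.symm.trans h)) _ hxy, h2 _ _ hβ _ hy, hx0, mul_zero,
            mul_zero, add_zero]
      · have hφx := hzero _ _ hα _ hx
        by_cases hβ : l (m' - e • μ) = 0
        · rw [hβ, add_zero] at hl
          have hy0 : δ' y = 0 := h2 e m' (by rw [hβ]; exact ha.ne) y hy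
          by_cases hα' : l (m - d • μ) = a
          · rw [h1 _ _ (hl.trans hα') _ hxy, hδ, h1 _ _ hα' _ hx, hφx, zero_mul, zero_mul]
          · rw [h2 _ _ (fun h => hα' (hl.symm.trans h)) _ hxy, h2 _ _ hα' _ hx, hy0, mul_zero,
              mul_zero, add_zero]
        · have hφy := hzero _ _ hβ _ hy
          rw [hφx, hφy, zero_mul, zero_mul, add_zero]
          by_cases hab : l (m + m' - (d + e) • μ) = a
          · rw [h1 _ _ hab _ hxy, hδ, hφx, hφy, zero_mul, zero_mul, add_zero]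
          · exact h2 _ _ hab _ hxy
  · intro d m h hh
    by_cases hm : l (m - d • μ) = a
    · rw [h1 d m hm h hh]
      exact hδhom d m h hh
    · rw [h2 d m hm h hh]
      exact MvPolynomial.isHomogeneous_zero _ _ _

end Vale.Agent.P280.H939
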