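import Vale.Agent.P280.H939.E6

/-!
# P280 (B1), E6b: gluing of the two derivations
-/

namespace Vale.Agent.P280.H939

open DirectSum Vale.Agent.P280.T Vale.Agent.P280.H127

variable {M : Type} [AddCommGroup M] [DecidableEq M]
variable {R : Type} [CommRing R] [Algebra ℂ R] {𝒜 : ℕ × M → Submodule ℂ R} [GradedAlgebra 𝒜]
variable {l L : M →+ ℤ} {μ : M} {p : R →ₐ[ℂ] ℂ} {f : R} {n : ℕ} {u : Fin n → R} {χ : Fin n → M}

theorem pow_co {x : R} {ν : ℤ} (hx : x ∈ H587.co 𝒜 l (1, ν)) (N : ℕ) :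
    x ^ N ∈ H587.co 𝒜 l (N, N • ν) := by
  have h := SetLike.pow_mem_graded N hx
  rwa [Prod.smul_mk, smul_eq_mul, mul_one] at h

theorem mul_co {x y : R} {d e : ℕ} {m m' : ℤ} (hx : x ∈ H587.co 𝒜 l (d, m))
    (hy : y ∈ H587.co 𝒜 l (e, m')) {d' : ℕ} {m'' : ℤ} (hd : d + e = d') (hm : m + m' = m'') :
    x * y ∈ H587.co 𝒜 l (d', m'') := by
  have h := SetLike.mul_mem_graded hx hy
  rwa [Prod.mk_add_mk, hd, hm] at h

theorem exists_glue (hX : IsTorusManifold 𝒜) {a : ℤ} (ha : 0 < a)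
    (C : CData 𝒜 L μ p f u χ) (i0 : {i : Fin n // 0 < L (χ i)}) (h0 : l (χ i0) = 0)
    (hpos : ∀ i : {i : Fin n // 0 < L (χ i)}, i ≠ i0 → 0 < l (χ i))
    {f1 : R} {k : ℕ} {φ : R →ₐ[ℂ] MvPolynomial (Fin 2) ℂ} (D : LData 𝒜 l μ (χ i0) f f1 k φ)
    {c0 : ℂ} (hc0 : c0 ≠ 0) (hu0 : evs (φ (u i0)) = Polynomial.C c0 * Polynomial.X)
    (hla : ∀ i : {i : Fin n // 0 < L (χ i)}, l (χ i) ≤ a)
    {L' : M →+ ℤ} {q1 : R →ₐ[ℂ] ℂ} {n' : ℕ} {u' : Fin n' → R} {χ' : Fin n' → M}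
    (C' : CData 𝒜 L' (μ + k • χ i0) q1 f1 u' χ') (i1 : {i : Fin n' // 0 < L' (χ' i)})
    (h1 : l (χ' i1) = 0) (hpos1 : ∀ i : {i : Fin n' // 0 < L' (χ' i)}, i ≠ i1 → 0 < l (χ' i))
    {c1 : ℂ} (hc1 : c1 ≠ 0) (hu1 : evt (φ (u' i1)) = Polynomial.C c1 * Polynomial.X)
    (δ : R →ₗ[ℂ] MvPolynomial (Fin 2) ℂ) (hδ : ∀ x y, δ (x * y) = φ x * δ y + φ y * δ x)
    (hδhom : ∀ d m, ∀ h ∈ 𝒜 (d, m), (δ h).IsHomogeneous (d * k))
    (hδa : ∀ d m, l (m - d • μ) ≠ a → ∀ h ∈ 𝒜 (d, m), δ h = 0) :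
    ∃ (N : ℕ) (D0 D1 : Derivation ℂ R R),
      (∀ (d : ℕ) (m : ℤ), ∀ h ∈ H587.co 𝒜 l (d, m),
        D0 h ∈ H587.co 𝒜 l (d + N, m + N • l μ - a)) ∧
      (∀ h, φ (D0 h) = φ f ^ N * δ h) ∧ (∀ h, φ (D1 h) = φ f1 ^ N * δ h) ∧
      ∀ h, f1 ^ N * D0 h = f ^ N * D1 h := by
  have hlom : l (μ + k • χ i0) = l μ := by
    rw [map_add, map_nsmul, h0, smul_zero, add_zero]
  have hrel : ∀ (d : ℕ) (m : M), l (m - d • (μ + k • χ i0)) = l (m - d • μ) := by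
    intro d m
    rw [map_sub, map_nsmul, hlom, map_sub, map_nsmul]
  obtain ⟨N0, E0, hE0, hE0'⟩ := C.exists_D1 hX i0 h0 hpos φ D.hom D.zero evs
    (fun P D h => evs_inj h) (by rw [D.phif, map_pow, evs_zero, one_pow]) hc0 hu0 ha δ hδ hδhom hδa
  obtain ⟨N1, E1, hE1, hE1'⟩ := C'.exists_D1 hX i1 h1 hpos1 φ D.hom
    (fun d m hm => D.zero d m (by rwa [hrel] at hm)) evt
    (fun P D h => evt_inj h) (by rw [D.phif1, map_pow, evt_one, one_pow]) hc1 hu1 ha δ hδ hδhom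
    (fun d m hm => hδa d m (by rwa [hrel] at hm))
  rw [hlom] at hE1
  have hfc : f ∈ H587.co 𝒜 l (1, l μ) := H587.mem_co C.hf
  have hf1c : f1 ∈ H587.co 𝒜 l (1, l μ) := by
    have h := H587.mem_co (l := l) C'.hf
    rwa [hlom] at h
  have hD0 : ∀ (d : ℕ) (m : ℤ), ∀ h ∈ H587.co 𝒜 l (d, m),
      (f ^ N1 • E0) h ∈ H587.co 𝒜 l (d + (N0 + N1), m + (N0 + N1) • l μ - a) := by
    intro d m h hh
    refine mul_co (pow_co hfc N1) (hE0 d m h hh) (by ring) ?_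
    rw [add_smul]
    ring
  have hD1 : ∀ (d : ℕ) (m : ℤ), ∀ h ∈ H587.co 𝒜 l (d, m),
      (f1 ^ N0 • E1) h ∈ H587.co 𝒜 l (d + (N0 + N1), m + (N0 + N1) • l μ - a) := by
    intro d m h hh
    refine mul_co (pow_co hf1c N0) (hE1 d m h hh) (by ring) ?_
    rw [add_smul]
    ring
  have hφ0 : ∀ h, φ ((f ^ N1 • E0) h) = φ f ^ (N0 + N1) * δ h := by
    intro h
    change φ (f ^ N1 * E0 h) = _
    rw [map_mul, map_pow, hE0', pow_add]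
    ring
  have hφ1 : ∀ h, φ ((f1 ^ N0 • E1) h) = φ f1 ^ (N0 + N1) * δ h := by
    intro h
    change φ (f1 ^ N0 * E1 h) = _
    rw [map_mul, map_pow, hE1', pow_add]
    ring
  refine ⟨N0 + N1, f ^ N1 • E0, f1 ^ N0 • E1, hD0, hφ0, hφ1, ?_⟩
  intro h
  have key := C.deriv_eq_zero D ha hla (N := (N0 + N1) + (N0 + N1))
    (f1 ^ (N0 + N1) • (f ^ N1 • E0) - f ^ (N0 + N1) • (f1 ^ N0 • E1)) ?_ ?_ h
  · have h2 : f1 ^ (N0 + N1) * (f ^ N1 • E0) h - f ^ (N0 + N1) * (f1 ^ N0 • E1) h = 0 := key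
    exact sub_eq_zero.1 h2
  · intro d m h hh
    change f1 ^ (N0 + N1) * (f ^ N1 • E0) h - f ^ (N0 + N1) * (f1 ^ N0 • E1) h ∈ _
    refine Submodule.sub_mem _ (mul_co (pow_co hf1c (N0 + N1)) (hD0 d m h hh) (by ring) ?_)
      (mul_co (pow_co hfc (N0 + N1)) (hD1 d m h hh) (by ring) ?_)
    · rw [add_smul (N0 + N1)]
      ring
    · rw [add_smul (N0 + N1)]
      ring
  · intro h
    change φ (f1 ^ (N0 + N1) * (f ^ N1 • E0) h - f ^ (N0 + N1) * (f1 ^ N0 • E1) h) = 0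
    rw [map_sub, map_mul, map_mul, hφ0, hφ1, map_pow, map_pow]
    ring

end Vale.Agent.P280.H939
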