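import Vale.Agent.P280.H587.Base

/-!
# P280 (B1): the statement for a source which is a projective line
-/

namespace Vale.Agent.P280.H939

open Vale.Agent.P280.T

/-- The source of `l` is a projective line: the weights on it are bounded by `a`, and the tangent
vectors of weight `a` are values of fields. -/
def EdgeBase : Prop :=
  ∀ (M : Type) [AddCommGroup M] [DecidableEq M] (R : Type) [CommRing R] [Algebra ℂ R]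
    (𝒜 : ℕ × M → Submodule ℂ R) [GradedAlgebra 𝒜], IsTorusManifold 𝒜 →
    NefOnRationalCurves 𝒜 → ∀ (l g : M →+ ℤ) (p : R →ₐ[ℂ] ℂ) (μ : M) (a : ℤ), 0 < a →
    ¬ IsVertex 𝒜 p → IsFixed 𝒜 p μ →
    (∀ χ, TangentWeight 𝒜 p μ χ → 0 < l χ ∨ (l χ = 0 ∧ 0 < g χ)) →
    (∃ χ, TangentWeight 𝒜 p μ χ ∧ l χ = 0) →
    (∀ x ν χ, ¬ IsVertex 𝒜 x → IsFixed 𝒜 x ν → l ν = l μ → TangentWeight 𝒜 x ν χ → l χ ≤ a) →
    (∀ x ν χ χ', ¬ IsVertex 𝒜 x → IsFixed 𝒜 x ν → l ν = l μ → TangentWeight 𝒜 x ν χ →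
      TangentWeight 𝒜 x ν χ' → l χ = 0 → l χ' = 0 → χ = χ') →
    (∀ x ν χ (v v' : R →ₗ[ℂ] ℂ), ¬ IsVertex 𝒜 x → IsFixed 𝒜 x ν → l ν = l μ → l χ = 0 → χ ≠ 0 →
      IsTangent x v → HasWeight 𝒜 ν χ v → IsTangent x v' → HasWeight 𝒜 ν χ v' →
      ∃ c c' : ℂ, (c ≠ 0 ∨ c' ≠ 0) ∧ ∀ h, c * v h + c' * v' h = 0) →
    (∀ (d : ℕ) (k : ℤ), ∀ h ∈ H587.co 𝒜 l (d, k), h ≠ 0 → d • l μ ≤ k) ∧
    (∀ q, ¬ IsVertex 𝒜 q → IsFixed (H587.co 𝒜 l) q (l μ) →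
      ∀ k, TangentWeight (H587.co 𝒜 l) q (l μ) k → k ≤ a) ∧
    (∀ q (v : R →ₗ[ℂ] ℂ), ¬ IsVertex 𝒜 q → IsFixed (H587.co 𝒜 l) q (l μ) → IsTangent q v →
      HasWeight (H587.co 𝒜 l) (l μ) a v → ∃ D : Derivation ℂ R R,
        (∀ (d : ℕ) (k : ℤ), ∀ h ∈ H587.co 𝒜 l (d, k), D h ∈ H587.co 𝒜 l (d, k - a)) ∧
        ∀ h, q (D h) = v h)

end Vale.Agent.P280.H939
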