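import Vale.Agent.P280.H939.Grp
import Vale.Agent.P280.T.Coarse
import Mathlib.RingTheory.Finiteness.Subalgebra

/-!
# P280: the homogeneous pieces are finite-dimensional
-/

namespace Vale.Agent.P280.H939

open DirectSum Vale.Agent.P280.T

section
variable {M : Type} [AddCommGroup M] [DecidableEq M]
variable {R : Type} [CommRing R] [Algebra ℂ R] {𝒜 : ℕ × M → Submodule ℂ R}

theorem coarse_fst (𝒜 : ℕ × M → Submodule ℂ R) (d : ℕ) :
    coarse 𝒜 (AddMonoidHom.fst ℕ M) d = deg 𝒜 d := by
  apply le_antisymm
  · unfold coarse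
    refine iSup_le ?_
    rintro ⟨⟨d', m⟩, hd⟩
    change d' = d at hd
    subst hd
    exact le_iSup (fun m : M => 𝒜 (d', m)) m
  · refine iSup_le fun m h hh => ?_
    exact mem_coarse (f := AddMonoidHom.fst ℕ M) hh rfl

variable [GradedAlgebra 𝒜]

theorem deg_le_pow (hX : IsTorusManifold 𝒜) (d : ℕ) : deg 𝒜 d ≤ (deg 𝒜 1) ^ d := by
  refine iSup_le fun m h hh => ?_
  have h1 := mem_span_isProd hX.gen hh
  refine (Submodule.span_le.2 ?_) h1
  intro x hx
  change IsProd 𝒜 d m x at hx
  change x ∈ (deg 𝒜 1) ^ d
  clear h1 hh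
  induction hx with
  | one => rw [pow_zero]; exact Submodule.one_le.1 le_rfl
  | mul hx hg ih =>
    rw [pow_succ]
    exact Submodule.mul_mem_mul ih ((le_iSup (fun m : M => 𝒜 (1, m)) _) hg)

theorem deg_one_fg (hX : IsTorusManifold 𝒜) : (deg 𝒜 1).FG := by
  have := hX.finiteType
  have : IsNoetherianRing R := Algebra.FiniteType.isNoetherianRing ℂ R
  obtain ⟨S, hS, hSI⟩ := (Submodule.fg_span_iff_fg_span_finset_subset (R := R)
    (deg 𝒜 1 : Set R)).1 (IsNoetherian.noetherian _)
  refine ⟨S, le_antisymm (Submodule.span_le.2 hS) ?_⟩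
  intro x hx
  have hxI : x ∈ Submodule.span R (S : Set R) := by
    rw [← hSI]; exact Submodule.subset_span hx
  have hx1 : x ∈ coarse 𝒜 (AddMonoidHom.fst ℕ M) 1 := by rw [coarse_fst]; exact hx
  have key : ∀ y ∈ Submodule.span R (S : Set R),
      ((decompose (coarse 𝒜 (AddMonoidHom.fst ℕ M)) y) 1 : R) ∈ Submodule.span ℂ (S : Set R) := by
    intro y hy
    induction hy using Submodule.span_induction with
    | mem s hs =>
      rw [decompose_of_mem_same _ (by rw [coarse_fst]; exact hS hs)]
      exact Submodule.subset_span hs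
    | zero => rw [decompose_zero]; exact Submodule.zero_mem _
    | add a b _ _ ha hb =>
      rw [decompose_add, DirectSum.add_apply, Submodule.coe_add]
      exact Submodule.add_mem _ ha hb
    | smul r a ha ih =>
      -- use a stronger form
      clear ih
      induction ha using Submodule.span_induction generalizing r with
      | mem s hs =>
        have hs1 : s ∈ coarse 𝒜 (AddMonoidHom.fst ℕ M) 1 := by rw [coarse_fst]; exact hS hs
        have h1 := DirectSum.coe_decompose_mul_add_of_right_mem
          (coarse 𝒜 (AddMonoidHom.fst ℕ M)) (a := r) (i := 0) hs1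
        rw [zero_add] at h1
        rw [smul_eq_mul, h1]
        have h2 : ((decompose (coarse 𝒜 (AddMonoidHom.fst ℕ M)) r) 0 : R) ∈ deg 𝒜 0 := by
          rw [← coarse_fst]; exact SetLike.coe_mem _
        have h3 : ∀ z ∈ deg 𝒜 0, ∃ c : ℂ, z = algebraMap ℂ R c := by
          intro z hz
          refine Submodule.iSup_induction (motive := fun z => ∃ c : ℂ, z = algebraMap ℂ R c) _
            hz ?_ ?_ ?_
          · intro m x hx
            exact hX.zero m x hx
          · exact ⟨0, by rw [map_zero]⟩
          · rintro _ _ ⟨c, rfl⟩ ⟨c', rfl⟩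
            exact ⟨c + c', by rw [map_add]⟩
        obtain ⟨c, hc⟩ := h3 _ h2
        rw [hc, ← Algebra.smul_def]
        exact Submodule.smul_mem _ _ (Submodule.subset_span hs)
      | zero => rw [smul_zero, decompose_zero]; exact Submodule.zero_mem _
      | add a b _ _ ha hb =>
        rw [smul_add, decompose_add, DirectSum.add_apply, Submodule.coe_add]
        exact Submodule.add_mem _ (ha r) (hb r)
      | smul t a _ ih =>
        rw [smul_smul]
        exact ih (r * t)
  have h1 := key x hxI
  rwa [decompose_of_mem_same _ hx1] at h1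

/-- the homogeneous pieces are finite-dimensional -/
theorem finite_deg (hX : IsTorusManifold 𝒜) (d : ℕ) : FiniteDimensional ℂ (deg 𝒜 d) := by
  have h1 : ((deg 𝒜 1) ^ d).FG := (deg_one_fg hX).pow d
  have h2 : FiniteDimensional ℂ ((deg 𝒜 1) ^ d : Submodule ℂ R) := Module.Finite.iff_fg.2 h1
  exact Submodule.finiteDimensional_of_le (deg_le_pow hX d)

end

end Vale.Agent.P280.H939
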