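import Mathlib.Analysis.Normed.Algebra.Exponential
import Mathlib.Analysis.Normed.Module.FiniteDimension
import Mathlib.Analysis.Normed.Ring.InfiniteSum
import Mathlib.Analysis.Complex.Basic
import Mathlib.LinearAlgebra.Complex.FiniteDimensional
import Mathlib.LinearAlgebra.Dual.Lemmas
import Mathlib.RingTheory.Derivation.Basic
import Mathlib.Data.Nat.Choose.Sum

/-!
# P280 (T1): the flow of a locally finite derivation
-/

namespace Vale.Agent.P280.H939

open Finset

section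
variable {R : Type} [CommRing R] [Algebra ℂ R]

/-- `y` is the value at `h` of the exponential of `D` -/
def IsExpAt (D : R →ₗ[ℂ] R) (h y : R) : Prop :=
  ∀ θ : R →ₗ[ℂ] ℂ, HasSum (fun k : ℕ => ((k.factorial : ℂ))⁻¹ * θ ((⇑D)^[k] h)) (θ y)

theorem IsExpAt.unique {D : R →ₗ[ℂ] R} {h y y' : R} (h1 : IsExpAt D h y) (h2 : IsExpAt D h y') :
    y = y' := by
  rw [← sub_eq_zero, ← Module.forall_dual_apply_eq_zero_iff ℂ]
  intro θ
  rw [map_sub, sub_eq_zero]
  exact (h1 θ).unique (h2 θ)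

theorem iterate_map_add' (D : R →ₗ[ℂ] R) (k : ℕ) (x y : R) :
    (⇑D)^[k] (x + y) = (⇑D)^[k] x + (⇑D)^[k] y := by
  rw [← Module.End.pow_apply, map_add, Module.End.pow_apply, Module.End.pow_apply]

theorem iterate_map_smul' (D : R →ₗ[ℂ] R) (k : ℕ) (c : ℂ) (x : R) :
    (⇑D)^[k] (c • x) = c • (⇑D)^[k] x := by
  rw [← Module.End.pow_apply, map_smul, Module.End.pow_apply]

theorem IsExpAt.add {D : R →ₗ[ℂ] R} {h y h' y' : R} (h1 : IsExpAt D h y) (h2 : IsExpAt D h' y') :
    IsExpAt D (h + h') (y + y') := by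
  intro θ
  rw [map_add]
  refine ((h1 θ).add (h2 θ)).congr_fun ?_
  intro k
  rw [iterate_map_add', map_add, mul_add]

theorem IsExpAt.smul {D : R →ₗ[ℂ] R} {h y : R} (h1 : IsExpAt D h y) (c : ℂ) :
    IsExpAt D (c • h) (c • y) := by
  intro θ
  rw [map_smul, smul_eq_mul]
  refine ((h1 θ).mul_left c).congr_fun ?_
  intro k
  rw [iterate_map_smul', map_smul, smul_eq_mul]
  ring

/-- Existence on finite-dimensional stable subspaces, together with the inverse. -/
theorem exists_expAt (D : R →ₗ[ℂ] R) (W : Submodule ℂ R) [FiniteDimensional ℂ W]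
    (hW : ∀ x ∈ W, D x ∈ W) {h : R} (hh : h ∈ W) :
    ∃ y ∈ W, IsExpAt D h y ∧ IsExpAt (-D) y h := by
  let n := Module.finrank ℂ W
  let e : W ≃ₗ[ℂ] (Fin n → ℂ) := (Module.finBasis ℂ W).equivFun
  let A0 : (Fin n → ℂ) →ₗ[ℂ] (Fin n → ℂ) := e.toLinearMap ∘ₗ (D.restrict hW) ∘ₗ e.symm.toLinearMap
  let A : (Fin n → ℂ) →L[ℂ] (Fin n → ℂ) := LinearMap.toContinuousLinearMap A0
  have hit : ∀ (c : ℂ) (k : ℕ) (w : W), (⇑(c • D))^[k] (w : R) ∈ W := by
    intro c k w
    induction k with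
    | zero => exact w.2
    | succ k ih =>
      rw [Function.iterate_succ_apply']
      exact W.smul_mem c (hW _ ih)
  have hA : ∀ (c : ℂ) (k : ℕ) (w : W),
      ((((c • A) ^ k) (e w) : Fin n → ℂ)) = e ⟨(⇑(c • D))^[k] w, hit c k w⟩ := by
    intro c k w
    induction k with
    | zero => rfl
    | succ k ih =>
      rw [pow_succ', mul_apply_eq_comp, ih]
      change c • e ((D.restrict hW) (e.symm (e _))) = _
      rw [LinearEquiv.symm_apply_apply, ← map_smul]
      congr 1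
      apply Subtype.ext
      change c • D ((⇑(c • D))^[k] w) = (⇑(c • D))^[k + 1] (w : R)
      rw [Function.iterate_succ_apply']
      rfl
  have key : ∀ (c : ℂ) (w : W),
      IsExpAt (c • D) (w : R) (e.symm (NormedSpace.exp (c • A) (e w)) : R) := by
    intro c w θ
    have h1 := NormedSpace.exp_series_hasSum_exp' (𝕂 := ℂ) (c • A)
    let G : (Fin n → ℂ) →L[ℂ] ℂ :=
      LinearMap.toContinuousLinearMap (θ ∘ₗ W.subtype ∘ₗ e.symm.toLinearMap)
    have h2 := (h1.mapL (ContinuousLinearMap.apply ℂ (Fin n → ℂ) (e w))).mapL G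
    refine h2.congr_fun ?_
    intro k
    change _ = θ ((e.symm ((((k.factorial : ℂ)⁻¹) • (c • A) ^ k) (e w)) : R))
    rw [smul_apply, map_smul, hA c k w, LinearEquiv.symm_apply_apply]
    change _ = θ ((k.factorial : ℂ)⁻¹ • ((⇑(c • D))^[k] w : R))
    rw [map_smul, smul_eq_mul]
  refine ⟨e.symm (NormedSpace.exp A (e ⟨h, hh⟩)), SetLike.coe_mem _, ?_, ?_⟩
  · have := key 1 ⟨h, hh⟩
    rwa [one_smul, one_smul] at this
  · have h1 := key (-1) (e.symm (NormedSpace.exp A (e ⟨h, hh⟩)))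
    have e1 : (-1 : ℂ) • D = -D := by ext x; simp
    have e2 : (-1 : ℂ) • A = -A := by ext x; simp
    rw [LinearEquiv.apply_symm_apply, e1, e2] at h1
    have h2 : NormedSpace.exp (-A) (NormedSpace.exp A (e ⟨h, hh⟩)) = e ⟨h, hh⟩ := by
      let _ : NormedAlgebra ℚ ((Fin n → ℂ) →L[ℂ] (Fin n → ℂ)) := NormedAlgebra.restrictScalars ℚ ℂ _
      rw [← mul_apply_eq_comp,
        ← NormedSpace.exp_add_of_commute (Commute.neg_left (Commute.refl A)), neg_add_cancel,
        NormedSpace.exp_zero]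
      rfl
    rw [h2, LinearEquiv.symm_apply_apply] at h1
    exact h1

/-- the Leibniz rule for iterates -/
theorem iterate_leibniz (D : Derivation ℂ R R) (k : ℕ) (x y : R) :
    (⇑D)^[k] (x * y) =
      ∑ ij ∈ antidiagonal k, k.choose ij.1 • ((⇑D)^[ij.1] x * (⇑D)^[ij.2] y) := by
  induction k with
  | zero => simp
  | succ k ih =>
    rw [Function.iterate_succ_apply', ih, map_sum,
      Finset.sum_antidiagonal_choose_succ_nsmul (fun i j => (⇑D)^[i] x * (⇑D)^[j] y),
      ← Finset.sum_add_distrib]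
    refine Finset.sum_congr rfl fun ij hij => ?_
    rw [map_nsmul, D.leibniz, smul_eq_mul, smul_eq_mul, smul_add, ← Function.iterate_succ_apply' D,
      ← Function.iterate_succ_apply' D, mul_comm ((⇑D)^[ij.2] y)]
    congr 2
    exact (Nat.choose_symm_of_eq_add (mem_antidiagonal.1 hij).symm)

/-- the exponential of a derivation is multiplicative -/
theorem IsExpAt.mul {D : Derivation ℂ R R} {W : Submodule ℂ R} [FiniteDimensional ℂ W]
    (hW : ∀ y ∈ W, D y ∈ W) {x y X Y : R} (hy : y ∈ W)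
    (hx' : IsExpAt (D : R →ₗ[ℂ] R) x X) (hy' : IsExpAt (D : R →ₗ[ℂ] R) y Y) :
    IsExpAt (D : R →ₗ[ℂ] R) (x * y) (X * Y) := by
  intro θ
  have hYW : Y ∈ W := by
    obtain ⟨Y', h1, h2, -⟩ := exists_expAt (D : R →ₗ[ℂ] R) W hW hy
    rwa [hy'.unique h2]
  let b := Module.finBasis ℂ W
  have hβ : ∀ i, ∃ β : R →ₗ[ℂ] ℂ, β ∘ₗ W.subtype = b.coord i := fun i =>
    LinearMap.exists_extend (b.coord i)
  choose β hβ using hβ
  have hexp : ∀ w ∈ W, w = ∑ i, β i w • (b i : R) := by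
    intro w hw
    have h1 := b.sum_repr ⟨w, hw⟩
    have h2 := congrArg (W.subtype) h1
    rw [map_sum] at h2
    refine h2.symm.trans (Finset.sum_congr rfl fun i _ => ?_)
    rw [map_smul]
    have h3 := LinearMap.congr_fun (hβ i) ⟨w, hw⟩
    change β i w = b.repr ⟨w, hw⟩ i at h3
    rw [h3]
    rfl
  let θb : ∀ i : Fin (Module.finrank ℂ W), R →ₗ[ℂ] ℂ := fun i =>
    θ ∘ₗ (LinearMap.mulRight ℂ (b i : R))
  have hθb : ∀ i z, θb i z = θ (z * (b i : R)) := fun i z => rfl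
  have hsum : ∀ (z w : R), w ∈ W → θ (z * w) = ∑ i, θb i z * β i w := by
    intro z w hw
    conv_lhs => rw [hexp w hw]
    rw [Finset.mul_sum, map_sum]
    refine Finset.sum_congr rfl fun i _ => ?_
    rw [mul_smul_comm, map_smul, smul_eq_mul, hθb, mul_comm]
  have hiter : ∀ j : ℕ, (⇑D)^[j] y ∈ W := by
    intro j
    induction j with
    | zero => exact hy
    | succ j ih => rw [Function.iterate_succ_apply']; exact hW _ ih
  have hprod : ∀ i, HasSum (fun k : ℕ => ∑ kl ∈ antidiagonal k,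
      (((kl.1.factorial : ℂ))⁻¹ * θb i ((⇑D)^[kl.1] x)) *
        (((kl.2.factorial : ℂ))⁻¹ * β i ((⇑D)^[kl.2] y))) (θb i X * β i Y) := by
    intro i
    have h1 := hx' (θb i)
    have h2 := hy' (β i)
    have h1n := summable_norm_iff.2 h1.summable
    have h2n := summable_norm_iff.2 h2.summable
    have h3 := (summable_norm_sum_mul_antidiagonal_of_summable_norm h1n h2n).of_norm.hasSum
    rw [← tsum_mul_tsum_eq_tsum_sum_antidiagonal_of_summable_norm h1n h2n, h1.tsum_eq,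
      h2.tsum_eq] at h3
    exact h3
  have hall := hasSum_sum (s := Finset.univ) (fun i _ => hprod i)
  rw [hsum X Y hYW]
  refine hall.congr_fun ?_
  intro k
  rw [show (⇑(D : R →ₗ[ℂ] R))^[k] (x * y) = (⇑D)^[k] (x * y) from rfl, iterate_leibniz, map_sum,
    Finset.mul_sum, Finset.sum_comm]
  refine Finset.sum_congr rfl fun kl hkl => ?_
  rw [map_nsmul, hsum _ _ (hiter kl.2), nsmul_eq_mul, Finset.mul_sum, Finset.mul_sum]
  refine Finset.sum_congr rfl fun i _ => ?_
  have hk := mem_antidiagonal.1 hkl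
  have h1 : (k.choose kl.1 : ℂ) = (k.factorial : ℂ) / ((kl.1.factorial : ℂ) * (kl.2.factorial)) := by
    rw [← hk, Nat.cast_add_choose]
  rw [h1]
  have h2 : (k.factorial : ℂ) ≠ 0 := by exact_mod_cast k.factorial_ne_zero
  have h3 : (kl.1.factorial : ℂ) ≠ 0 := by exact_mod_cast kl.1.factorial_ne_zero
  have h4 : (kl.2.factorial : ℂ) ≠ 0 := by exact_mod_cast kl.2.factorial_ne_zero
  field_simp

theorem IsExpAt.one (D : Derivation ℂ R R) : IsExpAt (D : R →ₗ[ℂ] R) 1 1 := by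
  intro θ
  have h1 : ∀ k : ℕ, k ≠ 0 → ((k.factorial : ℂ))⁻¹ * θ ((⇑(D : R →ₗ[ℂ] R))^[k] 1) = 0 := by
    intro k hk
    obtain ⟨j, rfl⟩ := Nat.exists_eq_succ_of_ne_zero hk
    have h2 : ∀ j : ℕ, (⇑(D : R →ₗ[ℂ] R))^[j.succ] 1 = 0 := by
      intro j
      induction j with
      | zero => exact D.map_one_eq_zero
      | succ j ih => rw [Function.iterate_succ_apply', ih, map_zero]
    rw [h2, map_zero, mul_zero]
  have h2 := hasSum_single 0 h1
  have h3 : ((Nat.factorial 0 : ℕ) : ℂ)⁻¹ * θ ((⇑(D : R →ₗ[ℂ] R))^[0] 1) = θ 1 := by simp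
  rw [h3] at h2
  exact h2

end

end Vale.Agent.P280.H939
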