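import Mathlib.RingTheory.Ideal.KrullsHeightTheorem
import Mathlib.RingTheory.Ideal.MinimalPrime.Colon
import Mathlib.RingTheory.IntegralClosure.IntegrallyClosed
import Mathlib.RingTheory.IntegralClosure.Algebra.Basic
import Mathlib.RingTheory.Derivation.Basic
import Mathlib.RingTheory.FiniteType

/-!
# P280, row R1: conductors in a normal noetherian domain have minimal primes of height at most one
-/

namespace Vale.Agent.P280.H939

open Submodule

section Conductor

variable {R K : Type*} [CommRing R] [IsDomain R] [IsNoetherianRing R] [IsIntegrallyClosed R]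
  [Field K] [Algebra R K] [IsFractionRing R K]


/-- A prime ideal of the form `(R : z)`. -/
theorem height_le_one_of_eq_colon {P : Ideal R} [hP : P.IsPrime] {z : K}
    (hz : ∀ r : R, r ∈ P ↔ ∃ s : R, algebraMap R K s = algebraMap R K r * z) : P.height ≤ 1 := by
  have inj : Function.Injective (algebraMap R K) := IsFractionRing.injective R K
  by_cases h0 : P = ⊥
  · subst h0
    simp
  -- `z P` is not contained in `P`
  have hex : ∃ p ∈ P, ∃ t : R, t ∉ P ∧ algebraMap R K t = algebraMap R K p * z := by
    by_contra hcon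
    push Not at hcon
    -- then `z` is integral
    let N : Submodule R K := Submodule.map (Algebra.linearMap R K) P
    have hN : N ≠ ⊥ := by
      intro h
      obtain ⟨p, hp, hp0⟩ := Submodule.exists_mem_ne_zero_of_ne_bot h0
      have : Algebra.linearMap R K p ∈ N := Submodule.mem_map_of_mem hp
      rw [h, Submodule.mem_bot, Algebra.linearMap_apply] at this
      exact hp0 (inj (by rw [this, map_zero]))
    have hNfg : N.FG := (IsNoetherian.noetherian P).map _
    have hint : IsIntegral R z := by
      refine isIntegral_of_smul_mem_submodule N hN hNfg z ?_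
      rintro _ ⟨p, hp, rfl⟩
      obtain ⟨t, ht⟩ := (hz p).1 hp
      have htP : t ∈ P := by
        by_contra h
        exact hcon p hp t h ht
      refine ⟨t, htP, ?_⟩
      rw [Algebra.linearMap_apply, Algebra.linearMap_apply, ht, smul_eq_mul, mul_comm]
    obtain ⟨s, hs⟩ := IsIntegrallyClosed.isIntegral_iff.1 hint
    have : (1 : R) ∈ P := (hz 1).2 ⟨s, by rw [hs, map_one, one_mul]⟩
    exact hP.ne_top ((Ideal.eq_top_iff_one P).2 this)
  obtain ⟨p, hp, t, ht, htp⟩ := hex
  have key : ∀ r ∈ P, t * r ∈ Ideal.span {p} := by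
    intro r hr
    obtain ⟨s, hs⟩ := (hz r).1 hr
    rw [Ideal.mem_span_singleton]
    refine ⟨s, inj ?_⟩
    rw [map_mul, map_mul, htp, hs]
    ring
  refine Ideal.height_le_one_of_isPrincipal_of_mem_minimalPrimes (Ideal.span {p}) P ?_
  refine ⟨⟨hP, (Ideal.span_singleton_le_iff_mem P).2 hp⟩, ?_⟩
  rintro Q ⟨hQ, hpQ⟩ hQP r hr
  have h1 : t * r ∈ Q := hpQ (key r hr)
  rcases hQ.mem_or_mem h1 with h | h
  · exact absurd (hQP h) ht
  · exact h

/-- Minimal primes of `(R : y)` have height at most one. -/
theorem height_le_one_of_single {I P : Ideal R} (y : K)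
    (hI : ∀ r : R, r ∈ I ↔ ∃ s : R, algebraMap R K s = algebraMap R K r * y)
    (hP : P ∈ I.minimalPrimes) : P.height ≤ 1 := by
  let N : Submodule R K := LinearMap.range (Algebra.linearMap R K)
  have hcol : ∀ (z : K) (r : R), r ∈ N.colon {z} ↔
      ∃ s : R, algebraMap R K s = algebraMap R K r * z := by
    intro z r
    rw [Submodule.mem_colon_singleton, LinearMap.mem_range]
    simp only [Algebra.linearMap_apply, Algebra.smul_def]
  have hIe : I = N.colon {y} := by
    ext r
    rw [hI, hcol]
  rw [hIe] at hP
  have hPp : P.IsPrime := hP.isPrime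
  obtain ⟨z, hz⟩ := Submodule.exists_eq_colon_of_mem_minimalPrimes hP
  exact height_le_one_of_eq_colon (z := z) fun r => by rw [hz, hcol]

omit [IsDomain R] [IsNoetherianRing R] [IsIntegrallyClosed R] in
/-- A prime minimal over a finite intersection is minimal over one of the members. -/
theorem exists_mem_minimalPrimes {ι : Type*} (s : Finset ι) (J : ι → Ideal R) {I P : Ideal R}
    (hI : I = ⨅ i ∈ s, J i) (hP : P ∈ I.minimalPrimes) : ∃ i ∈ s, P ∈ (J i).minimalPrimes := by
  have hPp : P.IsPrime := hP.isPrime
  have h1 : s.inf J ≤ P := by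
    rw [Finset.inf_eq_iInf, ← hI]
    exact hP.1.2
  obtain ⟨i, hi, hiP⟩ := (Ideal.IsPrime.inf_le' hPp).1 h1
  refine ⟨i, hi, ⟨hPp, hiP⟩, ?_⟩
  rintro Q ⟨hQ, hJQ⟩ hQP
  refine hP.2 ⟨hQ, ?_⟩ hQP
  rw [hI]
  exact (iInf₂_le i hi).trans hJQ

/-- Minimal primes of `(R : Y)` have height at most one, `Y` any set of fractions. -/
theorem height_le_one_of_set {I P : Ideal R} (Y : Set K)
    (hI : ∀ r : R, r ∈ I ↔ ∀ y ∈ Y, ∃ s : R, algebraMap R K s = algebraMap R K r * y)
    (hP : P ∈ I.minimalPrimes) : P.height ≤ 1 := by
  classical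
  have inj : Function.Injective (algebraMap R K) := IsFractionRing.injective R K
  by_cases h0 : I = ⊥
  · rw [h0] at hP
    have : P = ⊥ := le_antisymm (hP.2 ⟨Ideal.isPrime_bot, le_rfl⟩ bot_le) bot_le
    subst this
    simp
  obtain ⟨r₀, hr₀, hr₀0⟩ := Submodule.exists_mem_ne_zero_of_ne_bot h0
  let N : Submodule R K := LinearMap.range (Algebra.linearMap R K)
  -- the module generated by `Y` is finitely generated
  let M : Submodule R K := Submodule.span R Y
  have hmem : ∀ m ∈ M, ∃ s : R, algebraMap R K s = algebraMap R K r₀ * m := by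
    intro m hm
    induction hm using Submodule.span_induction with
    | mem x h => exact (hI r₀).1 hr₀ x h
    | zero => exact ⟨0, by simp⟩
    | add x y _ _ hx hy =>
      obtain ⟨s, hs⟩ := hx
      obtain ⟨t, ht⟩ := hy
      exact ⟨s + t, by rw [map_add, hs, ht, mul_add]⟩
    | smul a x _ hx =>
      obtain ⟨s, hs⟩ := hx
      exact ⟨a * s, by rw [map_mul, hs, Algebra.smul_def]; ring⟩
  have hMfg : M.FG := by
    have hr₀K : algebraMap R K r₀ ≠ 0 := fun h => hr₀0 (inj (by rw [h, map_zero]))
    let f : R →ₗ[R] K := (LinearMap.mulLeft R (algebraMap R K r₀)⁻¹).comp (Algebra.linearMap R K)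
    have hle : M ≤ LinearMap.range f := by
      intro m hm
      obtain ⟨s, hs⟩ := hmem m hm
      refine ⟨s, ?_⟩
      simp only [f, LinearMap.comp_apply, Algebra.linearMap_apply, LinearMap.mulLeft_apply]
      rw [hs, ← mul_assoc, inv_mul_cancel₀ hr₀K, one_mul]
    have h1 : (M.comap f).map f = M := Submodule.map_comap_eq_of_le hle
    rw [← h1]
    exact (IsNoetherian.noetherian (M.comap f)).map _
  obtain ⟨T, hT⟩ := hMfg
  have hIT : I = ⨅ y ∈ T, N.colon {y} := by
    ext r
    rw [hI]
    simp only [Submodule.mem_iInf, Submodule.mem_colon_singleton]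
    constructor
    · intro h y hy
      have hyM : y ∈ M := by rw [← hT]; exact Submodule.subset_span hy
      change r • y ∈ N
      clear hy
      induction hyM using Submodule.span_induction with
      | mem x hx =>
        obtain ⟨s, hs⟩ := h x hx
        exact ⟨s, by rw [Algebra.linearMap_apply, hs, Algebra.smul_def]⟩
      | zero => rw [smul_zero]; exact N.zero_mem
      | add x z _ _ hx hz => rw [smul_add]; exact N.add_mem hx hz
      | smul a x _ hx => rw [smul_comm]; exact N.smul_mem a hx
    · intro h y hy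
      have hyM : y ∈ Submodule.span R (T : Set K) := by rw [hT]; exact Submodule.subset_span hy
      have h2 : r • y ∈ N := by
        clear hy
        induction hyM using Submodule.span_induction with
        | mem x hx => exact h x hx
        | zero => rw [smul_zero]; exact N.zero_mem
        | add x z _ _ hx hz => rw [smul_add]; exact N.add_mem hx hz
        | smul a x _ hx => rw [smul_comm]; exact N.smul_mem a hx
      obtain ⟨s, hs⟩ := h2
      exact ⟨s, by rw [← Algebra.linearMap_apply, hs, Algebra.smul_def]⟩
  obtain ⟨y, -, hy⟩ := exists_mem_minimalPrimes T (fun y => N.colon {y}) hIT hP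
  refine height_le_one_of_single (I := N.colon {y}) y (fun r => ?_) hy
  rw [Submodule.mem_colon_singleton, LinearMap.mem_range]
  simp only [Algebra.linearMap_apply, Algebra.smul_def]

/-- The conductor form: `I = {r : r D(x) ∈ R for all x}`, `D` any function with values in the
fraction field. -/
theorem height_le_one_of_conductor {ι : Type*} {I P : Ideal R} (D : ι → K)
    (hI : ∀ r : R, r ∈ I ↔ ∀ x, ∃ s : R, algebraMap R K s = algebraMap R K r * D x)
    (hP : P ∈ I.minimalPrimes) : P.height ≤ 1 := by
  refine height_le_one_of_set (Set.range D) (fun r => ?_) hP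
  rw [hI]
  simp

end Conductor

/-- The conductor in divisibility form. -/
theorem height_le_one_of_dvd {R : Type*} [CommRing R] [IsDomain R] [IsNoetherianRing R]
    [IsIntegrallyClosed R] {ι : Type*} {g : R} (hg : g ≠ 0) (y : ι → R) {I P : Ideal R}
    (hI : ∀ r : R, r ∈ I ↔ ∀ j, g ∣ r * y j) (hP : P ∈ I.minimalPrimes) : P.height ≤ 1 := by
  have inj : Function.Injective (algebraMap R (FractionRing R)) :=
    IsFractionRing.injective R (FractionRing R)
  have hg0 : algebraMap R (FractionRing R) g ≠ 0 := fun h => hg (inj (by rw [h, map_zero]))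
  refine height_le_one_of_conductor (K := FractionRing R)
    (fun j => algebraMap R (FractionRing R) (y j) / algebraMap R (FractionRing R) g)
    (fun r => ?_) hP
  rw [hI]
  refine forall_congr' fun j => ?_
  constructor
  · rintro ⟨s, hs⟩
    refine ⟨s, ?_⟩
    rw [← mul_div_assoc, ← map_mul, hs, map_mul, mul_div_cancel_left₀ _ hg0]
  · rintro ⟨s, hs⟩
    refine ⟨s, inj ?_⟩
    rw [← mul_div_assoc, ← map_mul, eq_div_iff hg0] at hs
    rw [← hs, map_mul, mul_comm]

end Vale.Agent.P280.H939
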