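import Mathlib.RingTheory.GradedAlgebra.Basic
import Mathlib.Algebra.DirectSum.Module
import Mathlib.RingTheory.Nakayama
import Mathlib.RingTheory.Localization.FractionRing
import Mathlib.Analysis.Complex.Basic
import Mathlib.RingTheory.Adjoin.Basic

/-!
# P280, row R3 (a): the chart at a source is generated by the coordinates
-/

namespace Vale.Agent.P280.H939

open DirectSum

universe u v

section Co

variable {G : Type*} [AddMonoid G] [DecidableEq G] {R : Type u} [CommRing R] [Algebra ℂ R]
  (𝒜 : G → Submodule ℂ R) [GradedAlgebra 𝒜] {K : Type v} [Field K] [Algebra R K] [Algebra ℂ K]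
  [IsScalarTower ℂ R K] (F : K) (deg w : G →+ ℤ)

/-- The part of weight `W` of the dehomogenisation. -/
noncomputable def co (W : ℤ) : R →ₗ[ℂ] K :=
  (DirectSum.toModule ℂ G K fun g =>
    if w g = W then
      ((LinearMap.mulRight ℂ (F ^ (-deg g))).comp
        ((Algebra.linearMap R K).restrictScalars ℂ)).comp (𝒜 g).subtype
    else 0) ∘ₗ (DirectSum.decomposeLinearEquiv 𝒜).toLinearMap

theorem co_of_mem {W : ℤ} {g : G} {b : R} (hb : b ∈ 𝒜 g) :
    co 𝒜 F deg w W b = if w g = W then algebraMap R K b * F ^ (-deg g) else 0 := by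
  unfold co
  rw [LinearMap.comp_apply]
  have h1 : (DirectSum.decomposeLinearEquiv 𝒜).toLinearMap b =
      DirectSum.lof ℂ G (fun g => 𝒜 g) g ⟨b, hb⟩ := by
    change DirectSum.decompose 𝒜 b = _
    rw [DirectSum.decompose_of_mem 𝒜 hb]
    rfl
  rw [h1, DirectSum.toModule_lof]
  split_ifs with h
  · rfl
  · rfl

theorem co_mul (hF : F ≠ 0) {W : ℤ} {g : G} {u : R} (hu : u ∈ 𝒜 g) (b : R) :
    co 𝒜 F deg w W (u * b) =
      (algebraMap R K u * F ^ (-deg g)) * co 𝒜 F deg w (W - w g) b := by
  induction b using DirectSum.Decomposition.inductionOn 𝒜 with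
  | zero => simp
  | homogeneous m =>
    rename_i g'
    rw [co_of_mem 𝒜 F deg w (SetLike.mul_mem_graded hu m.2), co_of_mem 𝒜 F deg w m.2]
    rw [map_add]
    by_cases h : w g + w g' = W
    · have h' : w g' = W - w g := by omega
      rw [if_pos h, if_pos h', map_mul, map_add, neg_add, zpow_add₀ hF]
      ring
    · have h' : ¬ w g' = W - w g := by omega
      rw [if_neg h, if_neg h', mul_zero]
  | add x y hx hy => rw [mul_add, map_add, hx, hy, map_add, mul_add]

end Co

end Vale.Agent.P280.H939
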