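import Vale.Agent.P280.T.Tools
import Vale.Agent.P280.T.Coarse
import Vale.Agent.P280.H939.R3a

/-!
# P280, row R3 (b): weights at a source
-/

namespace Vale.Agent.P280.H939

open DirectSum Vale.Agent.P280.T

section
variable {R : Type} [CommRing R] [Algebra ℂ R]

/-- The weight relative to the slope `μ`. -/
def wt (μ : ℤ) : ℕ × ℤ →+ ℤ where
  toFun g := g.2 - (g.1 : ℤ) * μ
  map_zero' := by simp
  map_add' a b := by
    simp only [Prod.snd_add, Prod.fst_add, Nat.cast_add]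
    ring

theorem wt_apply (μ : ℤ) (d : ℕ) (m : ℤ) : wt μ (d, m) = m - (d : ℤ) * μ := rfl

/-- The degree. -/
def dg : ℕ × ℤ →+ ℤ where
  toFun g := (g.1 : ℤ)
  map_zero' := by simp
  map_add' a b := by simp

theorem dg_apply (d : ℕ) (m : ℤ) : dg (d, m) = (d : ℤ) := rfl

variable (𝒜 : ℕ × ℤ → Submodule ℂ R) [GradedAlgebra 𝒜] (μ : ℤ)

/-- The component of weight `k` relative to the slope `μ`. -/
noncomputable def pr (k : ℤ) : R →ₗ[ℂ] R := GradedAlgebra.proj (coarse 𝒜 (wt μ)) k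

theorem pr_mem (k : ℤ) (b : R) : pr 𝒜 μ k b ∈ coarse 𝒜 (wt μ) k := by
  unfold pr
  rw [GradedAlgebra.proj_apply]
  exact SetLike.coe_mem _

theorem pr_same {k : ℤ} {b : R} (hb : b ∈ coarse 𝒜 (wt μ) k) : pr 𝒜 μ k b = b := by
  unfold pr
  rw [GradedAlgebra.proj_apply]
  exact DirectSum.decompose_of_mem_same _ hb

theorem pr_ne {k j : ℤ} {b : R} (hb : b ∈ coarse 𝒜 (wt μ) j) (h : j ≠ k) : pr 𝒜 μ k b = 0 := by
  unfold pr
  rw [GradedAlgebra.proj_apply]
  exact DirectSum.decompose_of_mem_ne _ hb h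

theorem pr_mul (k : ℤ) {j : ℤ} (c : R) {x : R} (hx : x ∈ coarse 𝒜 (wt μ) j) :
    pr 𝒜 μ k (c * x) = pr 𝒜 μ (k - j) c * x := by
  unfold pr
  rw [GradedAlgebra.proj_apply, GradedAlgebra.proj_apply]
  have := DirectSum.coe_decompose_mul_add_of_right_mem (coarse 𝒜 (wt μ)) (a := c) (i := k - j) hx
  rw [sub_add_cancel] at this
  exact this

variable {𝒜 μ}

/-- A point generates its fixed slope. -/
theorem exists_f (hgen : Algebra.adjoin ℂ {h : R | ∃ m : ℤ, h ∈ 𝒜 (1, m)} = ⊤)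
    {p : R →ₐ[ℂ] ℂ} (hp : ¬ IsVertex 𝒜 p) (hfix : IsFixed 𝒜 p μ) :
    ∃ f ∈ 𝒜 (1, μ), p f = 1 := by
  by_contra hcon
  push Not at hcon
  have h0 : ∀ m, ∀ h ∈ 𝒜 (1, m), p h = 0 := by
    intro m h hh
    by_contra hne
    have hm := hfix 1 m h hh hne
    rw [one_smul] at hm
    subst hm
    refine hcon ((p h)⁻¹ • h) ((𝒜 (1, m)).smul_mem _ hh) ?_
    rw [map_smul, smul_eq_mul, inv_mul_cancel₀ hne]
  refine hp ?_
  intro d m hd h hh
  have hspan := mem_span_isProd hgen hh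
  clear hh
  induction hspan using Submodule.span_induction with
  | mem x hx =>
    cases hx with
    | one => exact absurd hd (lt_irrefl 0)
    | mul hy hg => rw [map_mul, h0 _ _ hg, mul_zero]
  | zero => exact map_zero p
  | add x y _ _ hx hy => rw [map_add, hx, hy, add_zero]
  | smul a x _ hx => rw [map_smul, hx, smul_zero]

section Fixed

variable {p : R →ₐ[ℂ] ℂ} (hfix : IsFixed 𝒜 p μ)
include hfix

omit [GradedAlgebra 𝒜] in
theorem p_weight {k : ℤ} (hk : k ≠ 0) {b : R} (hb : b ∈ coarse 𝒜 (wt μ) k) : p b = 0 := by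
  refine coarse_induction (P := fun b => p b = 0) (map_zero p)
    (fun a b ha hb => by rw [map_add, ha, hb, add_zero]) ?_ hb
  rintro ⟨d, m⟩ hi h hh
  by_contra hne
  have hm := hfix d m h hh hne
  rw [wt_apply, hm] at hi
  apply hk
  rw [← hi]
  simp

theorem p_pr_zero (b : R) : p (pr 𝒜 μ 0 b) = p b := by
  induction b using DirectSum.Decomposition.inductionOn (coarse 𝒜 (wt μ)) with
  | zero => simp
  | homogeneous b =>
    rename_i k
    by_cases hk : k = 0
    · subst hk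
      rw [pr_same 𝒜 μ b.2]
    · rw [pr_ne 𝒜 μ b.2 hk, map_zero, p_weight hfix hk b.2]
  | add x y hx hy => rw [map_add, map_add, hx, hy, map_add]

theorem pr_ker (k : ℤ) {b : R} (hb : b ∈ RingHom.ker p) : pr 𝒜 μ k b ∈ RingHom.ker p := by
  rw [RingHom.mem_ker] at hb ⊢
  by_cases hk : k = 0
  · subst hk
    rw [p_pr_zero hfix, hb]
  · exact p_weight hfix hk (pr_mem 𝒜 μ k b)

theorem pr_ker_sq (k : ℤ) {b : R} (hb : b ∈ (RingHom.ker p) ^ 2) :
    pr 𝒜 μ k b ∈ (RingHom.ker p) ^ 2 := by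
  rw [pow_two] at hb ⊢
  induction hb using Submodule.mul_induction_on' with
  | mem_mul_mem x hx y hy =>
    have key : ∀ y : R, y ∈ RingHom.ker p → ∀ j : ℤ, ∀ z ∈ coarse 𝒜 (wt μ) j,
        z ∈ RingHom.ker p → pr 𝒜 μ k (y * z) ∈ RingHom.ker p * RingHom.ker p := by
      intro y hy j z hz hzk
      rw [pr_mul 𝒜 μ k y hz]
      exact Ideal.mul_mem_mul (pr_ker hfix _ hy) hzk
    -- decompose `y`
    classical
    have hsum := DirectSum.sum_support_decompose (coarse 𝒜 (wt μ)) y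
    rw [← hsum, Finset.mul_sum, map_sum]
    refine Ideal.sum_mem _ fun j _ => key x hx j _ (SetLike.coe_mem _) ?_
    have := pr_ker hfix j hy
    unfold pr at this
    rwa [GradedAlgebra.proj_apply] at this
  | add x hx y hy hx' hy' => rw [map_add]; exact Ideal.add_mem _ hx' hy'

end Fixed

end

end Vale.Agent.P280.H939
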