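import Vale.Agent.P280.H939.R3b
import Mathlib.RingTheory.Filtration

/-!
# P280, row R3 (c): the slopes at a source
-/

namespace Vale.Agent.P280.H939

open DirectSum Vale.Agent.P280.T

section
variable {R : Type} [CommRing R] [Algebra ℂ R] {𝒜 : ℕ × ℤ → Submodule ℂ R} [GradedAlgebra 𝒜]
  {μ a : ℤ} {p : R →ₐ[ℂ] ℂ} {f : R}

/-- A degree one element of nonpositive weight lies in `𝔪² + ℂ (f - 1) + ℂ f`. -/
theorem mem_sq_of_le (hfix : IsFixed 𝒜 p μ)
    (hw : ∀ χ : ℤ, TangentWeight 𝒜 p μ χ → 0 < χ) (hf : f ∈ 𝒜 (1, μ)) (pf : p f = 1)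
    {m : ℤ} (hm : m ≤ μ) {h : R} (hh : h ∈ 𝒜 (1, m)) :
    h - p h • f ∈ ((RingHom.ker p) ^ 2).restrictScalars ℂ ⊔ Submodule.span ℂ {f - 1} := by
  by_contra hcon
  set W : Submodule ℂ R :=
    ((RingHom.ker p) ^ 2).restrictScalars ℂ ⊔ Submodule.span ℂ {f - 1} with hW
  have hsqp : ∀ x ∈ (RingHom.ker p) ^ 2, p x = 0 := fun x hx =>
    (RingHom.mem_ker (f := p)).1 (Ideal.pow_le_self two_ne_zero hx)
  have hWp : ∀ x ∈ W, p x = 0 := by
    intro x hx
    obtain ⟨y, hy, z, hz, rfl⟩ := Submodule.mem_sup.1 hx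
    obtain ⟨c, rfl⟩ := Submodule.mem_span_singleton.1 hz
    rw [map_add, hsqp y hy, map_smul, map_sub, pf, map_one, sub_self, smul_zero, add_zero]
  have hcon' : h - p h • f ∉ W ⊔ Submodule.span ℂ {(1 : R)} := by
    intro hmem
    obtain ⟨y, hy, z, hz, hyz⟩ := Submodule.mem_sup.1 hmem
    obtain ⟨c, rfl⟩ := Submodule.mem_span_singleton.1 hz
    have h1 := congrArg p hyz
    rw [map_add, hWp y hy, map_smul, map_one, zero_add, map_sub, map_smul, pf] at h1
    have hc : c = 0 := by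
      have : c • (1 : ℂ) = 0 := by rw [h1]; simp
      simpa using this
    rw [hc, zero_smul, add_zero] at hyz
    exact hcon (hyz ▸ hy)
  obtain ⟨lam, hlam, hker⟩ := Submodule.exists_le_ker_of_notMem hcon'
  have hlW : ∀ x ∈ W, lam x = 0 := fun x hx => hker (Submodule.mem_sup_left hx)
  have hl1 : lam 1 = 0 :=
    hker (Submodule.mem_sup_right (Submodule.mem_span_singleton_self (1 : R)))
  have hlf : lam f = 0 := by
    have : lam (f - 1) = 0 :=
      hlW _ (Submodule.mem_sup_right (Submodule.mem_span_singleton_self _))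
    rw [map_sub, hl1, sub_zero] at this
    exact this
  have hf0 : f ∈ coarse 𝒜 (wt μ) 0 := mem_coarse hf (by rw [wt_apply]; simp)
  have h10 : (1 : R) ∈ coarse 𝒜 (wt μ) 0 := SetLike.GradedOne.one_mem
  have hhm : h ∈ coarse 𝒜 (wt μ) (m - μ) := mem_coarse hh (by rw [wt_apply]; simp)
  set χ : ℤ := m - μ with hχ
  have hl1' : lam (pr 𝒜 μ χ 1) = 0 := by
    by_cases h0 : χ = 0
    · rw [h0, pr_same 𝒜 μ h10, hl1]
    · rw [pr_ne 𝒜 μ h10 (Ne.symm h0), map_zero]
  have hlf' : lam (pr 𝒜 μ χ f) = 0 := by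
    by_cases h0 : χ = 0
    · rw [h0, pr_same 𝒜 μ hf0, hlf]
    · rw [pr_ne 𝒜 μ hf0 (Ne.symm h0), map_zero]
  have htan : IsTangent p (lam ∘ₗ pr 𝒜 μ χ) := by
    intro x y
    rw [LinearMap.comp_apply, LinearMap.comp_apply, LinearMap.comp_apply]
    have e : x * y = (x - p x • 1) * (y - p y • 1) + p x • y + p y • x - (p x * p y) • 1 := by
      simp only [Algebra.smul_def, mul_one, map_mul]
      ring
    have hx : x - p x • (1 : R) ∈ RingHom.ker p := by
      rw [RingHom.mem_ker, map_sub, map_smul, map_one, smul_eq_mul, mul_one, sub_self]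
    have hy : y - p y • (1 : R) ∈ RingHom.ker p := by
      rw [RingHom.mem_ker, map_sub, map_smul, map_one, smul_eq_mul, mul_one, sub_self]
    have hxy : lam (pr 𝒜 μ χ ((x - p x • 1) * (y - p y • 1))) = 0 := by
      refine hlW _ (Submodule.mem_sup_left ?_)
      refine pr_ker_sq hfix χ ?_
      rw [pow_two]
      exact Ideal.mul_mem_mul hx hy
    rw [e, map_sub, map_add, map_add, map_smul, map_smul, map_smul, map_sub, map_add, map_add,
      map_smul, map_smul, map_smul, hxy, hl1']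
    simp only [smul_eq_mul]
    ring
  have hwt : HasWeight 𝒜 μ χ (lam ∘ₗ pr 𝒜 μ χ) := by
    intro d' m' x hx hne
    by_contra hmm
    apply hne
    have : x ∈ coarse 𝒜 (wt μ) (m' - (d' : ℤ) * μ) := mem_coarse hx (wt_apply μ d' m')
    rw [LinearMap.comp_apply, pr_ne 𝒜 μ this, map_zero]
    intro heq
    apply hmm
    rw [← heq, nsmul_eq_mul]
    ring
  have := hw χ ⟨lam ∘ₗ pr 𝒜 μ χ, htan, hwt, ?_⟩
  · omega
  · intro c
    by_cases hc : c = 0
    · refine ⟨1, m, h, hh, ?_⟩
      rw [hc, LinearMap.comp_apply, pr_same 𝒜 μ hhm]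
      have : lam (h - p h • f) = lam h := by rw [map_sub, map_smul, hlf, smul_zero, sub_zero]
      rw [this] at hlam
      simpa using hlam
    · refine ⟨1, μ, f, hf, ?_⟩
      rw [LinearMap.comp_apply, hlf', pf]
      simpa using Ne.symm hc

variable (𝒜 μ f) in
/-- The generators of the maximal ideal at the source. -/
def gens : Set R := insert (f - 1) {h | ∃ m : ℤ, μ < m ∧ h ∈ 𝒜 (1, m)}

theorem ker_le (hgen : Algebra.adjoin ℂ {h : R | ∃ m : ℤ, h ∈ 𝒜 (1, m)} = ⊤)
    (hfix : IsFixed 𝒜 p μ) (hw : ∀ χ : ℤ, TangentWeight 𝒜 p μ χ → 0 < χ) (hf : f ∈ 𝒜 (1, μ))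
    (pf : p f = 1) :
    RingHom.ker p ≤ Ideal.span (gens 𝒜 μ f) ⊔ (RingHom.ker p) ^ 2 := by
  set J := Ideal.span (gens 𝒜 μ f) ⊔ (RingHom.ker p) ^ 2 with hJ
  have hf1 : f - 1 ∈ J := Ideal.mem_sup_left (Ideal.subset_span (Set.mem_insert _ _))
  have key : ∀ b : R, b - algebraMap ℂ R (p b) ∈ J := by
    intro b
    have hb : b ∈ Algebra.adjoin ℂ {h : R | ∃ m : ℤ, h ∈ 𝒜 (1, m)} := by rw [hgen]; trivial
    induction hb using Algebra.adjoin_induction with
    | mem x hx =>
      obtain ⟨m, hx⟩ := hx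
      by_cases hm : μ < m
      · have hpx : p x = 0 := by
          by_contra hne
          have := hfix 1 m x hx hne
          rw [one_smul] at this
          omega
        rw [hpx, map_zero, sub_zero]
        exact Ideal.mem_sup_left (Ideal.subset_span (Set.mem_insert_of_mem _ ⟨m, hm, hx⟩))
      · have h1 := mem_sq_of_le hfix hw hf pf (not_lt.1 hm) hx
        obtain ⟨y, hy, z, hz, hyz⟩ := Submodule.mem_sup.1 h1
        obtain ⟨c, rfl⟩ := Submodule.mem_span_singleton.1 hz
        have e : x - algebraMap ℂ R (p x) = y + algebraMap ℂ R (c + p x) * (f - 1) := by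
          have : x = y + c • (f - 1) + p x • f := by rw [hyz]; ring
          conv_lhs => rw [this]
          simp only [Algebra.smul_def, map_add, map_mul, pf, map_sub, map_one]
          have hpy : p y = 0 := (RingHom.mem_ker (f := p)).1 (Ideal.pow_le_self two_ne_zero hy)
          simp only [AlgHom.commutes, Algebra.algebraMap_self, RingHom.id_apply, hpy, map_zero,
            sub_self, mul_zero, mul_one, zero_add]
          ring
        rw [e]
        exact J.add_mem (Ideal.mem_sup_right hy) (J.mul_mem_left _ hf1)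
    | algebraMap r => rw [AlgHom.commutes]; simp
    | add x y _ _ hx hy =>
      have e : x + y - algebraMap ℂ R (p (x + y)) =
          (x - algebraMap ℂ R (p x)) + (y - algebraMap ℂ R (p y)) := by
        rw [map_add, map_add]; ring
      rw [e]
      exact J.add_mem hx hy
    | mul x y _ _ hx hy =>
      have e : x * y - algebraMap ℂ R (p (x * y)) =
          y * (x - algebraMap ℂ R (p x)) + algebraMap ℂ R (p x) * (y - algebraMap ℂ R (p y)) := by
        rw [map_mul, map_mul]; ring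
      rw [e]
      exact J.add_mem (J.mul_mem_left _ hx) (J.mul_mem_left _ hy)
  intro b hb
  have := key b
  rw [(RingHom.mem_ker (f := p)).1 hb, map_zero, sub_zero] at this
  exact this

omit [GradedAlgebra 𝒜] in
theorem gens_le (hfix : IsFixed 𝒜 p μ) (pf : p f = 1) {x : R} (hx : x ∈ gens 𝒜 μ f) :
    x ∈ RingHom.ker p := by
  rcases hx with rfl | ⟨m, hm, hx⟩
  · rw [RingHom.mem_ker, map_sub, pf, map_one, sub_self]
  · rw [RingHom.mem_ker]
    by_contra hne
    have := hfix 1 m x hx hne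
    rw [one_smul] at this
    omega

theorem gens_weight (hf : f ∈ 𝒜 (1, μ)) {x : R} (hx : x ∈ gens 𝒜 μ f) :
    ∃ k : ℤ, 0 ≤ k ∧ x ∈ coarse 𝒜 (wt μ) k := by
  rcases hx with rfl | ⟨m, hm, hx⟩
  · refine ⟨0, le_rfl, ?_⟩
    refine Submodule.sub_mem _ (mem_coarse hf ?_) SetLike.GradedOne.one_mem
    rw [wt_apply]
    simp
  · refine ⟨m - μ, by omega, mem_coarse hx ?_⟩
    rw [wt_apply]
    simp

/-- Negative weights do not occur. -/
theorem eq_zero_of_neg [IsDomain R] [IsNoetherianRing R]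
    (hgen : Algebra.adjoin ℂ {h : R | ∃ m : ℤ, h ∈ 𝒜 (1, m)} = ⊤)
    (hfix : IsFixed 𝒜 p μ) (hw : ∀ χ : ℤ, TangentWeight 𝒜 p μ χ → 0 < χ) (hf : f ∈ 𝒜 (1, μ))
    (pf : p f = 1) {k : ℤ} (hk : k < 0) {b : R} (hb : b ∈ coarse 𝒜 (wt μ) k) : b = 0 := by
  set I := RingHom.ker p with hI
  have hItop : I ≠ ⊤ := RingHom.ker_ne_top p
  obtain ⟨r, hr, hrI⟩ := Submodule.exists_sub_one_mem_and_smul_le_of_fg_of_le_sup (I := I)
    (N := Ideal.span (gens 𝒜 μ f)) (N' := I) (P := I) (IsNoetherian.noetherian I) le_rfl (by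
      have := ker_le hgen hfix hw hf pf
      rwa [pow_two] at this)
  have hrI' : ∀ x ∈ I, r * x ∈ Ideal.span (gens 𝒜 μ f) := fun x hx =>
    hrI (Submodule.smul_mem_pointwise_smul x r I hx)
  set s := pr 𝒜 μ 0 r with hs
  have hs1 : s - 1 ∈ I := by
    have h1 : pr 𝒜 μ 0 (r - 1) = s - 1 := by
      rw [map_sub, pr_same 𝒜 μ (SetLike.GradedOne.one_mem : (1 : R) ∈ coarse 𝒜 (wt μ) 0)]
    rw [← h1]
    exact pr_ker hfix 0 hr
  -- the induction
  have key : ∀ j : ℕ, ∀ k : ℤ, k < 0 → ∀ b ∈ coarse 𝒜 (wt μ) k, s ^ j * b ∈ I ^ j := by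
    intro j
    induction j with
    | zero => intro k _ b _; rw [pow_zero, pow_zero, Ideal.one_eq_top]; trivial
    | succ j ih =>
      intro k hk b hb
      have hbI : b ∈ I := p_weight hfix (by omega) hb
      have e1 : s * b = pr 𝒜 μ k (r * b) := by
        rw [pr_mul 𝒜 μ k r hb, sub_self]
      have claim : ∀ u ∈ Ideal.span (gens 𝒜 μ f), ∀ c : R, ∀ k : ℤ, k < 0 →
          s ^ j * pr 𝒜 μ k (c * u) ∈ I ^ (j + 1) := by
        intro u hu
        induction hu using Submodule.span_induction with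
        | mem x hx =>
          intro c k hk
          obtain ⟨l, hl, hxl⟩ := gens_weight hf hx
          rw [pr_mul 𝒜 μ k c hxl, ← mul_assoc, pow_succ]
          exact Ideal.mul_mem_mul (ih (k - l) (by omega) _ (pr_mem 𝒜 μ _ _))
            (gens_le hfix pf hx)
        | zero => intro c k _; simp
        | add x y _ _ hx hy =>
          intro c k hk
          rw [mul_add, map_add, mul_add]
          exact Ideal.add_mem _ (hx c k hk) (hy c k hk)
        | smul a x _ hx =>
          intro c k hk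
          rw [smul_eq_mul, ← mul_assoc]
          exact hx (c * a) k hk
      have := claim _ (hrI' b hbI) 1 k hk
      rw [one_mul, ← e1] at this
      rw [pow_succ s j, mul_assoc]
      exact this
  have hmem : ∀ j : ℕ, b ∈ I ^ j := by
    intro j
    have h1 := key j k hk b hb
    have hcop : IsCoprime s (s - 1) := ⟨1, -1, by ring⟩
    have h2 : ∃ x y : R, x * s ^ j + y * (s - 1) ^ j = 1 := hcop.pow
    obtain ⟨x, y, hxy⟩ := h2
    have e : b = x * (s ^ j * b) + (y * b) * (s - 1) ^ j := by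
      calc b = 1 * b := (one_mul b).symm
        _ = (x * s ^ j + y * (s - 1) ^ j) * b := by rw [hxy]
        _ = _ := by ring
    rw [e]
    exact Ideal.add_mem _ (Ideal.mul_mem_left _ _ h1)
      (Ideal.mul_mem_left _ _ (Ideal.pow_mem_pow hs1 j))
  have : b ∈ ⨅ i : ℕ, I ^ i := (Submodule.mem_iInf _).2 hmem
  have h0 : ⨅ i : ℕ, I ^ i ≤ ⊥ := (Ideal.iInf_pow_eq_bot_of_isDomain I hItop).le
  exact (Submodule.mem_bot R).1 (h0 this)

end

end Vale.Agent.P280.H939
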