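import Vale.Agent.P280.H939.R3d
import Vale.Agent.P280.H127.Reg
import Mathlib.RingTheory.MvPolynomial.WeightedHomogeneous

/-!
# P280, row R3 (e): the chart at the source is generated by coordinates
-/

namespace Vale.Agent.P280.H939

open DirectSum Vale.Agent.P280.T Vale.Agent.P280.H127

section
variable {R : Type} [CommRing R] [Algebra ℂ R] {𝒜 : ℕ × ℤ → Submodule ℂ R} [GradedAlgebra 𝒜]
  {μ a : ℤ} {p : R →ₐ[ℂ] ℂ} {f : R} {K : Type} [Field K] [Algebra R K] [Algebra ℂ K]
  [IsScalarTower ℂ R K]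

omit [GradedAlgebra 𝒜] in
theorem fix_coarse (hfix : IsFixed 𝒜 p μ) : Fix (coarse 𝒜 (wt μ)) p :=
  fun _ hk _ hx => p_weight hfix hk hx

/-- product rule for factors which are homogeneous for the weight -/
theorem cf_mul' (hf0 : algebraMap R K f ≠ 0) {k l : ℤ} {x : R} (hx : x ∈ coarse 𝒜 (wt μ) l)
    (c : R) : cf 𝒜 μ f K k (c * x) = cf 𝒜 μ f K l x * cf 𝒜 μ f K (k - l) c := by
  refine coarse_induction (P := fun x => cf 𝒜 μ f K k (c * x) =
    cf 𝒜 μ f K l x * cf 𝒜 μ f K (k - l) c) ?_ ?_ ?_ hx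
  · simp
  · intro x y hx hy
    rw [mul_add, map_add, hx, hy, map_add, add_mul]
  · rintro ⟨d, m⟩ hi h hh
    rw [wt_apply] at hi
    rw [cf_mul hf0 hh, cf_of_mem hh, if_pos hi, hi]

/-- elements of other weights have no component -/
theorem cf_ne {k l : ℤ} (hkl : l ≠ k) {x : R} (hx : x ∈ coarse 𝒜 (wt μ) l) :
    cf 𝒜 μ f K k x = 0 := by
  refine coarse_induction (P := fun x => cf 𝒜 μ f K k x = 0) ?_ ?_ ?_ hx
  · simp
  · intro x y hx hy
    rw [map_add, hx, hy, add_zero]
  · rintro ⟨d, m⟩ hi h hh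
    rw [wt_apply] at hi
    rw [cf_of_mem hh, if_neg (by rw [hi]; exact hkl)]

/-- the data of a source -/
structure SrcData (𝒜 : ℕ × ℤ → Submodule ℂ R) [GradedAlgebra 𝒜] (μ : ℤ) (p : R →ₐ[ℂ] ℂ)
    (f : R) : Prop where
  gen : Algebra.adjoin ℂ {h : R | ∃ m : ℤ, h ∈ 𝒜 (1, m)} = ⊤
  fix : IsFixed 𝒜 p μ
  pos : ∀ χ : ℤ, TangentWeight 𝒜 p μ χ → 0 < χ
  hf : f ∈ 𝒜 (1, μ)
  pf : p f = 1

variable [IsDomain R] [IsNoetherianRing R]

theorem cf_zero (S : SrcData 𝒜 μ p f) (hf0 : algebraMap R K f ≠ 0) (b : R) :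
    cf 𝒜 μ f K 0 b = algebraMap ℂ K (p b) := by
  induction b using DirectSum.Decomposition.inductionOn 𝒜 with
  | zero => simp
  | homogeneous b =>
    rename_i g
    obtain ⟨b, hb⟩ := b
    obtain ⟨d, m⟩ := g
    change cf 𝒜 μ f K 0 b = algebraMap ℂ K (p b)
    rw [cf_of_mem hb]
    by_cases hm : m - (d : ℤ) * μ = 0
    · rw [if_pos hm]
      have hm' : m = d • μ := by rw [nsmul_eq_mul]; linarith
      subst hm'
      have h1 := eq_of_zero_weight S.gen S.fix S.pos S.hf S.pf hb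
      have h2 : algebraMap R K b = algebraMap ℂ K (p b) * algebraMap R K f ^ d := by
        conv_lhs => rw [h1]
        rw [Algebra.smul_def, map_mul, map_pow, ← IsScalarTower.algebraMap_apply]
      rw [h2, zpow_neg, zpow_natCast, mul_assoc, mul_inv_cancel₀ (pow_ne_zero _ hf0), mul_one]
    · rw [if_neg hm]
      have : p b = 0 := by
        by_contra hne
        have := S.fix d m b hb hne
        apply hm
        rw [this, nsmul_eq_mul]
        simp
      rw [this, map_zero]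
  | add x y hx hy => rw [map_add, hx, hy, map_add, map_add]

variable {n : ℕ} {u : Fin n → R} {w : Fin n → ℤ}

/-- the coordinates -/
noncomputable def xi (𝒜 : ℕ × ℤ → Submodule ℂ R) [GradedAlgebra 𝒜] (μ : ℤ) (f : R) (K : Type)
    [Field K] [Algebra R K] [Algebra ℂ K] [IsScalarTower ℂ R K] (u : Fin n → R) (w : Fin n → ℤ)
    (i : {i : Fin n // 0 < w i}) : K := cf 𝒜 μ f K (w i) (u i)

theorem exists_poly (S : SrcData 𝒜 μ p f) (hf0 : algebraMap R K f ≠ 0)
    (G : Gens (coarse 𝒜 (wt μ)) p u w) (k : ℤ) (b : R) :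
    ∃ P : MvPolynomial {i : Fin n // 0 < w i} ℂ,
      MvPolynomial.IsWeightedHomogeneous (fun i : {i : Fin n // 0 < w i} => w i) P k ∧
      MvPolynomial.aeval (xi 𝒜 μ f K u w) P = cf 𝒜 μ f K k b := by
  by_cases hk : k < 0
  · refine ⟨0, MvPolynomial.isWeightedHomogeneous_zero _ _ _, ?_⟩
    rw [map_zero, cf_neg S.gen S.fix S.pos S.hf S.pf hk]
  push Not at hk
  obtain ⟨N, rfl⟩ := Int.eq_ofNat_of_zero_le hk
  clear hk
  induction N using Nat.strong_induction_on generalizing b with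
  | _ N ih =>
  rcases Nat.eq_zero_or_pos N with rfl | hN
  · refine ⟨MvPolynomial.C (p b), MvPolynomial.isWeightedHomogeneous_C _ _, ?_⟩
    rw [MvPolynomial.aeval_C, Nat.cast_zero, cf_zero S hf0]
  -- existence for all smaller weights
  have ih' : ∀ k : ℤ, k < N → ∀ b : R, ∃ P : MvPolynomial {i : Fin n // 0 < w i} ℂ,
      MvPolynomial.IsWeightedHomogeneous (fun i : {i : Fin n // 0 < w i} => w i) P k ∧
      MvPolynomial.aeval (xi 𝒜 μ f K u w) P = cf 𝒜 μ f K k b := by
    intro k hk b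
    by_cases hk0 : k < 0
    · refine ⟨0, MvPolynomial.isWeightedHomogeneous_zero _ _ _, ?_⟩
      rw [map_zero, cf_neg S.gen S.fix S.pos S.hf S.pf hk0]
    · obtain ⟨M, rfl⟩ := Int.eq_ofNat_of_zero_le (not_lt.1 hk0)
      exact ih M (by exact_mod_cast hk) b
  induction b using DirectSum.Decomposition.inductionOn (coarse 𝒜 (wt μ)) with
  | zero =>
    refine ⟨0, MvPolynomial.isWeightedHomogeneous_zero _ _ _, ?_⟩
    rw [map_zero, map_zero]
  | add x y hx hy =>
    obtain ⟨P, hP, hP'⟩ := hx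
    obtain ⟨Q, hQ, hQ'⟩ := hy
    exact ⟨P + Q, hP.add hQ, by rw [map_add, hP', hQ', map_add]⟩
  | homogeneous b =>
    rename_i l
    obtain ⟨b, hb⟩ := b
    change ∃ P : MvPolynomial {i : Fin n // 0 < w i} ℂ,
      MvPolynomial.IsWeightedHomogeneous (fun i : {i : Fin n // 0 < w i} => w i) P N ∧
      MvPolynomial.aeval (xi 𝒜 μ f K u w) P = cf 𝒜 μ f K N b
    by_cases hl : l = (N : ℤ)
    · subst hl
      obtain ⟨s, hs0, hs1, hs⟩ := G.gen
      have hbm : b ∈ mx p := by
        rw [mem_mx]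
        exact p_weight S.fix (by omega) hb
      obtain ⟨c, hc⟩ := Ideal.mem_span_range_iff_exists_fun.1 (hs b hbm)
      have h1 : cf 𝒜 μ f K N b = ∑ i, cf 𝒜 μ f K N (c i * u i) := by
        rw [← map_sum, hc, cf_mul' hf0 hb, sub_self, cf_zero S hf0, hs1, map_one, mul_one]
      choose P hP hP' using fun i : {i : Fin n // 0 < w i} =>
        ih' (N - w i) (by have := i.2; omega) (c i)
      refine ⟨∑ i, MvPolynomial.X i * P i, ?_, ?_⟩
      · refine MvPolynomial.IsWeightedHomogeneous.sum _ _ _ fun i _ => ?_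
        have := (MvPolynomial.isWeightedHomogeneous_X ℂ
          (fun i : {i : Fin n // 0 < w i} => w i) i).mul (hP i)
        rwa [show w i + ((N : ℤ) - w i) = N by ring] at this
      · rw [h1, map_sum]
        have h2 : ∀ i : Fin n, ¬ 0 < w i → cf 𝒜 μ f K N (c i * u i) = 0 := by
          intro i hi
          rw [cf_mul' hf0 (G.hom i)]
          by_cases h0 : w i = 0
          · rw [h0, cf_zero S hf0, G.zero i, map_zero, zero_mul]
          · rw [cf_neg S.gen S.fix S.pos S.hf S.pf (by omega), zero_mul]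
        have h3 : ∑ i : Fin n, cf 𝒜 μ f K N (c i * u i) =
            ∑ i : {i : Fin n // 0 < w i}, cf 𝒜 μ f K N (c i * u i) := by
          rw [← Finset.sum_filter_of_ne (s := Finset.univ) (p := fun i => 0 < w i)
            (fun i _ hi => by
              by_contra hneg
              exact hi (h2 i hneg))]
          exact Finset.sum_subtype _ (fun i => by simp) _
        rw [h3]
        refine Finset.sum_congr rfl fun i _ => ?_
        rw [map_mul, MvPolynomial.aeval_X, hP' i, cf_mul' hf0 (G.hom i)]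
        rfl
    · refine ⟨0, MvPolynomial.isWeightedHomogeneous_zero _ _ _, ?_⟩
      rw [map_zero, cf_ne hl hb]

end

end Vale.Agent.P280.H939
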