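import Vale.Agent.P280.H939.R3e
import Mathlib.RingTheory.KrullDimension.NonZeroDivisors
import Mathlib.RingTheory.KrullDimension.Polynomial
import Mathlib.RingTheory.KrullDimension.Field
import Mathlib.RingTheory.Ideal.Height

/-!
# P280, row R3 (f): the coordinates at the source are algebraically independent
-/


namespace Vale.Agent.P280.H939

open DirectSum Vale.Agent.P280.T Vale.Agent.P280.H127

/-- The primes not containing `f` extend to any ring between `R` and `R[1/f]`. -/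
theorem height_le_krullDim {R B : Type*} [CommRing R] [CommRing B] (j : R →+* B)
    (hj : Function.Injective j) {f : R} (P : Ideal R) [P.IsPrime] (hf : f ∉ P)
    (h : ∀ b : B, ∃ (N : ℕ) (r : R), j f ^ N * b = j r) :
    (P.height : WithBot ℕ∞) ≤ ringKrullDim B := by
  rw [show P.height = (⟨P, inferInstance⟩ : PrimeSpectrum R).asIdeal.height from rfl,
    PrimeSpectrum.height_eq_orderHeight, Order.height_eq_krullDim_Iic]
  let up : PrimeSpectrum R → Ideal B := fun Q =>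
    { carrier := {b | ∃ (N : ℕ) (r : R), r ∈ Q.asIdeal ∧ j f ^ N * b = j r}
      zero_mem' := ⟨0, 0, Ideal.zero_mem _, by simp⟩
      add_mem' := by
        rintro a b ⟨N, r, hr, h1⟩ ⟨M, s, hs, h2⟩
        refine ⟨N + M, f ^ M * r + f ^ N * s, Ideal.add_mem _ (Ideal.mul_mem_left _ _ hr)
          (Ideal.mul_mem_left _ _ hs), ?_⟩
        rw [map_add, map_mul, map_mul, map_pow, map_pow, ← h1, ← h2]
        ring
      smul_mem' := by
        rintro c b ⟨N, r, hr, h1⟩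
        obtain ⟨M, s, h2⟩ := h c
        refine ⟨M + N, s * r, Ideal.mul_mem_left _ _ hr, ?_⟩
        rw [map_mul, ← h1, ← h2, smul_eq_mul]
        ring }
  have hmem : ∀ (Q : PrimeSpectrum R), Q.asIdeal ≤ P → ∀ a : R, j a ∈ up Q ↔ a ∈ Q.asIdeal := by
    intro Q hQ a
    constructor
    · rintro ⟨N, r, hr, h1⟩
      rw [← map_pow, ← map_mul] at h1
      have h2 : f ^ N * a ∈ Q.asIdeal := by rw [hj h1]; exact hr
      rcases Q.2.mem_or_mem h2 with h3 | h3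
      · exact absurd (hQ (Q.2.mem_of_pow_mem N h3)) hf
      · exact h3
    · intro ha
      exact ⟨0, a, ha, by simp⟩
  have hprime : ∀ (Q : PrimeSpectrum R), Q.asIdeal ≤ P → (up Q).IsPrime := by
    intro Q hQ
    constructor
    · intro htop
      have h1 : j 1 ∈ up Q := by rw [htop]; trivial
      exact Q.2.ne_top ((Ideal.eq_top_iff_one _).2 ((hmem Q hQ 1).1 h1))
    · rintro b c ⟨N, r, hr, h1⟩
      obtain ⟨M, s, h2⟩ := h b
      obtain ⟨L, t, h3⟩ := h c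
      have h4 : j (f ^ N * (s * t)) = j (f ^ (M + L) * r) := by
        rw [map_mul, map_mul, map_mul, map_pow, map_pow, ← h1, ← h2, ← h3]
        ring
      have h5 : f ^ N * (s * t) ∈ Q.asIdeal := by rw [hj h4]; exact Ideal.mul_mem_left _ _ hr
      rcases Q.2.mem_or_mem h5 with h6 | h6
      · exact absurd (hQ (Q.2.mem_of_pow_mem N h6)) hf
      · rcases Q.2.mem_or_mem h6 with h7 | h7
        · exact Or.inl ⟨M, s, h7, h2⟩
        · exact Or.inr ⟨L, t, h7, h3⟩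
  let φ : Set.Iic (⟨P, inferInstance⟩ : PrimeSpectrum R) → PrimeSpectrum B := fun Q =>
    ⟨up Q.1, hprime Q.1 Q.2⟩
  refine Order.krullDim_le_of_strictMono φ ?_
  intro Q Q' hlt
  have hle : Q.1.asIdeal ≤ Q'.1.asIdeal := hlt.le
  refine lt_of_le_of_ne ?_ ?_
  · rintro b ⟨N, r, hr, h1⟩
    exact ⟨N, r, hle hr, h1⟩
  · intro heq
    have h1 : up Q.1 = up Q'.1 := congrArg PrimeSpectrum.asIdeal heq
    have h2 : Q'.1.asIdeal ≤ Q.1.asIdeal := by
      intro a ha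
      rw [← hmem Q.1 Q.2, h1, hmem Q'.1 Q'.2]
      exact ha
    exact absurd (show Q' ≤ Q from h2) (not_le_of_gt hlt)

section
variable {R : Type} [CommRing R] [Algebra ℂ R] {𝒜 : ℕ × ℤ → Submodule ℂ R} [GradedAlgebra 𝒜]
  {μ a : ℤ} {p : R →ₐ[ℂ] ℂ} {f : R} {K : Type} [Field K] [Algebra R K] [Algebra ℂ K]
  [IsScalarTower ℂ R K]

/-- homogeneous elements of degree zero and weight `l` of the localisation at `f` -/
def HH (𝒜 : ℕ × ℤ → Submodule ℂ R) (μ : ℤ) (f : R) {K : Type} [Field K] [Algebra R K] (l : ℤ)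
    (x : K) : Prop :=
  ∃ M : ℕ, ∃ b ∈ 𝒜 (M, (M : ℤ) * μ + l), algebraMap R K f ^ M * x = algebraMap R K b

theorem pow_f (hf : f ∈ 𝒜 (1, μ)) (d : ℕ) : f ^ d ∈ 𝒜 (d, (d : ℤ) * μ) := by
  have := SetLike.pow_mem_graded d hf
  rwa [Prod.smul_mk, smul_eq_mul, mul_one, nsmul_eq_mul] at this

theorem HH.up (hf : f ∈ 𝒜 (1, μ)) {l : ℤ} {x : K} (h : HH 𝒜 μ f l x) : ∃ M0 : ℕ, ∀ M, M0 ≤ M →
    ∃ b ∈ 𝒜 (M, (M : ℤ) * μ + l), algebraMap R K f ^ M * x = algebraMap R K b := by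
  obtain ⟨M0, b, hb, h1⟩ := h
  refine ⟨M0, fun M hM => ⟨f ^ (M - M0) * b, ?_, ?_⟩⟩
  · have := SetLike.mul_mem_graded (pow_f hf (M - M0)) hb
    rw [Prod.mk_add_mk, Nat.sub_add_cancel hM] at this
    have e : ((M - M0 : ℕ) : ℤ) * μ + ((M0 : ℤ) * μ + l) = (M : ℤ) * μ + l := by
      rw [Nat.cast_sub hM]; ring
    rwa [e] at this
  · rw [map_mul, map_pow, ← h1, ← mul_assoc, ← pow_add, Nat.sub_add_cancel hM]

theorem HH.zero (l : ℤ) : HH 𝒜 μ f l (0 : K) :=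
  ⟨0, 0, Submodule.zero_mem _, by simp⟩

theorem HH.one : HH 𝒜 μ f 0 (1 : K) :=
  ⟨0, 1, by
    have h1 := SetLike.one_mem_graded 𝒜
    rw [show ((0 : ℕ), ((0 : ℕ) : ℤ) * μ + 0) = 0 by simp]
    exact h1, by simp⟩

theorem HH.add (hf : f ∈ 𝒜 (1, μ)) {l : ℤ} {x y : K} (hx : HH 𝒜 μ f l x) (hy : HH 𝒜 μ f l y) :
    HH 𝒜 μ f l (x + y) := by
  obtain ⟨M, hM⟩ := hx.up hf
  obtain ⟨M', hM'⟩ := hy.up hf
  obtain ⟨b, hb, h1⟩ := hM _ (le_max_left M M')
  obtain ⟨c, hc, h2⟩ := hM' _ (le_max_right M M')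
  exact ⟨max M M', b + c, Submodule.add_mem _ hb hc, by rw [mul_add, h1, h2, map_add]⟩

theorem HH.mul {l k : ℤ} {x y : K} (hx : HH 𝒜 μ f l x) (hy : HH 𝒜 μ f k y) :
    HH 𝒜 μ f (l + k) (x * y) := by
  obtain ⟨M, b, hb, h1⟩ := hx
  obtain ⟨M', c, hc, h2⟩ := hy
  refine ⟨M + M', b * c, ?_, ?_⟩
  · have := SetLike.mul_mem_graded hb hc
    rw [Prod.mk_add_mk] at this
    have e : (M : ℤ) * μ + l + ((M' : ℤ) * μ + k) = ((M + M' : ℕ) : ℤ) * μ + (l + k) := by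
      push_cast; ring
    rwa [e] at this
  · rw [map_mul, ← h1, ← h2]
    ring

theorem HH.const (c : ℂ) : HH 𝒜 μ f 0 (algebraMap ℂ K c) := by
  refine ⟨0, algebraMap ℂ R c, ?_, ?_⟩
  · rw [show ((0 : ℕ), ((0 : ℕ) : ℤ) * μ + 0) = 0 by simp]
    exact SetLike.algebraMap_mem_graded 𝒜 c
  · rw [pow_zero, one_mul, ← IsScalarTower.algebraMap_apply]

theorem HH.pow {l : ℤ} {x : K} (hx : HH 𝒜 μ f l x) (k : ℕ) : HH 𝒜 μ f (k * l) (x ^ k) := by
  induction k with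
  | zero => simpa using (HH.one : HH 𝒜 μ f 0 (1 : K))
  | succ k ih =>
    have := ih.mul hx
    rw [pow_succ]
    have e : (k : ℤ) * l + l = ((k + 1 : ℕ) : ℤ) * l := by push_cast; ring
    rwa [e] at this

theorem HH.sum (hf : f ∈ 𝒜 (1, μ)) {ι : Type*} (s : Finset ι) {l : ℤ} {x : ι → K}
    (h : ∀ i ∈ s, HH 𝒜 μ f l (x i)) : HH 𝒜 μ f l (∑ i ∈ s, x i) :=
  Finset.sum_induction _ (HH 𝒜 μ f l) (fun _ _ ha hb => ha.add hf hb) (HH.zero l) h

theorem HH.prod {ι : Type*} (s : Finset ι) {l : ι → ℤ} {x : ι → K}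
    (h : ∀ i ∈ s, HH 𝒜 μ f (l i) (x i)) : HH 𝒜 μ f (∑ i ∈ s, l i) (∏ i ∈ s, x i) := by
  classical
  induction s using Finset.induction_on with
  | empty => simpa using (HH.one : HH 𝒜 μ f 0 (1 : K))
  | insert i s his ih =>
    rw [Finset.sum_insert his, Finset.prod_insert his]
    exact (h i (Finset.mem_insert_self i s)).mul
      (ih fun j hj => h j (Finset.mem_insert_of_mem hj))

theorem HH.of_cf (hf : f ∈ 𝒜 (1, μ)) (hf0 : algebraMap R K f ≠ 0) (k : ℤ) (b : R) :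
    HH 𝒜 μ f k (cf 𝒜 μ f K k b) := by
  induction b using DirectSum.Decomposition.inductionOn 𝒜 with
  | zero => rw [map_zero]; exact HH.zero k
  | homogeneous b =>
    rename_i g
    obtain ⟨b, hb⟩ := b
    obtain ⟨d, m⟩ := g
    change HH 𝒜 μ f k (cf 𝒜 μ f K k b)
    rw [cf_of_mem hb]
    by_cases hm : m - (d : ℤ) * μ = k
    · rw [if_pos hm]
      refine ⟨d, b, ?_, ?_⟩
      · have e : (d : ℤ) * μ + k = m := by rw [← hm]; ring
        rw [e]; exact hb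
      · rw [zpow_neg, zpow_natCast, mul_comm, mul_assoc, inv_mul_cancel₀ (pow_ne_zero _ hf0),
          mul_one]
    · rw [if_neg hm]
      exact HH.zero k
  | add x y hx hy => rw [map_add]; exact hx.add hf hy

/-- values of weighted homogeneous polynomials -/
theorem HH.aeval (hf : f ∈ 𝒜 (1, μ)) {ι : Type} {W : ι → ℤ} {x : ι → K}
    (hx : ∀ i, HH 𝒜 μ f (W i) (x i)) {l : ℤ} {Q : MvPolynomial ι ℂ}
    (hQ : MvPolynomial.IsWeightedHomogeneous W Q l) : HH 𝒜 μ f l (MvPolynomial.aeval x Q) := by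
  rw [Q.as_sum, map_sum]
  refine HH.sum hf _ fun e he => ?_
  have h1 : Finsupp.weight W e = l := hQ (MvPolynomial.mem_support_iff.1 he)
  rw [MvPolynomial.aeval_monomial, ← zero_add l, ← h1, Finsupp.weight_apply, Finsupp.sum,
    Finsupp.prod]
  refine (HH.const _).mul (HH.prod _ fun i _ => ?_)
  rw [nsmul_eq_mul]
  exact (hx i).pow _

end

end Vale.Agent.P280.H939
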