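import Vale.Agent.P280.H939.R3f

/-!
# P280, row R3 (g): the coordinates at the source are algebraically independent
-/

namespace Vale.Agent.P280.H939

open DirectSum Vale.Agent.P280.T Vale.Agent.P280.H127

section
variable {R : Type} [CommRing R] [Algebra ℂ R] {𝒜 : ℕ × ℤ → Submodule ℂ R} [GradedAlgebra 𝒜]
  {μ a : ℤ} {p : R →ₐ[ℂ] ℂ} {f : R} {K : Type} [Field K] [Algebra R K] [Algebra ℂ K]
  [IsScalarTower ℂ R K] {n : ℕ} {u : Fin n → R} {w : Fin n → ℤ}

/-- the values of `f` and the coordinates -/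
noncomputable def vals (𝒜 : ℕ × ℤ → Submodule ℂ R) [GradedAlgebra 𝒜] (μ : ℤ) (f : R) (K : Type)
    [Field K] [Algebra R K] [Algebra ℂ K] [IsScalarTower ℂ R K] (u : Fin n → R) (w : Fin n → ℤ) :
    Option {i : Fin n // 0 < w i} → K :=
  fun o => o.elim (algebraMap R K f) (xi 𝒜 μ f K u w)

/-- evaluation at `f` and the coordinates -/
noncomputable def Psi (𝒜 : ℕ × ℤ → Submodule ℂ R) [GradedAlgebra 𝒜] (μ : ℤ) (f : R) (K : Type)
    [Field K] [Algebra R K] [Algebra ℂ K] [IsScalarTower ℂ R K] (u : Fin n → R) (w : Fin n → ℤ) :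
    MvPolynomial (Option {i : Fin n // 0 < w i}) ℂ →ₐ[ℂ] K :=
  MvPolynomial.aeval (vals 𝒜 μ f K u w)

theorem Psi_none : Psi 𝒜 μ f K u w (MvPolynomial.X none) = algebraMap R K f := by
  unfold Psi
  rw [MvPolynomial.aeval_X]
  rfl

theorem Psi_some (i : {i : Fin n // 0 < w i}) :
    Psi 𝒜 μ f K u w (MvPolynomial.X (some i)) = xi 𝒜 μ f K u w i := by
  unfold Psi
  rw [MvPolynomial.aeval_X]
  rfl

theorem Psi_rename (P : MvPolynomial {i : Fin n // 0 < w i} ℂ) :
    Psi 𝒜 μ f K u w (MvPolynomial.rename some P) = MvPolynomial.aeval (xi 𝒜 μ f K u w) P := by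
  unfold Psi
  rw [MvPolynomial.aeval_rename]
  rfl

/-- every element of `K` in the range of `Psi` is a fraction with denominator a power of `f` -/
theorem clear_Psi (hf : f ∈ 𝒜 (1, μ)) (hf0 : algebraMap R K f ≠ 0)
    (Q : MvPolynomial (Option {i : Fin n // 0 < w i}) ℂ) :
    ∃ (N : ℕ) (r : R), algebraMap R K f ^ N * Psi 𝒜 μ f K u w Q = algebraMap R K r := by
  induction Q using MvPolynomial.induction_on with
  | C c =>
    refine ⟨0, algebraMap ℂ R c, ?_⟩
    rw [pow_zero, one_mul, ← IsScalarTower.algebraMap_apply]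
    exact MvPolynomial.aeval_C _ _
  | add P Q hP hQ =>
    obtain ⟨N, r, h1⟩ := hP
    obtain ⟨M, s, h2⟩ := hQ
    refine ⟨N + M, f ^ M * r + f ^ N * s, ?_⟩
    rw [map_add, map_add, map_mul, map_mul, map_pow, map_pow, ← h1, ← h2]
    ring
  | mul_X P o hP =>
    obtain ⟨N, r, h1⟩ := hP
    have : ∃ (M : ℕ) (s : R), algebraMap R K f ^ M * Psi 𝒜 μ f K u w (MvPolynomial.X o) =
        algebraMap R K s := by
      cases o with
      | none => exact ⟨0, f, by rw [pow_zero, one_mul, Psi_none]⟩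
      | some i =>
        obtain ⟨M, b, -, hb⟩ := HH.of_cf (K := K) (μ := μ) hf hf0 (w i) (u i)
        exact ⟨M, b, by rw [Psi_some]; exact hb⟩
    obtain ⟨M, s, h2⟩ := this
    refine ⟨N + M, r * s, ?_⟩
    rw [map_mul, map_mul, ← h1, ← h2]
    ring

variable [IsDomain R] [IsNoetherianRing R]

/-- homogeneous elements as values of polynomials -/
theorem exists_hom_poly (S : SrcData 𝒜 μ p f) (hf0 : algebraMap R K f ≠ 0)
    (G : Gens (coarse 𝒜 (wt μ)) p u w) {d : ℕ} {m : ℤ} {h : R} (hh : h ∈ 𝒜 (d, m)) :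
    ∃ P : MvPolynomial {i : Fin n // 0 < w i} ℂ,
      MvPolynomial.IsWeightedHomogeneous (fun i : {i : Fin n // 0 < w i} => w i) P
        (m - (d : ℤ) * μ) ∧
      Psi 𝒜 μ f K u w (MvPolynomial.X none ^ d * MvPolynomial.rename some P) =
        algebraMap R K h := by
  obtain ⟨P, hP, hP'⟩ := exists_poly (K := K) S hf0 G (m - (d : ℤ) * μ) h
  refine ⟨P, hP, ?_⟩
  rw [map_mul, map_pow, Psi_none, Psi_rename, hP', cf_of_mem hh, if_pos rfl, zpow_neg,
    zpow_natCast, mul_comm, mul_assoc, inv_mul_cancel₀ (pow_ne_zero _ hf0), mul_one]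

theorem exists_Psi (S : SrcData 𝒜 μ p f) (hf0 : algebraMap R K f ≠ 0)
    (G : Gens (coarse 𝒜 (wt μ)) p u w) (h : R) :
    ∃ Q, Psi 𝒜 μ f K u w Q = algebraMap R K h := by
  induction h using DirectSum.Decomposition.inductionOn 𝒜 with
  | zero => exact ⟨0, by rw [map_zero, map_zero]⟩
  | homogeneous h =>
    rename_i g
    obtain ⟨h, hh⟩ := h
    obtain ⟨d, m⟩ := g
    obtain ⟨P, -, hP⟩ := exists_hom_poly S hf0 G hh
    exact ⟨_, hP⟩
  | add x y hx hy =>
    obtain ⟨P, hP⟩ := hx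
    obtain ⟨Q, hQ⟩ := hy
    exact ⟨P + Q, by rw [map_add, map_add, hP, hQ]⟩

/-- some parameter has weight at most zero -/
theorem exists_nonpos (S : SrcData 𝒜 μ p f) (G : Gens (coarse 𝒜 (wt μ)) p u w) :
    ∃ i, ¬ 0 < w i := by
  by_contra hcon
  push Not at hcon
  obtain ⟨s, hs0, hs1, hs⟩ := G.gen
  have hfk : f - 1 ∈ mx p := by rw [mem_mx, map_sub, S.pf, map_one, sub_self]
  obtain ⟨c, hc⟩ := Ideal.mem_span_range_iff_exists_fun.1 (hs _ hfk)
  have hf1 : f - 1 ∈ coarse 𝒜 (wt μ) 0 := by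
    refine Submodule.sub_mem _ (mem_coarse S.hf (by rw [wt_apply]; simp)) ?_
    exact SetLike.one_mem_graded (coarse 𝒜 (wt μ))
  have h1 : s * (f - 1) ∈ coarse 𝒜 (wt μ) 0 := by
    have := SetLike.mul_mem_graded hs0 hf1
    rwa [add_zero] at this
  have h2 : s * (f - 1) = 0 := by
    rw [← pr_same 𝒜 μ h1, ← hc, map_sum]
    refine Finset.sum_eq_zero fun i _ => ?_
    rw [pr_mul 𝒜 μ 0 (c i) (G.hom i)]
    have : pr 𝒜 μ (0 - w i) (c i) = 0 :=
      eq_zero_of_neg S.gen S.fix S.pos S.hf S.pf (k := 0 - w i) (by have := hcon i; omega)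
        (pr_mem 𝒜 μ _ _)
    rw [this, zero_mul]
  rcases mul_eq_zero.1 h2 with h3 | h3
  · rw [h3, map_zero] at hs1
    exact zero_ne_one hs1
  · rw [sub_eq_zero] at h3
    have h4 : (1 : R) ∈ 𝒜 (0, 0) := by
      have := SetLike.one_mem_graded 𝒜
      exact this
    have h5 : (1 : R) ∈ 𝒜 (1, μ) := by rw [← h3]; exact S.hf
    have h6 : (1 : R) = 0 := by
      rw [← DirectSum.decompose_of_mem_same 𝒜 h4, DirectSum.decompose_of_mem_ne 𝒜 h5 (by simp)]
    exact one_ne_zero h6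

/-- `f` and the coordinates are algebraically independent -/
theorem Psi_injective (hK : Function.Injective (algebraMap R K)) (S : SrcData 𝒜 μ p f)
    (hf0 : algebraMap R K f ≠ 0)
    (G : Gens (coarse 𝒜 (wt μ)) p u w) (hn : (n : ℕ∞) ≤ (mx p).height) :
    Function.Injective (Psi 𝒜 μ f K u w) := by
  rw [injective_iff_map_eq_zero]
  intro Q hQ
  by_contra hQ0
  -- the range
  set B := (Psi 𝒜 μ f K u w).range with hB
  let j : R →+* B := ((algebraMap R K).codRestrict B.toSubring (fun h => by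
    obtain ⟨Q, hQ⟩ := exists_Psi S hf0 G h
    exact ⟨Q, hQ⟩))
  have hj : Function.Injective j := by
    intro x y hxy
    exact hK (congrArg Subtype.val hxy)
  have h1 : ((mx p).height : WithBot ℕ∞) ≤ ringKrullDim B := by
    refine height_le_krullDim j hj (f := f) (mx p) ?_ ?_
    · rw [mem_mx, S.pf]; exact one_ne_zero
    · rintro ⟨b, Q, rfl⟩
      obtain ⟨N, r, h⟩ := clear_Psi (u := u) (w := w) S.hf hf0 Q
      exact ⟨N, r, Subtype.ext h⟩
  have h2 : ringKrullDim B + 1 ≤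
      ringKrullDim (MvPolynomial (Option {i : Fin n // 0 < w i}) ℂ) :=
    ringKrullDim_succ_le_of_surjective ((Psi 𝒜 μ f K u w).rangeRestrict : _ →+* B)
      (AlgHom.rangeRestrict_surjective _) (r := Q) (mem_nonZeroDivisors_of_ne_zero hQ0)
      (Subtype.ext hQ)
  rw [MvPolynomial.ringKrullDim_of_isNoetherianRing, ringKrullDim_eq_zero_of_field, zero_add] at h2
  have h3 : Nat.card (Option {i : Fin n // 0 < w i}) ≤ n := by
    obtain ⟨i, hi⟩ := exists_nonpos S G
    rw [Nat.card_eq_fintype_card, Fintype.card_option]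
    have : Fintype.card {i : Fin n // 0 < w i} < Fintype.card (Fin n) :=
      Fintype.card_subtype_lt hi
    rwa [Fintype.card_fin] at this
  have h4 : ((n : ℕ∞) : WithBot ℕ∞) + 1 ≤ ((n : ℕ∞) : WithBot ℕ∞) := by
    calc ((n : ℕ∞) : WithBot ℕ∞) + 1 ≤ ((mx p).height : WithBot ℕ∞) + 1 := by
          gcongr
          exact WithBot.coe_le_coe.2 hn
      _ ≤ ringKrullDim B + 1 := by gcongr
      _ ≤ _ := h2
      _ ≤ _ := by exact_mod_cast h3
  have h5 : n + 1 ≤ n := by exact_mod_cast h4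
  omega

end

end Vale.Agent.P280.H939
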