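import Vale.Agent.P280.H939.R3h

/-!
# P280, row R3 (i): (s3), tangent vectors of positive weight at the source are values of
derivations of positive degree
-/

namespace Vale.Agent.P280.H939

open DirectSum Vale.Agent.P280.T Vale.Agent.P280.H127

section
variable {R : Type} [CommRing R] [Algebra ℂ R] {𝒜 : ℕ × ℤ → Submodule ℂ R} [GradedAlgebra 𝒜]
  {μ a : ℤ} {p : R →ₐ[ℂ] ℂ} {f : R} {K : Type} [Field K] [Algebra R K] [Algebra ℂ K]
  [IsScalarTower ℂ R K] {n : ℕ} {u : Fin n → R} {w : Fin n → ℤ} [IsDomain R] [IsNoetherianRing R]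

/-- bidegree of the derivation -/
theorem deriv_bideg (hK : Function.Injective (algebraMap R K)) (S : SrcData 𝒜 μ p f)
    (hf0 : algebraMap R K f ≠ 0) (G : Gens (coarse 𝒜 (wt μ)) p u w)
    {c : {i : Fin n // 0 < w i} → ℂ} {w0 : ℤ} (hc : ∀ i, c i ≠ 0 → w i = w0) {N : ℕ}
    {D1 : Derivation ℂ R R}
    (hD1 : ∀ (h : R) (Q : MvPolynomial (Option {i : Fin n // 0 < w i}) ℂ),
      Psi 𝒜 μ f K u w Q = algebraMap R K h →
        algebraMap R K (D1 h) = algebraMap R K f ^ N * Psi 𝒜 μ f K u w (D00 c Q))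
    {d : ℕ} {m : ℤ} {h : R} (hh : h ∈ 𝒜 (d, m)) : D1 h ∈ 𝒜 (d + N, m + N • μ - w0) := by
  obtain ⟨P, hP, hPh⟩ := exists_hom_poly (K := K) S hf0 G hh
  obtain ⟨P', hP', hD⟩ := D00_weight c hc hP
  have h1 := hD1 h _ hPh
  rw [D00_none_pow, hD, map_mul, map_pow, Psi_none, Psi_rename] at h1
  obtain ⟨M, b, hb, hb'⟩ := HH.aeval (f := f) (x := xi 𝒜 μ f K u w) S.hf
    (fun i => HH.of_cf S.hf hf0 (w i) (u i)) hP'
  have h2 : f ^ M * D1 h = f ^ (N + d) * b := by
    apply hK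
    rw [map_mul, map_mul, map_pow, map_pow, h1, ← hb', pow_add]
    ring
  have hfne : f ≠ 0 := by
    rintro rfl
    exact hf0 (map_zero _)
  refine mem_of_mul_mem' (𝒜 := 𝒜) (pow_ne_zero M hfne) (pow_f S.hf M) ?_
  rw [h2]
  have h3 := SetLike.mul_mem_graded (pow_f S.hf (N + d)) hb
  rw [Prod.mk_add_mk] at h3 ⊢
  have e1 : N + d + M = M + (d + N) := by ring
  have e2 : ((N + d : ℕ) : ℤ) * μ + ((M : ℤ) * μ + (m - (d : ℤ) * μ - w0)) =
      (M : ℤ) * μ + (m + N • μ - w0) := by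
    rw [nsmul_eq_mul]
    push_cast
    ring
  rwa [e1, e2] at h3

/-- value of the derivation at the source -/
theorem deriv_val (hK : Function.Injective (algebraMap R K)) (S : SrcData 𝒜 μ p f)
    (hf0 : algebraMap R K f ≠ 0) (G : Gens (coarse 𝒜 (wt μ)) p u w)
    (hinj : Function.Injective (Psi 𝒜 μ f K u w))
    {c : {i : Fin n // 0 < w i} → ℂ} {w0 : ℤ} (hc : ∀ i, c i ≠ 0 → w i = w0) {N : ℕ}
    {D1 : Derivation ℂ R R}
    (hD1 : ∀ (h : R) (Q : MvPolynomial (Option {i : Fin n // 0 < w i}) ℂ),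
      Psi 𝒜 μ f K u w Q = algebraMap R K h →
        algebraMap R K (D1 h) = algebraMap R K f ^ N * Psi 𝒜 μ f K u w (D00 c Q))
    {x : R} (hx : x ∈ coarse 𝒜 (wt μ) w0) :
    ∀ Q, Psi 𝒜 μ f K u w Q = cf 𝒜 μ f K w0 x →
      Psi 𝒜 μ f K u w (D00 c Q) = algebraMap ℂ K (p (D1 x)) := by
  refine coarse_induction (P := fun x => ∀ Q, Psi 𝒜 μ f K u w Q = cf 𝒜 μ f K w0 x →
      Psi 𝒜 μ f K u w (D00 c Q) = algebraMap ℂ K (p (D1 x))) ?_ ?_ ?_ hx
  · intro Q hQ
    rw [map_zero] at hQ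
    have : Q = 0 := hinj (by rw [hQ, map_zero])
    rw [this, map_zero, map_zero, map_zero, map_zero, map_zero]
  · intro x y hx hy Q hQ
    obtain ⟨P, -, hP⟩ := exists_poly (K := K) S hf0 G w0 x
    obtain ⟨P', -, hP'⟩ := exists_poly (K := K) S hf0 G w0 y
    have : Q = MvPolynomial.rename some P + MvPolynomial.rename some P' :=
      hinj (by rw [hQ, map_add, map_add, Psi_rename, Psi_rename, hP, hP'])
    rw [this, map_add, map_add, hx _ (by rw [Psi_rename, hP]), hy _ (by rw [Psi_rename, hP']),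
      map_add, map_add, map_add]
  · rintro ⟨d, m⟩ hi h hh Q hQ
    rw [wt_apply] at hi
    rw [cf_of_mem hh, if_pos hi] at hQ
    have h1 : Psi 𝒜 μ f K u w (MvPolynomial.X none ^ d * Q) = algebraMap R K h := by
      rw [map_mul, map_pow, Psi_none, hQ, zpow_neg, zpow_natCast, mul_comm, mul_assoc,
        inv_mul_cancel₀ (pow_ne_zero _ hf0), mul_one]
    have h2 := hD1 h _ h1
    rw [D00_none_pow, map_mul, map_pow, Psi_none] at h2
    have h3 := deriv_bideg hK S hf0 G hc hD1 hh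
    have e : m + N • μ - w0 = (d + N) • μ := by
      rw [nsmul_eq_mul, nsmul_eq_mul]
      push_cast
      linarith
    rw [e] at h3
    have h4 := eq_of_zero_weight S.gen S.fix S.pos S.hf S.pf h3
    have h5 : algebraMap R K (D1 h) =
        algebraMap ℂ K (p (D1 h)) * algebraMap R K f ^ (d + N) := by
      conv_lhs => rw [h4]
      rw [Algebra.smul_def, map_mul, map_pow, ← IsScalarTower.algebraMap_apply]
    rw [h5] at h2
    have h6 : algebraMap R K f ^ (d + N) ≠ 0 := pow_ne_zero _ hf0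
    apply mul_left_cancel₀ h6
    rw [mul_comm _ (algebraMap ℂ K _), h2, pow_add]
    ring

end

section final

variable {R : Type} [CommRing R] [Algebra ℂ R] {𝒜 : ℕ × ℤ → Submodule ℂ R} [GradedAlgebra 𝒜]
  {μ a : ℤ} {p : R →ₐ[ℂ] ℂ}

/-- (s3) -/
theorem source_s3 (hX : IsTorusManifold 𝒜) (hp : IsSource 𝒜 (AddMonoidHom.id ℤ) p μ a)
    {w0 : ℤ} {v : R →ₗ[ℂ] ℂ} (hw0 : 0 < w0) (hv : IsTangent p v) (hvw : HasWeight 𝒜 μ w0 v) :
    ∃ (N : ℕ) (D1 : Derivation ℂ R R),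
      (∀ (d : ℕ) (m : ℤ), ∀ h ∈ 𝒜 (d, m), D1 h ∈ 𝒜 (d + N, m + N • μ - w0)) ∧
      ∀ h, p (D1 h) = v h := by
  have := hX.domain
  have := hX.finiteType
  have : IsNoetherianRing R := Algebra.FiniteType.isNoetherianRing ℂ R
  have hpos : ∀ χ : ℤ, TangentWeight 𝒜 p μ χ → 0 < χ := fun χ h => (hp.2.2 χ h).1
  obtain ⟨f, hf, pf⟩ := source_s1 hX hp
  have S : SrcData 𝒜 μ p f := ⟨hX.gen, hp.2.1, hpos, hf, pf⟩
  let K := FractionRing R
  have hK : Function.Injective (algebraMap R K) := IsFractionRing.injective R K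
  have hfne : f ≠ 0 := by
    rintro rfl
    rw [map_zero] at pf
    exact zero_ne_one pf
  have hf0 : algebraMap R K f ≠ 0 := fun h => hfne (hK (by rw [h, map_zero]))
  have hfix : Fix (coarse 𝒜 (wt μ)) p := fix_coarse hp.2.1
  obtain ⟨n, u, w, G, hn⟩ := exists_params hfix (hX.smooth p hp.1 (mx p) rfl)
  have hinj : Function.Injective (Psi 𝒜 μ f K u w) := Psi_injective hK S hf0 G hn.le
  -- vanishing of `v` on other weights
  have hvne : ∀ {k : ℤ}, k ≠ w0 → ∀ {x : R}, x ∈ coarse 𝒜 (wt μ) k → v x = 0 := by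
    intro k hk x hx
    refine coarse_induction (P := fun x => v x = 0) (map_zero v)
      (fun a b ha hb => by rw [map_add, ha, hb, add_zero]) ?_ hx
    rintro ⟨d, m⟩ hi h hh
    by_contra hne
    have hm := hvw d m h hh hne
    rw [wt_apply, hm] at hi
    apply hk
    rw [← hi, nsmul_eq_mul]
    ring
  set c : {i : Fin n // 0 < w i} → ℂ := fun i => v (u i) with hcdef
  have hc : ∀ i, c i ≠ 0 → w i = w0 := by
    intro i hi
    by_contra hne
    exact hi (hvne hne (G.hom i))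
  obtain ⟨N, D1, hD1⟩ := exists_deriv (K := K) (Psi 𝒜 μ f K u w) hinj hK f
    (exists_Psi S hf0 G) (clear_Psi hf hf0) (D00 c)
  have hbi : ∀ (d : ℕ) (m : ℤ), ∀ h ∈ 𝒜 (d, m), D1 h ∈ 𝒜 (d + N, m + N • μ - w0) :=
    fun d m h hh => deriv_bideg hK S hf0 G hc hD1 hh
  refine ⟨N, D1, hbi, ?_⟩
  -- the values on the parameters
  have hDne : ∀ {k : ℤ}, k ≠ w0 → ∀ {x : R}, x ∈ coarse 𝒜 (wt μ) k → p (D1 x) = 0 := by
    intro k hk x hx
    refine coarse_induction (P := fun x => p (D1 x) = 0) (by rw [map_zero, map_zero])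
      (fun a b ha hb => by rw [map_add, map_add, ha, hb, add_zero]) ?_ hx
    rintro ⟨d, m⟩ hi h hh
    by_contra hne
    have hm := hp.2.1 _ _ _ (hbi d m h hh) hne
    rw [wt_apply] at hi
    apply hk
    rw [← hi]
    rw [nsmul_eq_mul, nsmul_eq_mul] at hm
    push_cast at hm
    linarith
  have hval : ∀ i, p (D1 (u i)) = v (u i) := by
    intro i
    by_cases hi : w i = w0
    · have hi0 : 0 < w i := by rw [hi]; exact hw0
      have hui : u i ∈ coarse 𝒜 (wt μ) w0 := by rw [← hi]; exact G.hom i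
      have h1 := deriv_val hK S hf0 G hinj hc hD1 hui (MvPolynomial.X (some ⟨i, hi0⟩)) (by
        rw [Psi_some]
        unfold xi
        change cf 𝒜 μ f K (w i) (u i) = _
        rw [hi])
      rw [D00_some] at h1
      have h2 : Psi 𝒜 μ f K u w (MvPolynomial.C (c ⟨i, hi0⟩)) = algebraMap ℂ K (v (u i)) :=
        MvPolynomial.aeval_C _ _
      rw [h2] at h1
      exact ((algebraMap ℂ K).injective h1).symm
    · rw [hDne hi (G.hom i), hvne hi (G.hom i)]
  obtain ⟨vv, -, -, -, hdual⟩ := G.exists_dual hfix hn.le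
  have hT1 : Tan p (p.toLinearMap ∘ₗ (D1 : R →ₗ[ℂ] R)) := by
    intro x y
    change p (D1 (x * y)) = p x * p (D1 y) + p y * p (D1 x)
    rw [D1.leibniz, map_add, smul_eq_mul, smul_eq_mul, map_mul, map_mul]
  have h1 := hdual _ hT1
  have h2 := hdual v hv
  have h3 : p.toLinearMap ∘ₗ (D1 : R →ₗ[ℂ] R) = v := by
    rw [h1, h2]
    exact Finset.sum_congr rfl fun i _ => by
      rw [show (p.toLinearMap ∘ₗ (D1 : R →ₗ[ℂ] R)) (u i) = v (u i) from hval i]
  intro h
  exact LinearMap.congr_fun h3 h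

end final

end Vale.Agent.P280.H939
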