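import Vale.Agent.P280.H939.OrbA
import Vale.Agent.P280.H939.OrbB

/-!
# P280 (T): a homogeneous torus manifold with an isolated source is one orbit
-/

namespace Vale.Agent.P280.H939

open DirectSum Vale.Agent.P280.T

variable {M : Type} [AddCommGroup M] [DecidableEq M]
variable {R : Type} [CommRing R] [Algebra ℂ R] {𝒜 : ℕ × M → Submodule ℂ R} [GradedAlgebra 𝒜]

omit [GradedAlgebra 𝒜] in
theorem co_le_deg (l : M →+ ℤ) (d : ℕ) (k : ℤ) : H587.co 𝒜 l (d, k) ≤ deg 𝒜 d := by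
  intro x hx
  refine H587.co_induction (P := fun x => x ∈ deg 𝒜 d) (Submodule.zero_mem _)
    (fun a b ha hb => Submodule.add_mem _ ha hb) ?_ hx
  intro m _ h hh
  exact (le_iSup (fun m : M => 𝒜 (d, m)) m) hh

omit [GradedAlgebra 𝒜] in
theorem deg_le_co (l : M →+ ℤ) (d : ℕ) : deg 𝒜 d ≤ ⨆ k : ℤ, H587.co 𝒜 l (d, k) := by
  refine iSup_le fun m x hx => ?_
  exact (le_iSup (fun k : ℤ => H587.co 𝒜 l (d, k)) (l m)) (H587.mem_co hx)

omit [GradedAlgebra 𝒜] in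
theorem isField_of_co {l : M →+ ℤ} {D : Derivation ℂ R R} (hD : IsField (H587.co 𝒜 l) D) :
    IsField 𝒜 D := by
  intro d m h hh
  exact (iSup_le fun k => co_le_deg l d k :
    (⨆ k : ℤ, H587.co 𝒜 l (d, k)) ≤ deg 𝒜 d) (hD d (l m) h (H587.mem_co hh))

omit [GradedAlgebra 𝒜] in
theorem isField_co {l : M →+ ℤ} {D : Derivation ℂ R R} (hD : IsField 𝒜 D) :
    IsField (H587.co 𝒜 l) D := fun d k _ hh =>
  deg_le_co l d (field_deg hD (co_le_deg l d k hh))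

omit [GradedAlgebra 𝒜] in
theorem OrbRel.of_co {l : M →+ ℤ} {z z' : R →ₐ[ℂ] ℂ} (h : OrbRel (H587.co 𝒜 l) z z') :
    OrbRel 𝒜 z z' := by
  obtain ⟨F, hF, h1⟩ := h
  refine ⟨F, ?_, h1⟩
  refine (Subgroup.closure_mono ?_ : Gam (H587.co 𝒜 l) ≤ Gam 𝒜) hF
  rintro F ⟨D, hD, h2⟩
  exact ⟨D, isField_of_co hD, h2⟩

/-- every orbit contains the source -/
theorem orb_to_source (hX : IsTorusManifold 𝒜) {l : M →+ ℤ} {p : R →ₐ[ℂ] ℂ} {μ : M} {a : ℤ}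
    (hs : IsSource 𝒜 l p μ a) (hH : IsHomogeneousManifold 𝒜) {z : R →ₐ[ℂ] ℂ}
    (hz : ¬ IsVertex 𝒜 z) : OrbRel 𝒜 z p := by
  have := hX.domain
  have := hX.finiteType
  have : IsNoetherianRing R := Algebra.FiniteType.isNoetherianRing ℂ R
  have hX' : IsTorusManifold (H587.co 𝒜 l) := H587.isTorusManifold_co hX
  have hs' := H587.isSource_co hs
  have hH' : IsHomogeneousManifold (H587.co 𝒜 l) := by
    intro q hq v hv
    obtain ⟨D, hD, hDv⟩ := hH q (fun h => hq (H587.isVertex_co.2 h)) v hv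
    exact ⟨D, isField_co hD, hDv⟩
  obtain ⟨f, hf, pf⟩ := source_s1 hX' hs'
  have hfne : f ≠ 0 := by
    rintro rfl
    rw [map_zero] at pf
    exact zero_ne_one pf
  obtain ⟨F, hF, hFz⟩ := dense hX hH hz hfne
  have h1 : OrbRel 𝒜 z (z.comp (F : R →ₐ[ℂ] R)) := ⟨F, hF, fun _ => rfl⟩
  exact h1.trans (OrbRel.of_co (orb_source hX' hs' hH' hf pf hFz))

/-- (T) -/
theorem transitive (hX : IsTorusManifold 𝒜) {l : M →+ ℤ} {p : R →ₐ[ℂ] ℂ} {μ : M} {a : ℤ}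
    (hs : IsSource 𝒜 l p μ a) (hH : IsHomogeneousManifold 𝒜) {z z' : R →ₐ[ℂ] ℂ}
    (hz : ¬ IsVertex 𝒜 z) (hz' : ¬ IsVertex 𝒜 z') : OrbRel 𝒜 z z' :=
  (orb_to_source hX hs hH hz).trans (orb_to_source hX hs hH hz').symm

/-- (T), explicitly: the graded automorphisms of `R` act transitively on the cone minus its
vertex, so the automorphisms of `X` act transitively on `X`. -/
theorem transitive' (hX : IsTorusManifold 𝒜) {l : M →+ ℤ} {p : R →ₐ[ℂ] ℂ} {μ : M} {a : ℤ}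
    (hs : IsSource 𝒜 l p μ a) (hH : IsHomogeneousManifold 𝒜) {z z' : R →ₐ[ℂ] ℂ}
    (hz : ¬ IsVertex 𝒜 z) (hz' : ¬ IsVertex 𝒜 z') :
    ∃ F : R ≃ₐ[ℂ] R, (∀ (d : ℕ) (m : M), ∀ h ∈ 𝒜 (d, m), F h ∈ ⨆ m' : M, 𝒜 (d, m')) ∧
      ∀ h, z' h = z (F h) := by
  obtain ⟨F, hF, h1⟩ := transitive hX hs hH hz hz'
  exact ⟨F, fun d m h hh => (Gam.graded (finite_deg hX) hF).1 d h
    ((le_iSup (fun m : M => 𝒜 (d, m)) m) hh), h1⟩

end Vale.Agent.P280.H939
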